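import Vale.Agent.P174.NonV

/-! An inductively generated algebra of smooth functions and derivations along flows. -/

namespace Vale.Agent.P174

open scoped TensorProduct ContDiff
open MeasureTheory

set_option linter.unusedSectionVars false
set_option linter.unusedSimpArgs false

lemma cd_deriv {g : ℝ → ℝ} (hg : ContDiff ℝ ∞ g) : ContDiff ℝ ∞ (deriv g) := hg.iterate_deriv 1

section Sm
variable {Z : Type} (gen : Set (Z → ℂ))

/-- Functions generated from `gen` by algebra operations, inverses and smooth calculus. -/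
inductive Sm : (Z → ℂ) → Prop
  | gen {f} : f ∈ gen → Sm f
  | const (c : ℂ) : Sm fun _ => c
  | add {f g} : Sm f → Sm g → Sm (f + g)
  | mul {f g} : Sm f → Sm g → Sm (f * g)
  | inv {f g} : Sm f → f * g = 1 → Sm g
  | comp {u} (g : ℝ → ℝ) : ContDiff ℝ ∞ g → Sm u → (∀ z, (u z).im = 0) →
      Sm fun z => (g (u z).re : ℂ)

def SmA : Subalgebra ℂ (Z → ℂ) where
  carrier := {f | Sm gen f}
  mul_mem' := Sm.mul
  add_mem' := Sm.add
  algebraMap_mem' c := Sm.const c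

variable {gen}

def cmp (g : ℝ → ℝ) (hg : ContDiff ℝ ∞ g) (u : SmA gen) (hu : ∀ z, (u.1 z).im = 0) : SmA gen :=
  ⟨fun z => (g (u.1 z).re : ℂ), Sm.comp g hg u.2 hu⟩

lemma SmA.induction {p : SmA gen → Prop} (h1 : ∀ f (hf : f ∈ gen), p ⟨f, Sm.gen hf⟩)
    (h2 : ∀ c, p (algebraMap ℂ _ c)) (h3 : ∀ f g, p f → p g → p (f + g))
    (h4 : ∀ f g, p f → p g → p (f * g)) (h5 : ∀ f g, f * g = 1 → p f → p g)
    (h6 : ∀ g hg u hu, p u → p (cmp g hg u hu)) (f : SmA gen) : p f := by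
  obtain ⟨f, hf⟩ := f
  induction hf with
  | gen hf => exact h1 _ hf
  | const c => exact h2 c
  | add hf hg i1 i2 => exact h3 _ _ i1 i2
  | mul hf hg i1 i2 => exact h4 _ _ i1 i2
  | inv hf e i1 => exact h5 _ _ (Subtype.ext e) i1
  | comp g hg hu hi i1 => exact h6 g hg _ hi i1

lemma Sm.continuous [TopologicalSpace Z] (hc : ∀ f ∈ gen, Continuous f) {f : Z → ℂ}
    (hf : Sm gen f) : Continuous f := by
  induction hf with
  | gen hf => exact hc _ hf
  | const c => exact continuous_const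
  | add hf hg i1 i2 => exact i1.add i2
  | mul hf hg i1 i2 => exact i1.mul i2
  | @inv f g hf e i1 =>
    have e' : ∀ z, f z * g z = 1 := congrFun e
    have : g = fun z => (f z)⁻¹ := funext fun z => eq_inv_of_mul_eq_one_right (e' z)
    rw [this]
    exact i1.inv₀ fun z => left_ne_zero_of_mul_eq_one (e' z)
  | comp g hg hu hi i1 =>
    exact Complex.continuous_ofReal.comp (hg.continuous.comp (Complex.continuous_re.comp i1))

lemma hasDerivAt_cmp {g : ℝ → ℝ} (hg : ContDiff ℝ ∞ g) {u : ℝ → ℂ} {u' : ℂ} {t : ℝ}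
    (hu : HasDerivAt u u' t) (hi : ∀ t, (u t).im = 0) :
    HasDerivAt (fun t => (g (u t).re : ℂ)) ((deriv g (u t).re : ℝ) * u') t := by
  have h1 : HasDerivAt (fun t => (u t).re) u'.re t :=
    Complex.reCLM.hasFDerivAt.comp_hasDerivAt t hu
  have h2 : HasDerivAt (fun t => (u t).im) u'.im t :=
    Complex.imCLM.hasFDerivAt.comp_hasDerivAt t hu
  have h3 : u'.im = 0 := by
    simp only [hi] at h2
    exact h2.unique (hasDerivAt_const _ _)
  have h4 := ((hg.differentiable (by simp)) (u t).re).hasDerivAt.comp t h1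
  refine HasDerivAt.congr_deriv h4.ofReal_comp ?_
  push_cast
  congr 1
  exact Complex.ext (by simp) (by simp [h3])

/-- The flow `φ` differentiates the generators inside the algebra. -/
def Flow (gen : Set (Z → ℂ)) (φ : ℝ → Z → Z) : Prop := (∀ z, φ 0 z = z) ∧
  ∀ f ∈ gen, ∃ f', Sm gen f' ∧ ∀ z, HasDerivAt (fun t => f (φ t z)) (f' z) 0

lemma Flow.exists {φ : ℝ → Z → Z} (h : Flow gen φ) {f : Z → ℂ} (hf : Sm gen f) :
    ∃ f', Sm gen f' ∧ ∀ z, HasDerivAt (fun t => f (φ t z)) (f' z) 0 := by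
  induction hf with
  | gen hf => exact h.2 _ hf
  | const c => exact ⟨_, Sm.const 0, fun z => hasDerivAt_const _ _⟩
  | add hf hg i1 i2 =>
    obtain ⟨f', a1, a2⟩ := i1
    obtain ⟨g', b1, b2⟩ := i2
    exact ⟨_, a1.add b1, fun z => (a2 z).add (b2 z)⟩
  | mul hf hg i1 i2 =>
    obtain ⟨f', a1, a2⟩ := i1
    obtain ⟨g', b1, b2⟩ := i2
    refine ⟨_, (a1.mul hg).add (hf.mul b1), fun z => ?_⟩
    refine HasDerivAt.congr_deriv ((a2 z).mul (b2 z)) ?_
    simp [h.1]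
  | @inv f g hf e i1 =>
    obtain ⟨f', a1, a2⟩ := i1
    have e' : ∀ z, f z * g z = 1 := congrFun e
    have hg : g = fun z => (f z)⁻¹ := funext fun z => eq_inv_of_mul_eq_one_right (e' z)
    have hg' : Sm gen g := hf.inv e
    refine ⟨_, (Sm.const (-1)).mul (a1.mul (hg'.mul hg')), fun z => ?_⟩
    have h0 : f (φ 0 z) ≠ 0 := left_ne_zero_of_mul_eq_one (e' _)
    rw [hg]
    refine HasDerivAt.congr_deriv ((a2 z).inv h0) ?_
    rw [h.1] at h0 ⊢
    simp only [Pi.mul_apply]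
    field_simp
  | @comp u g hg hu hi i1 =>
    obtain ⟨f', a1, a2⟩ := i1
    refine ⟨_, (Sm.comp (deriv g) (cd_deriv hg) hu hi).mul a1, fun z => ?_⟩
    refine HasDerivAt.congr_deriv (hasDerivAt_cmp hg (a2 z) fun t => hi _) ?_
    simp [h.1]

noncomputable def Flow.fn {φ : ℝ → Z → Z} (h : Flow gen φ) (f : SmA gen) : SmA gen :=
  ⟨(h.exists f.2).choose, (h.exists f.2).choose_spec.1⟩

lemma Flow.fn_spec {φ : ℝ → Z → Z} (h : Flow gen φ) (f : SmA gen) (z : Z) :
    HasDerivAt (fun t => f.1 (φ t z)) ((h.fn f).1 z) 0 := (h.exists f.2).choose_spec.2 z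

lemma Flow.fn_eq {φ : ℝ → Z → Z} (h : Flow gen φ) {f f' : SmA gen}
    (H : ∀ z, HasDerivAt (fun t => f.1 (φ t z)) (f'.1 z) 0) : h.fn f = f' :=
  Subtype.ext (funext fun z => (h.fn_spec f z).unique (H z))

/-- The derivation along a flow. -/
noncomputable def Flow.der {φ : ℝ → Z → Z} (h : Flow gen φ) : Derivation ℂ (SmA gen) (SmA gen) :=
  Derivation.mk'
    { toFun := h.fn
      map_add' := fun f g => h.fn_eq fun z => (h.fn_spec f z).add (h.fn_spec g z)
      map_smul' := fun c f => h.fn_eq fun z => (h.fn_spec f z).const_mul c }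
    fun f g => h.fn_eq fun z => by
      refine HasDerivAt.congr_deriv ((h.fn_spec f z).mul (h.fn_spec g z)) ?_
      simp [h.1]
      ring

lemma Flow.der_spec {φ : ℝ → Z → Z} (h : Flow gen φ) (f : SmA gen) (z : Z) :
    HasDerivAt (fun t => f.1 (φ t z)) ((h.der f).1 z) 0 := h.fn_spec f z

lemma Flow.der_eq {φ : ℝ → Z → Z} (h : Flow gen φ) {f f' : SmA gen}
    (H : ∀ z, HasDerivAt (fun t => f.1 (φ t z)) (f'.1 z) 0) : h.der f = f' := h.fn_eq H

lemma Flow.der_at {φ : ℝ → Z → Z} (h : Flow gen φ) (hφ : ∀ s t z, φ (s + t) z = φ s (φ t z))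
    (f : SmA gen) (z : Z) (t : ℝ) :
    HasDerivAt (fun t => f.1 (φ t z)) ((h.der f).1 (φ t z)) t := by
  have h1 := h.der_spec f (φ t z)
  simp only [← hφ] at h1
  have h2 : HasDerivAt (fun s => f.1 (φ (s + t) z)) ((h.der f).1 (φ t z)) (t - t) := by
    rwa [sub_self]
  simpa using h2.comp_sub_const t t

/-- The chain rule. -/
def Chain (D : Derivation ℂ (SmA gen) (SmA gen)) : Prop :=
  ∀ g hg u hu, D (cmp g hg u hu) = cmp (deriv g) (cd_deriv hg) u hu * D u

lemma Flow.chain {φ : ℝ → Z → Z} (h : Flow gen φ) : Chain h.der := by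
  intro g hg u hu
  refine h.der_eq fun z => ?_
  refine HasDerivAt.congr_deriv (hasDerivAt_cmp hg (h.der_spec u z) fun t => hu _) ?_
  simp [h.1, cmp]

lemma Chain.zero : Chain (0 : Derivation ℂ (SmA gen) (SmA gen)) := by
  intro g hg u hu; simp

lemma Chain.add {D D' : Derivation ℂ (SmA gen) (SmA gen)} (h : Chain D) (h' : Chain D') :
    Chain (D + D') := by
  intro g hg u hu
  simp only [Derivation.add_apply, h g hg u hu, h' g hg u hu, mul_add]

lemma Chain.smul {D : Derivation ℂ (SmA gen) (SmA gen)} (h : Chain D) (c : ℂ) :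
    Chain (c • D) := by
  intro g hg u hu
  simp only [Derivation.smul_apply, h g hg u hu, mul_smul_comm]

end Sm

section ext
variable {ι : Type} [Fintype ι] [DecidableEq ι] {Λ : Type} [Ring Λ] [Algebra ℂ Λ] (g : Gr ι Λ)
variable {T : Type} [CommRing T] [Algebra ℂ T]

/-- The exterior derivative. -/
noncomputable def dE (δ : Λ →ₗ[ℂ] Λ) (D : ι → Derivation ℂ T T) : Λ ⊗[ℂ] T →ₗ[ℂ] Λ ⊗[ℂ] T :=
  δ.rTensor T + ∑ x, LinearMap.mulLeft ℂ (g.c x ⊗ₜ (1 : T)) ∘ₗ (D x).toLinearMap.lTensor Λ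

lemma dE_tmul (δ : Λ →ₗ[ℂ] Λ) (D : ι → Derivation ℂ T T) (a : Λ) (s : T) :
    dE g δ D (a ⊗ₜ s) = δ a ⊗ₜ s + ∑ x, (g.c x * a) ⊗ₜ D x s := by
  simp [dE, LinearMap.sum_apply]

lemma dE_lb {δ : Λ →ₗ[ℂ] Λ} (h : Lb g.P δ) (D : ι → Derivation ℂ T T) :
    Lb (g.toSAlg.tens T).P (dE g δ D) :=
  (h.rT g.toSAlg).add (Lb.sum _ fun x => (lb_lT (D x)).mulLeft_odd _ (by
    rw [SAlg.tens_P, g.Pc, TensorProduct.neg_tmul]))

lemma dE_par {δ : Λ →ₗ[ℂ] Λ} (hp : ∀ a, g.P (δ a) = - δ (g.P a)) (D : ι → Derivation ℂ T T)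
    (a : Λ ⊗[ℂ] T) : (g.toSAlg.tens T).P (dE g δ D a) = - dE g δ D ((g.toSAlg.tens T).P a) := by
  induction a with
  | zero => simp
  | add x y hx hy => simp only [map_add, hx, hy, neg_add]
  | tmul a s =>
    simp only [dE_tmul, SAlg.tens_P, map_add, map_sum, hp, map_mul, g.Pc, neg_mul,
      TensorProduct.neg_tmul, Finset.sum_neg_distrib, neg_add]

/-- The top coefficient. -/
noncomputable def topS : Λ ⊗[ℂ] T →ₗ[ℂ] T := (TensorProduct.lid ℂ T).toLinearMap ∘ₗ g.top.rTensor T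

@[simp] lemma topS_tmul (a : Λ) (s : T) : topS g (a ⊗ₜ s) = g.top a • s := by simp [topS]

lemma topS_dE {δ : Λ →ₗ[ℂ] Λ} (ht : ∀ a, g.top (δ a) = 0) (D : ι → Derivation ℂ T T)
    (a : Λ ⊗[ℂ] T) : topS g (dE g δ D a) = ∑ x, D x (topS g ((g.c x ⊗ₜ 1) * a)) := by
  induction a with
  | zero => simp
  | add x y hx hy => simp only [map_add, hx, hy, mul_add, Finset.sum_add_distrib]
  | tmul a s => simp [dE_tmul, ht]

end ext

section dd
variable {ι : Type} [Fintype ι] [DecidableEq ι] {Λ : Type} [Ring Λ] [Algebra ℂ Λ] (g : Gr ι Λ)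
variable {Z : Type} {gen : Set (Z → ℂ)}

lemma dE_cmp {δ : Λ →ₗ[ℂ] Λ} (h : Lb g.P δ) {D : ι → Derivation ℂ (SmA gen) (SmA gen)}
    (hD : ∀ x, Chain (D x)) (k hk u hu) : dE g δ D (1 ⊗ₜ cmp k hk u hu) =
      (1 ⊗ₜ cmp (deriv k) (cd_deriv hk) u hu) * dE g δ D (1 ⊗ₜ u) := by
  simp [dE_tmul, h.one, hD _ k hk u hu, Finset.mul_sum]

lemma dE_dE {δ : Λ →ₗ[ℂ] Λ} (h : Lb g.P δ) (hp : ∀ a, g.P (δ a) = - δ (g.P a))
    {D : ι → Derivation ℂ (SmA gen) (SmA gen)} (hD : ∀ x, Chain (D x))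
    (hg : ∀ f (hf : f ∈ gen), dE g δ D (dE g δ D (1 ⊗ₜ ⟨f, Sm.gen hf⟩)) = 0) (f : SmA gen) :
    dE g δ D (dE g δ D (1 ⊗ₜ f)) = 0 := by
  have hl := dE_lb g h D
  have hdd := hl.dd (dE_par g hp D) (g.toSAlg.tens _).PP
  have hm : ∀ a b : SmA gen, (1 : Λ) ⊗ₜ[ℂ] (a * b) = (1 ⊗ₜ a) * (1 ⊗ₜ b) := by intro a b; simp
  induction f using SmA.induction with
  | h1 f hf => exact hg f hf
  | h2 c =>
    rw [← Algebra.TensorProduct.algebraMap_apply', hl.alg, map_zero]
  | h3 f f' i1 i2 => rw [TensorProduct.tmul_add, map_add, map_add, i1, i2, add_zero]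
  | h4 f f' i1 i2 => rw [hm, hdd, i1, i2]; simp
  | h5 f f' e i1 =>
    have := hdd (1 ⊗ₜ f) (1 ⊗ₜ f')
    rw [← hm, e, ← Algebra.TensorProduct.one_def, hl.one, map_zero, i1, zero_mul, zero_add] at this
    have e2 := congrArg (fun x => ((1 : Λ) ⊗ₜ[ℂ] f') * x) this
    simp only [mul_zero, ← mul_assoc, ← hm, mul_comm f', e, ← Algebra.TensorProduct.one_def,
      one_mul] at e2
    exact e2.symm
  | h6 k hk u hu i1 =>
    rw [dE_cmp g h hD, hl, i1, dE_cmp g h hD, mul_assoc, (g.toSAlg.tens _).odd_sq]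
    · simp
    · rw [dE_par g hp, SAlg.tens_P, map_one]

end dd

lemma integral_sub_eq {X : Type*} [TopologicalSpace X] [CompactSpace X] [T2Space X]
    [MeasurableSpace X] [BorelSpace X] (μ : Measure X) [IsFiniteMeasure μ] {f f' : ℝ → X → ℂ}
    (hf : ∀ t, Continuous (f t)) (hf' : Continuous (Function.uncurry f'))
    (hd : ∀ t x, HasDerivAt (fun t => f t x) (f' t x) t) :
    ∫ x, f 1 x ∂μ - ∫ x, f 0 x ∂μ = ∫ t in (0 : ℝ)..1, ∫ x, f' t x ∂μ := by
  have hi : ∀ t, Integrable (f t) μ := fun t =>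
    (hf t).integrable_of_hasCompactSupport (HasCompactSupport.of_compactSpace _)
  rw [← integral_sub (hi 1) (hi 0), intervalIntegral_integral_swap]
  · refine integral_congr_ae (Filter.Eventually.of_forall fun x => ?_)
    exact (intervalIntegral.integral_eq_sub_of_hasDerivAt (fun t _ => hd t x)
      ((hf'.comp (Continuous.prodMk_left x)).intervalIntegrable _ _)).symm
  · rw [Measure.restrict_prod_eq_prod_univ]
    refine IntegrableOn.mono_set (t := Set.uIcc 0 1 ×ˢ Set.univ) ?_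
      (Set.prod_mono Set.uIoc_subset_uIcc le_rfl)
    exact hf'.continuousOn.integrableOn_compact (isCompact_uIcc.prod isCompact_univ)

end Vale.Agent.P174
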