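import Vale.Agent.P174.Pcost

/-! The main estimate for the product of the three pairings. -/

namespace Vale.Agent.P174

open scoped Matrix
open Complex

set_option linter.unusedSectionVars false
set_option linter.unusedSimpArgs false

section toR
variable {H A : Type*} [Group H] [Ring A] {Y : Type*} [Fintype Y] [DecidableEq Y]

/-- The matrix of a monomial in a representation of the labels. -/
def toR (ρ : H →* A) (x : Mon Y H) : Matrix Y Y A :=
  Matrix.of fun i j => if i = x.σ j then ρ (x.a j) else 0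

lemma toR_apply (ρ : H →* A) (x : Mon Y H) (i j : Y) :
    toR ρ x i j = if i = x.σ j then ρ (x.a j) else 0 := rfl

lemma mul_toR (ρ : H →* A) (x : Mon Y H) (M : Matrix Y Y A) (i j : Y) :
    (M * toR ρ x) i j = M i (x.σ j) * ρ (x.a j) := by
  simp [Matrix.mul_apply, toR_apply]

lemma toR_mul' (ρ : H →* A) (x : Mon Y H) (M : Matrix Y Y A) (i j : Y) :
    (toR ρ x * M) (x.σ i) j = ρ (x.a i) * M i j := by
  simp [Matrix.mul_apply, toR_apply]

lemma toR_one (ρ : H →* A) : toR ρ (1 : Mon Y H) = 1 := by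
  ext i j
  simp [toR_apply, Matrix.one_apply]

lemma toR_mul (ρ : H →* A) (x y : Mon Y H) : toR ρ (x * y) = toR ρ x * toR ρ y := by
  ext i j
  rw [mul_toR, toR_apply, toR_apply]
  simp

lemma toR_comm (ρ : H →* A) (x : Mon Y H) {M M' : Matrix Y Y A}
    (h : ∀ i j, M' (x.σ i) (x.σ j) * ρ (x.a j) = ρ (x.a i) * M i j) :
    M' * toR ρ x = toR ρ x * M := by
  ext i j
  obtain ⟨i, rfl⟩ := x.σ.surjective i
  rw [mul_toR, toR_mul', h]

end toR

variable {G : Type*} [Group G]

noncomputable def ρC (G : Type*) [Group G] : Circle × G →* ℂ := Circle.coeHom.comp (MonoidHom.fst _ _)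

lemma ρC_apply (x : Circle × G) : ρC G x = x.1 := rfl

section
variable {Y : Type*} [Fintype Y] [DecidableEq Y]

lemma toM_eq (x : Mon Y (Circle × G)) : toM x = toR lam x := rfl

lemma star_toC (x : Mon Y (Circle × G)) : star (toR (ρC G) x) = toR (ρC G) x⁻¹ := by
  ext i j
  simp only [Matrix.star_apply, toR_apply, Mon.inv_σ, Mon.inv_a]
  by_cases h : j = x.σ i
  · subst h; simp [ρC_apply, ← Circle.coe_inv_eq_conj]
  · rw [if_neg h, if_neg, star_zero]
    rintro rfl
    simp at h

lemma mp_toC (x : Mon Y (Circle × G)) (h : ∀ j, (x.a j).2 = 1) : mp G (toR (ρC G) x) = toM x := by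
  ext i j
  rw [mp_apply, toR_apply, toM_apply]
  split_ifs
  · rw [ρC_apply, ← lam_one, ← h j]
  · simp

lemma diag_toR {H : Type*} [Group H] (ρ : H →* ℂ) (x : Mon Y H) {e e' : Y → ℂ}
    (h : ∀ i, e' (x.σ i) = e i) :
    Matrix.diagonal e' * toR ρ x = toR ρ x * Matrix.diagonal e := by
  refine toR_comm ρ x fun i j => ?_
  by_cases hij : i = j
  · simp [hij, h, mul_comm]
  · simp [hij]

lemma trace_of_anti {M : Matrix Y Y ℂ} {γ : Y → ℂ} (pt : Y) (hγ : ∀ y, y ≠ pt → γ y ≠ 0)
    (h : Matrix.diagonal γ * M = -(M * Matrix.diagonal γ)) : M.trace = M pt pt := by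
  rw [Matrix.trace, Finset.sum_eq_single pt _ (by simp)]
  · rfl
  · intro y _ hy
    have := congrFun (congrFun h y) y
    simp only [Matrix.diagonal_mul, Matrix.neg_apply, Matrix.mul_diagonal] at this
    have h2 : γ y * M y y = 0 := by linear_combination (1 / 2 : ℂ) * this
    exact (mul_eq_zero.1 h2).resolve_left (hγ y hy)

end

section
variable {n B O : Type} [Fintype n] [DecidableEq n] [Fintype B] [DecidableEq B] [Fintype O]
  [DecidableEq O]

lemma bd_toR {H A : Type*} [Group H] [Ring A] [Algebra ℂ A] (ρ : H →* A) (x : Mon ((n × B) ⊕ O) H)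
    (D D' : B → Matrix n n ℂ) (π : B → B) (α : B → H) (π' : O → O)
    (h1 : ∀ f b, x.σ (Sum.inl (f, b)) = Sum.inl (f, π b)) (h2 : ∀ f b, x.a (Sum.inl (f, b)) = α b)
    (h3 : ∀ o, x.σ (Sum.inr o) = Sum.inr (π' o)) (h4 : ∀ b, D' (π b) = D b) :
    (Algebra.ofId ℂ A).mapMatrix (bd O D' 1) * toR ρ x =
      toR ρ x * (Algebra.ofId ℂ A).mapMatrix (bd O D 1) := by
  refine toR_comm ρ x ?_
  rintro (⟨f, b⟩ | o) (⟨f', b'⟩ | o')
  · by_cases hb : b = b'
    · subst hb
      simp [h1, h2, bd, h4, Algebra.ofId_apply, Algebra.commutes]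
    · have : π b ≠ π b' := fun h => hb (by
        have := x.σ.injective ((h1 f b).trans (h ▸ (h1 f b').symm))
        simpa using this)
      simp [h1, bd, Matrix.blockDiagonal_apply_ne _ _ _ hb, Matrix.blockDiagonal_apply_ne _ _ _ this]
  · simp [h1, h3, bd]
  · simp [h1, h3, bd]
  · by_cases ho : o = o'
    · subst ho
      simp [h3, bd]
    · have : π' o ≠ π' o' := fun h => ho (by
        have := x.σ.injective ((h3 o).trans (h ▸ (h3 o').symm))
        simpa using this)
      simp [h3, bd, ho, this]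

lemma ofId_self {Y : Type*} [Fintype Y] [DecidableEq Y] (M : Matrix Y Y ℂ) :
    (Algebra.ofId ℂ ℂ).mapMatrix M = M := by
  ext; simp [Algebra.ofId_apply]

lemma bd_diag (D : B → Matrix n n ℂ) (e : (n × B) ⊕ O → ℂ)
    (h : ∀ f f' b, e (Sum.inl (f, b)) = e (Sum.inl (f', b))) :
    Matrix.diagonal e * bd O D 1 = bd O D 1 * Matrix.diagonal e := by
  ext i j
  rw [Matrix.diagonal_mul, Matrix.mul_diagonal]
  rcases i with ⟨f, b⟩ | o <;> rcases j with ⟨f', b'⟩ | o'
  · by_cases hb : b = b'
    · subst hb; rw [h f f', mul_comm]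
    · simp [bd, Matrix.blockDiagonal_apply_ne _ _ _ hb]
  · simp [bd]
  · simp [bd]
  · by_cases ho : o = o'
    · subst ho; rw [mul_comm]
    · simp [bd, ho]

end

abbrev YY (N : ℕ) (S O : Type) := (Fin N × (S × Bool)) ⊕ O

/-- The swap of the positive and negative copies. -/
def flp (N : ℕ) (S O : Type) (H : Type*) [Group H] : Mon (YY N S O) H :=
  ⟨Equiv.sumCongr (Equiv.prodCongr (Equiv.refl _) (Equiv.prodCongr (Equiv.refl _) Equiv.boolNot))
    (Equiv.refl _), fun _ => 1⟩

set_option maxHeartbeats 400000 in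
theorem core {J S O : Type} [Fintype J] [DecidableEq J] [Fintype S] [DecidableEq S]
    [Fintype O] [DecidableEq O] {N n : ℕ} (jj : S → J) (lb : S → Ltr n) (p0 : O)
    (lab : YY N S O → Ltr n)
    (hl1 : ∀ f s, lab (Sum.inl (f, s, true)) = lb s)
    (hl2 : ∀ f s, lab (Sum.inl (f, s, false)) = linv (lb s))
    (P Rt Cf : Mon (YY N S O) (Circle × G))
    (p1 : P * P = 1) (p2 : ∀ j, (P.a j).2 = 1) (p3 : Supp P {j | j ≠ Sum.inr p0})
    (p4 : ∀ j, j ≠ Sum.inr p0 → lab (P.σ j) = linv (lab j))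
    (r1 : Rt * Rt = 1) (r2 : ∀ j, Rt.a j = 1) (r3 : Supp Rt {j | ∃ o, o ≠ p0 ∧ j = Sum.inr o})
    (r4 : ∀ o, o ≠ p0 → lab (Rt.σ (Sum.inr o)) = linv (lab (Sum.inr o)))
    (π : S × Bool → S) (α : S × Bool → Circle × G)
    (c1 : ∀ f b, Cf.σ (Sum.inl (f, b)) = Sum.inl (f, π b, b.2))
    (c2 : ∀ f b, Cf.a (Sum.inl (f, b)) = α b) (c3 : Supp Cf (Set.range Sum.inl))
    (c4 : ∀ b, jj (π b) = jj b.1) (c5 : ∀ b, π (π b, !b.2) = b.1 ∧ α (π b, !b.2) * α b = 1)
    (col : J → Fin n) (hcol : Function.Injective col)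
    (ha : (Matrix.of fun l j => ∑ s, if jj s = j then
      ((if lb s = (col l, true) then (1 : ℂ) else 0) - (if lb s = (col l, false) then 1 else 0))
        else 0).det ≠ 0) :
    Prd ((trG G).mat _) (Fintype.card (YY N S O) - 1 - 2 * (Fintype.card J * N) +
      Fintype.card (Fin N × (S × Bool)) / 2) (toM (P * Rt * Cf)) := by
  set pt : (YY N S O) := Sum.inr p0 with hpt
  set F : Mon (YY N S O) (Circle × G) := flp N S O _ with hF
  have f1 : ∀ f s b, F.σ (Sum.inl (f, s, b)) = Sum.inl (f, s, !b) := fun _ _ _ => rfl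
  have f2 : ∀ o, F.σ (Sum.inr o) = Sum.inr o := fun _ => rfl
  have f3 : ∀ j, F.a j = 1 := fun _ => rfl
  have fF : F * F = 1 := by
    refine Mon.ext' ?_
    rintro (⟨f, s, b⟩ | o) <;> simp [f1, f2, f3]
  have fs : Supp F (Set.range Sum.inl) := by
    rintro (j | o) hj
    · simp at hj
    · exact ⟨rfl, rfl⟩
  have cRF : Rt * F = F * Rt := r3.comm fs (by rintro _ ⟨o, -, rfl⟩; simp)
  have rt1 : ∀ j, Rt.σ (Sum.inl j) = Sum.inl j := fun j => (r3 _ (by simp)).1
  have rt2 : Rt.σ pt = pt := (r3 _ (by simp [hpt])).1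
  obtain ⟨π', hπ'⟩ : ∃ π' : O → O, ∀ o, Rt.σ (Sum.inr o) = Sum.inr (π' o) := by
    have : ∀ o, ∃ o', Rt.σ (Sum.inr o) = Sum.inr o' := by
      intro o
      by_cases ho : o = p0
      · exact ⟨p0, by rw [ho]; exact rt2⟩
      · obtain ⟨o', -, h⟩ := r3.mem (j := Sum.inr o) ⟨o, ho, rfl⟩
        exact ⟨o', h⟩
    exact ⟨_, fun o => (this o).choose_spec⟩
  have pp : P.σ pt = pt ∧ P.a pt = 1 := p3 pt (by simp)
  have hlabf : ∀ f f' b, lab (Sum.inl (f, b)) = lab (Sum.inl (f', b)) := by
    rintro f f' ⟨s, _ | _⟩ <;> simp [hl1, hl2]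
  have hR0 : ∀ j, j ≠ pt → lab ((Rt * F).σ j) = linv (lab j) := by
    rintro (⟨f, s, b⟩ | o) hj
    · cases b <;> simp [f1, rt1, hl1, hl2]
    · simpa [f2] using r4 o fun h => hj (by rw [h])
  have hR0p : (Rt * F).σ pt = pt := by
    rw [Mon.mul_σ, Equiv.Perm.mul_apply, hpt, f2]; exact rt2
  have hne : ∀ x : Mon (YY N S O) (Circle × G), x.σ pt = pt → ∀ j, x.σ j = pt ↔ j = pt := fun x hx j =>
    ⟨fun h => x.σ.injective (h.trans hx.symm), fun h => h ▸ hx⟩
  let γ : (YY N S O) → ℂ := fun y => if y = pt then 0 else if (lab y).2 then 1 else -1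
  have hγ : ∀ x : Mon (YY N S O) (Circle × G), x.σ pt = pt → (∀ j, j ≠ pt → lab (x.σ j) = linv (lab j)) →
      Matrix.diagonal γ * toR (ρC G) x = -(toR (ρC G) x * Matrix.diagonal γ) := by
    intro x h1 h2
    rw [← mul_neg, Matrix.diagonal_neg]
    refine diag_toR _ _ fun i => ?_
    by_cases hi : i = pt
    · simp [γ, hi, h1]
    · simp only [γ, hne x h1, hi, if_false, h2 i hi, linv]
      cases (lab i).2 <;> simp
  have hγ0 : ∀ y, y ≠ pt → γ y ≠ 0 := by
    intro y hy
    simp only [γ, hy, if_false]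
    split_ifs <;> simp
  let ε : J → (YY N S O) → ℂ := fun l y => if y ≠ pt ∧ lab y = (col l, true) then 1 else 0
  let E : J → Matrix (YY N S O) (YY N S O) ℂ := fun l => Matrix.diagonal (ε l)
  set M := toR (ρC G) (P * (Rt * F)) with hM
  have hME : ∀ l, E l * M = M * E l := by
    intro l
    refine diag_toR _ _ fun i => ?_
    have h1 : (P * (Rt * F)).σ pt = pt := by rw [Mon.mul_σ, Equiv.Perm.mul_apply, hR0p, pp.1]
    by_cases hi : i = pt
    · simp only [ε, hi, h1]
    · have : lab ((P * (Rt * F)).σ i) = lab i := by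
        rw [Mon.mul_σ, Equiv.Perm.mul_apply, p4 _ ((hne _ hR0p i).not.2 hi), hR0 i hi, linv_linv]
      simp only [ε, ne_eq, hne _ h1, this]
  have hEE : ∀ l, E l * E l = E l := by
    intro l
    simp only [E, Matrix.diagonal_mul_diagonal, ε]
    congr 1; funext y; split_ifs <;> simp
  have hEs : ∀ l, star (E l) = E l := by
    intro l
    simp only [E, Matrix.star_eq_conjTranspose, Matrix.diagonal_conjTranspose, ε]
    congr 1; funext y; simp only [Pi.star_apply]; split_ifs <;> simp
  have hMu : star M * M = 1 := by rw [hM, star_toC, ← toR_mul, inv_mul_cancel, toR_one]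
  let e : J → S × Bool → Option Bool := fun l b =>
    if (if b.2 then lb b.1 else linv (lb b.1)) = (col l, true) then some b.2 else none
  obtain ⟨x, hx⟩ := top_fixed (O := O) (N := N) (exG _) (fun b : S × Bool => jj b.1) e (by
      convert ha using 3
      funext l j
      rw [Fintype.sum_prod_type]
      refine Finset.sum_congr rfl fun s _ => ?_
      have : linv (lb s) = (col l, true) ↔ lb s = (col l, false) := by
        rw [← linv_linv (col l, true), (Function.Involutive.injective linv_linv).eq_iff]; rfl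
      simp only [Fintype.sum_bool, e, if_true, Bool.false_eq_true, if_false, this]
      split_ifs <;> simp [sel])
    (fun l => M * E l - (1 - E l)) (by
      intro l
      have e1 : ∀ X, star M * (M * X) = X := fun X => by rw [← mul_assoc, hMu, one_mul]
      have e2 : star M * E l = E l * star M := by
        have := congrArg star (hME l)
        rwa [star_mul, star_mul, hEs] at this
      have e3 : E l * (M * E l) = M * E l := by rw [← mul_assoc, hME, mul_assoc, hEE]
      have e4 : E l * (E l * star M) = E l * star M := by rw [← mul_assoc, hEE]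
      simp only [star_sub, star_mul, star_one, hEs, mul_sub, sub_mul, mul_one, one_mul, mul_assoc,
        e1, e2, e3, e4, hEE]
      abel)
  choose V hV1 hV2 using hx
  let Db : S × Bool → Matrix (Fin N) (Fin N) ℂ := fun b =>
    if b.2 then star (x (jj b.1)).1 else (x (jj b.1)).1
  set D := bd O Db 1 with hD
  have hDE : ∀ l, E l * D = D * E l := fun l => bd_diag _ _ fun f f' b => by
    simp [ε, hpt, hlabf f f' b]
  have hDl : ∀ l, bd O (fun b => sel (star (x (jj b.1)).1) (x (jj b.1)).1 1 (e l b)) 1 =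
      D * E l + (1 - E l) := by
    intro l
    ext i j
    rw [Matrix.add_apply, Matrix.mul_diagonal, Matrix.sub_apply]
    rcases i with ⟨f, b⟩ | o <;> rcases j with ⟨f', b'⟩ | o'
    · by_cases hb : b = b'
      · subst hb
        obtain ⟨s, b⟩ := b
        by_cases hf : f = f'
        · subst hf
          cases b <;> simp only [bd, hD, E, ε, e, Db] <;> simp [hpt, hl1, hl2] <;>
            split_ifs <;> simp [sel]
        · cases b <;> simp only [bd, hD, E, ε, e, Db] <;> simp [hpt, hl1, hl2, hf] <;>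
            split_ifs <;> simp [sel, hf]
      · simp [bd, hD, E, Matrix.blockDiagonal_apply_ne _ _ _ hb, hb]
    · simp [bd, hD, E]
    · simp [bd, hD, E]
    · by_cases ho : o = o'
      · subst ho; simp [bd, hD, E]
      · simp [bd, hD, E, ho]
  have hV3 : ∀ l, E l * V l = V l ∧ M * D * V l = V l := by
    intro l
    have h1 := hV2 l
    have e1 : (M * E l - (1 - E l)) * (D * E l + (1 - E l)) = E l * (M * D) - (1 - E l) := by
      have e3 : E l * (D * E l) = D * E l := by rw [← mul_assoc, hDE, mul_assoc, hEE]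
      rw [← mul_assoc (E l), hME, mul_assoc M (E l) D, hDE]
      simp only [mul_sub, sub_mul, mul_add, add_mul, mul_one, one_mul, mul_assoc, e3, hEE]
      abel
    rw [hDl, e1] at h1
    have h2 : (1 - E l) * V l = 0 := by
      apply eq_zero_of_eq_neg
      nth_rewrite 1 [← h1]
      rw [← Matrix.mul_assoc, ← Matrix.neg_mul]
      congr 1
      simp only [mul_sub, sub_mul, mul_one, one_mul, ← mul_assoc, hEE]
      abel
    have h3 : E l * V l = V l := by
      rw [Matrix.sub_mul, Matrix.one_mul, sub_eq_zero] at h2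
      exact h2.symm
    refine ⟨h3, ?_⟩
    rw [Matrix.sub_mul, h2, sub_zero, ← mul_assoc, hME, mul_assoc, hDE, ← mul_assoc,
      Matrix.mul_assoc _ (E l), h3] at h1
    exact h1
  let W : Matrix (YY N S O) (J × Fin N) ℂ := Matrix.of fun y p => V p.1 y p.2
  have hW : ∀ T : Matrix (YY N S O) (YY N S O) ℂ, (∀ l, T * V l = V l) → T * W = W := by
    intro T hT
    ext y p
    exact congrFun (congrFun (hT p.1) y) p.2
  have hW1 : Wᴴ * W = 1 := by
    ext ⟨l, r⟩ ⟨l', r'⟩
    change ((V l)ᴴ * V l') r r' = _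
    by_cases hl : l = l'
    · subst hl
      rw [hV1]
      simp [Matrix.one_apply]
    · have h0 : E l * E l' = 0 := by
        simp only [E, Matrix.diagonal_mul_diagonal, ε]
        rw [← Matrix.diagonal_zero]
        congr 1; funext y
        split_ifs with h1 h2
        · exact absurd (hcol (Prod.ext_iff.1 (h1.2.symm.trans h2.2)).1) hl
        all_goals simp
      have hs : (E l)ᴴ = E l := hEs l
      rw [← (hV3 l).1, ← (hV3 l').1, Matrix.conjTranspose_mul, hs, Matrix.mul_assoc,
        ← Matrix.mul_assoc (E l), h0]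
      simp [hl]
  have hΓW : Matrix.diagonal γ * W = W := hW _ fun l => by
    have : Matrix.diagonal γ * E l = E l := by
      simp only [E, Matrix.diagonal_mul_diagonal, ε, γ]
      congr 1; funext y
      by_cases h : y ≠ pt ∧ lab y = (col l, true)
      · simp [h.1, h.2]
      · simp [h]
    rw [← (hV3 l).1, ← Matrix.mul_assoc, this]
  have hDu : star D * D = 1 := by
    rw [hD, bd_star, bd_mul, star_one, one_mul, ← bd_one]
    congr 1; funext b
    simp only [Db]
    split_ifs
    · simpa using (x _).2.2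
    · exact (x _).2.1
  have hFD : star D * toR (ρC G) F = toR (ρC G) F * D := by
    have := bd_toR (ρC G) F Db (fun b => star (Db b)) (fun b => (b.1, !b.2)) (fun _ => 1) id
      (fun _ _ => rfl) (fun _ _ => rfl) (fun _ => rfl) (by rintro ⟨s, _ | _⟩ <;> simp [Db])
    rwa [ofId_self, ofId_self, ← star_one ℂ, ← bd_star, star_one] at this
  have hRD : D * toR (ρC G) Rt = toR (ρC G) Rt * D := by
    have := bd_toR (ρC G) Rt Db Db id (fun _ => 1) π' (fun _ _ => rt1 _) (fun _ _ => r2 _) hπ'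
      (fun _ => rfl)
    rwa [ofId_self] at this
  have hCD : mp G D * toM Cf = toM Cf * mp G D := by
    have := bd_toR lam Cf Db Db (fun b => (π b, b.2)) α id c1 c2 (fun o => (c3 _ (by simp)).1)
      (fun b => by simp [Db, c4])
    rw [toM_eq, mp, hD]
    exact this
  have inv_self : ∀ y : Mon (YY N S O) (Circle × G), y * y = 1 → star (toR (ρC G) y) = toR (ρC G) y :=
    fun y hy => by rw [star_toC, inv_eq_of_mul_eq_one_right hy]
  set Rf := toR (ρC G) F * D with hRf
  have hRf1 : star Rf = Rf := by rw [hRf, star_mul, inv_self F fF, hFD]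
  have hRf2 : Rf * Rf = 1 := by
    nth_rewrite 1 [← hRf1]
    rw [hRf, star_mul, inv_self F fF, mul_assoc, ← mul_assoc (toR _ F), ← toR_mul, fF, toR_one,
      one_mul, hDu]
  have hRc : Rf * toR (ρC G) Rt = toR (ρC G) Rt * Rf := by
    rw [hRf, mul_assoc, hRD, ← mul_assoc, ← mul_assoc, ← toR_mul, ← toR_mul, cRF]
  have hanti : Matrix.diagonal γ * (toR (ρC G) Rt * Rf) =
      -(toR (ρC G) Rt * Rf * Matrix.diagonal γ) := by
    rw [hRf, ← mul_assoc (toR _ Rt), ← toR_mul, ← mul_assoc, hγ _ hR0p hR0, neg_mul, mul_assoc,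
      mul_assoc, hD, bd_diag _ _ fun f f' b => by simp [γ, hpt, hlabf f f' b]]
  have h1 := pcost (G := G) (V := W) (P := toR (ρC G) P) (R := toR (ρC G) Rt * Rf)
    (Γ := Matrix.diagonal γ) (by rw [← toR_mul, p1, toR_one]) (inv_self P p1)
    (by rw [trace_of_anti pt hγ0 (hγ P pp.1 p4), toR_apply, if_pos pp.1.symm, pp.2, map_one])
    (by rw [mul_assoc, ← mul_assoc Rf, hRc, mul_assoc, hRf2, mul_one, ← toR_mul, r1, toR_one])
    (by rw [star_mul, hRf1, inv_self Rt r1, hRc])
    (by
      rw [trace_of_anti pt hγ0 hanti, hRf, ← mul_assoc, ← toR_mul]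
      nth_rewrite 1 [← hR0p]
      rw [toR_mul']
      simp [r2, f3, hD, bd, hpt])
    (by
      simp only [Matrix.star_eq_conjTranspose, Matrix.diagonal_conjTranspose, γ]
      congr 1; funext y; simp only [Pi.star_apply]; split_ifs <;> simp)
    (hγ P pp.1 p4) hW1 hΓW
    (hW _ fun l => by
      rw [hRf, ← mul_assoc (toR _ Rt), ← toR_mul, ← mul_assoc, ← toR_mul]
      exact (hV3 l).2)
  have hFC : F * Cf = Cf⁻¹ * F := by
    rw [eq_inv_mul_iff_mul_eq]
    refine Mon.ext' ?_
    rintro (⟨f, s, b⟩ | o)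
    · simp [c1, c2, f1, f3, c5 (s, b)]
    · simp [c3 (Sum.inr o) (by simp), f2, f3]
  have hF' : mp G (toR (ρC G) F) = toM F := mp_toC F fun _ => rfl
  have hst : star (mp G Rf * toM Cf) = mp G Rf * toM Cf := by
    rw [star_mul, star_mp, hRf1, star_toM, hRf, map_mul, hF', ← mul_assoc, ← toM_mul, ← hFC,
      toM_mul, mul_assoc, mul_assoc, hCD]
  have h2 := Prd.single ((trG G).mat (YY N S O)) (r := mp G Rf * toM Cf) (by
    nth_rewrite 1 [← hst]
    rw [star_mul, star_mp, hRf1, mul_assoc, ← mul_assoc (mp G Rf), ← map_mul, hRf2, map_one,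
      one_mul, (toM_unitary Cf).1]) hst
  have hcost : ((trG G).mat (YY N S O)).τ (mp G Rf * toM Cf) = Fintype.card O := by
    rw [PTr.mat_τ, Fintype.sum_sum_type, Finset.sum_eq_zero, zero_add]
    · have : ∀ o, (trG G).τ ((mp G Rf * toM Cf) (Sum.inr o) (Sum.inr o)) = 1 := by
        intro o
        rw [toM_eq, mul_toR, (c3 (Sum.inr o) (by simp)).1, (c3 (Sum.inr o) (by simp)).2, map_one,
          mul_one, mp_apply, tau_alg, hRf]
        nth_rewrite 1 [← f2 o]
        rw [toR_mul']
        simp [f3, hD, bd]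
      simp [this]
    · rintro ⟨f, s, b⟩ -
      rw [toM_eq, mul_toR, c1, mp_apply, hRf]
      nth_rewrite 1 [← Bool.not_not b, ← f1]
      rw [toR_mul', hD, bd, Matrix.fromBlocks_apply₁₁, Matrix.blockDiagonal_apply_ne]
      · simp
      · simp
  have h3 := h1.mul h2
  rw [cost, hcost, tau_mat_one, map_mul, map_mul, mp_toC P p2, mp_toC Rt fun j => by rw [r2]; rfl,
    mul_assoc, mul_assoc, ← mul_assoc (mp G Rf), ← map_mul, hRf2, map_one, one_mul, ← toM_mul,
    ← toM_mul, ← mul_assoc] at h3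
  convert h3 using 1
  simp [YY]

end Vale.Agent.P174
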