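import Vale.Agent.P174.UGrp

/-! The covering argument. -/

namespace Vale.Agent.P174

open scoped TensorProduct ContDiff
open MeasureTheory Complex

set_option linter.unusedSectionVars false
set_option linter.unusedSimpArgs false

open ComplexOrder in
lemma det_eq_zero_of {Y : Type*} [Fintype Y] [DecidableEq Y] {V : Matrix Y Y ℂ}
    (hV : star V * V = 1) {ζ : ℂ} (hζ : star ζ * ζ = 1) {t : ℝ}
    (h : ((1 - t : ℂ) • V - ((t : ℂ) * ζ) • (1 : Matrix Y Y ℂ)).det = 0) :
    t = 1 / 2 ∧ (V - ζ • (1 : Matrix Y Y ℂ)).det = 0 := by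
  obtain ⟨v, hv, h1⟩ := Matrix.exists_mulVec_eq_zero_iff.2 h
  rw [Matrix.sub_mulVec, Matrix.smul_mulVec, Matrix.smul_mulVec, Matrix.one_mulVec, sub_eq_zero] at h1
  have h2 : star (V.mulVec v) ⬝ᵥ (V.mulVec v) = star v ⬝ᵥ v := by
    rw [Matrix.star_mulVec, Matrix.dotProduct_mulVec, Matrix.vecMul_vecMul,
      ← Matrix.star_eq_conjTranspose, hV, Matrix.vecMul_one]
  have h3 : star ((1 - t : ℂ) • V.mulVec v) ⬝ᵥ ((1 - t : ℂ) • V.mulVec v) =
      star (((t : ℂ) * ζ) • v) ⬝ᵥ (((t : ℂ) * ζ) • v) := by rw [h1]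
  simp only [star_smul, smul_dotProduct, dotProduct_smul, h2, smul_eq_mul, star_sub, star_one,
    star_mul', RCLike.star_def, conj_ofReal] at h3
  have h4 : star v ⬝ᵥ v ≠ 0 := fun h => hv (dotProduct_star_self_eq_zero.1 h)
  have h5 : (1 - 2 * (t : ℂ)) * (star v ⬝ᵥ v) = 0 := by
    simp only [RCLike.star_def] at hζ
    linear_combination h3 + (t : ℂ) ^ 2 * (star v ⬝ᵥ v) * hζ
  have h6 : (t : ℂ) = 1 / 2 := by
    linear_combination (-1 / 2 : ℂ) * (mul_eq_zero.1 h5).resolve_right h4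
  refine ⟨Complex.ofReal_injective (by rw [h6]; simp), Matrix.exists_mulVec_eq_zero_iff.1 ⟨v, hv, ?_⟩⟩
  rw [Matrix.sub_mulVec, Matrix.smul_mulVec, Matrix.one_mulVec, sub_eq_zero]
  rw [h6] at h1
  have := congrArg (fun w => (2 : ℂ) • w) h1
  simp only [smul_smul] at this
  convert this using 2
  · norm_num
  · ring

section
variable {J : Type} [Fintype J] [DecidableEq J] {N : ℕ}
variable {Λ : Type} [Ring Λ] [Algebra ℂ Λ] (g : Gr (Option (J × Fin N × Fin N)) Λ)

/-- A frame of derivations. -/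
structure Frame (D : Option (J × Fin N × Fin N) → Derivation ℂ (SS J (Fin N)) (SS J (Fin N))) :
    Prop where
  good : ∀ j a b, GoodD (Pi.single j (Matrix.single a b 1)) (D (some (j, a, b)))
  chain : Chain (D none)
  mp : ∀ j a b, D none (Mp j a b) = 0
  mm : ∀ j a b, D none (Mm j a b) = 0
  sv : D none sv = 1
  time : ∀ (f : SS J (Fin N)) x (s : ℝ), HasDerivAt (fun s => f.1 (x, s)) ((D none f).1 (x, s)) s

lemma exists_frame (J : Type) [Fintype J] [DecidableEq J] (N : ℕ) :
    ∃ D : Option (J × Fin N × Fin N) → _, Frame D := by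
  choose D hD using exists_good_single (J := J) (n := Fin N)
  obtain ⟨D0, h1, h2, h3, h4, h5⟩ := exists_time (J := J) (n := Fin N)
  exact ⟨fun x => x.elim D0 fun p => D p.1 p.2.1 p.2.2, hD, h1, h2, h3, h4, h5⟩

abbrev RR (J : Type) [Fintype J] [DecidableEq J] (N : ℕ) (Λ : Type) [Ring Λ] [Algebra ℂ Λ] :=
  Λ ⊗[ℂ] SS J (Fin N)

noncomputable def inj : SS J (Fin N) →ₐ[ℂ] RR J N Λ := Algebra.TensorProduct.includeRight
noncomputable def incl : Λ →ₐ[ℂ] RR J N Λ := Algebra.TensorProduct.includeLeft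

lemma inj_apply (s : SS J (Fin N)) : (inj s : RR J N Λ) = 1 ⊗ₜ s := rfl
lemma incl_apply (a : Λ) : (incl a : RR J N Λ) = a ⊗ₜ 1 := rfl

variable {D : Option (J × Fin N × Fin N) → Derivation ℂ (SS J (Fin N)) (SS J (Fin N))}

lemma Frame.chains (h : Frame D) : ∀ x, Chain (D x)
  | none => h.chain
  | some x => (h.good x.1 x.2.1 x.2.2).chain

lemma cM_single (j j' : J) (c d a b : Fin N) :
    (cM (Pi.single (M := fun _ => Matrix (Fin N) (Fin N) ℂ) j' (Matrix.single c d 1) j) :
      Matrix _ _ (SS J (Fin N))) a b = if j = j' ∧ c = a ∧ d = b then 1 else 0 := by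
  by_cases h : j = j'
  · subst h
    simp [cM, Matrix.single_apply, Algebra.ofId_apply, apply_ite (algebraMap ℂ (SS J (Fin N)))]
  · simp [h]

lemma Frame.dMp (h : Frame D) (j : J) : (dE g (del g) D).mapMatrix (inj.mapMatrix (Mp j)) =
    inj.mapMatrix (Mp j) * incl.mapMatrix (xi g j) := by
  ext a b
  simp only [LinearMap.mapMatrix_apply, AlgHom.mapMatrix_apply, Matrix.map_apply, inj_apply,
    dE_tmul, (del_lb g).one, TensorProduct.zero_tmul, zero_add, Fintype.sum_option, h.mp,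
    TensorProduct.tmul_zero, Fintype.sum_prod_type, (h.good _ _ _).mp, Matrix.mul_apply, cM_single,
    incl_apply, Algebra.TensorProduct.tmul_mul_tmul, one_mul, mul_one, xi_apply]
  simp [ite_and, TensorProduct.tmul_ite]

lemma Frame.dMm (h : Frame D) (j : J) : (dE g (del g) D).mapMatrix (inj.mapMatrix (Mm j)) =
    -(incl.mapMatrix (xi g j) * inj.mapMatrix (Mm j)) := by
  ext a b
  simp only [LinearMap.mapMatrix_apply, AlgHom.mapMatrix_apply, Matrix.map_apply, inj_apply,
    dE_tmul, (del_lb g).one, TensorProduct.zero_tmul, zero_add, Fintype.sum_option, h.mm,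
    TensorProduct.tmul_zero, Fintype.sum_prod_type, (h.good _ _ _).mm, Matrix.mul_apply, cM_single,
    incl_apply, Algebra.TensorProduct.tmul_mul_tmul, one_mul, mul_one, xi_apply, Matrix.neg_apply]
  simp [ite_and, TensorProduct.tmul_ite, TensorProduct.tmul_neg]

lemma Frame.dsv (h : Frame D) : dE g (del g) D (1 ⊗ₜ Vale.Agent.P174.sv) = g.c none ⊗ₜ 1 := by
  simp [dE_tmul, (del_lb g).one, Fintype.sum_option, h.sv, Fintype.sum_prod_type, (h.good _ _ _).sv]

lemma dE_incl (a : Λ) : dE g (del g) D (a ⊗ₜ 1) = del g a ⊗ₜ 1 := by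
  simp [dE_tmul]

lemma d_xi (j : J) : (dE g (del g) D).mapMatrix (incl.mapMatrix (xi g j)) =
    -(incl.mapMatrix (xi g j) * incl.mapMatrix (xi g j) : Matrix _ _ (RR J N Λ)) := by
  rw [← map_mul, ← map_neg, ← del_xi]
  ext a b
  exact dE_incl g _

lemma P_inj {Y : Type*} [Fintype Y] [DecidableEq Y] (M : Matrix Y Y (SS J (Fin N))) :
    (g.toSAlg.tens _).P.mapMatrix (inj.mapMatrix M : Matrix Y Y (RR J N Λ)) = inj.mapMatrix M := by
  ext a b
  simp [inj_apply, SAlg.tens_P]

lemma P_incl_xi (j : J) : (g.toSAlg.tens (SS J (Fin N))).P.mapMatrix (incl.mapMatrix (xi g j)) =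
    -(incl.mapMatrix (xi g j)) := by
  rw [← map_neg, ← P_xi]
  rfl

lemma Frame.dd (h : Frame D) (f : SS J (Fin N)) :
    dE g (del g) D (dE g (del g) D (1 ⊗ₜ f)) = 0 := by
  have hl := (dE_lb g (del_lb g) D).mat (n := Fin N)
  refine dE_dE g (del_lb g) (del_par g) h.chains ?_ f
  rintro f (⟨j, a, b, rfl⟩ | ⟨j, a, b, rfl⟩ | rfl)
  · have : (dE g (del g) D).mapMatrix ((dE g (del g) D).mapMatrix (inj.mapMatrix (Mm j))) = 0 := by
      rw [h.dMm, map_neg, hl, h.dMm, d_xi, P_incl_xi]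
      simp [mul_assoc]
    exact congrFun (congrFun this a) b
  · have : (dE g (del g) D).mapMatrix ((dE g (del g) D).mapMatrix (inj.mapMatrix (Mp j))) = 0 := by
      rw [h.dMp, hl, h.dMp, d_xi, P_inj]
      simp [mul_assoc]
    exact congrFun (congrFun this a) b
  · exact (congrArg _ (h.dsv g)).trans (by rw [dE_incl, del_none, TensorProduct.zero_tmul])

/-- Evaluation of forms at a point. -/
noncomputable def evR (z : UX J (Fin N) × ℝ) : RR J N Λ →ₐ[ℂ] Λ :=
  Algebra.TensorProduct.lift (AlgHom.id ℂ Λ) ((Algebra.ofId ℂ Λ).comp (evz z))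
    fun a s => (Algebra.commutes _ a).symm

lemma evR_tmul (z : UX J (Fin N) × ℝ) (a : Λ) (s : SS J (Fin N)) :
    evR z (a ⊗ₜ s) = evz z s • a := by
  rw [Algebra.smul_def, Algebra.commutes]
  exact Algebra.TensorProduct.lift_tmul _ _ _ _ _

lemma evz_topS (z : UX J (Fin N) × ℝ) (w : RR J N Λ) : evz z (topS g w) = g.top (evR z w) := by
  induction w using TensorProduct.induction_on with
  | zero => simp
  | add x y hx hy => simp only [map_add, hx, hy]
  | tmul a s => simp [evR_tmul, mul_comm]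

/-- The differential of a function at a point. -/
noncomputable def ed (D : Option (J × Fin N × Fin N) → Derivation ℂ (SS J (Fin N)) (SS J (Fin N)))
    (z : UX J (Fin N) × ℝ) : SS J (Fin N) →ₗ[ℂ] Λ :=
  (evR z).toLinearMap ∘ₗ dE g (del g) D ∘ₗ inj.toLinearMap

lemma ed_apply (z : UX J (Fin N) × ℝ) (s : SS J (Fin N)) :
    ed g D z s = evR z (dE g (del g) D (1 ⊗ₜ s)) := rfl

lemma ed_eq (z : UX J (Fin N) × ℝ) (s : SS J (Fin N)) :
    ed g D z s = ∑ x, evz z (D x s) • g.c x := by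
  simp [ed_apply, dE_tmul, (del_lb g).one, evR_tmul]

lemma ed_mul (z : UX J (Fin N) × ℝ) (s t : SS J (Fin N)) :
    ed g D z (s * t) = evz z s • ed g D z t + evz z t • ed g D z s := by
  simp only [ed_eq, Derivation.leibniz, smul_eq_mul, map_add, map_mul, add_smul, mul_smul,
    Finset.sum_add_distrib, Finset.smul_sum]

lemma ed_alg (z : UX J (Fin N) × ℝ) (c : ℂ) : ed g D z (algebraMap ℂ _ c) = 0 := by
  simp [ed_eq]

lemma ed_one (z : UX J (Fin N) × ℝ) : ed g D z 1 = 0 := by
  simp [ed_eq]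

lemma Frame.ed_cmp (h : Frame D) (z : UX J (Fin N) × ℝ) (k hk u hu) :
    ed g D z (cmp k hk u hu) = ((deriv k (evz z u).re : ℝ) : ℂ) • ed g D z u := by
  simp only [ed_eq, h.chains _ k hk u hu, map_mul, mul_smul, Finset.smul_sum]
  rfl

lemma SS_isUnit {n : Type} [Fintype n] [DecidableEq n] (f : SS J n) (h : ∀ z, evz z f ≠ 0) :
    IsUnit f :=
  IsUnit.of_mul_eq_one ⟨fun z => (f.1 z)⁻¹, Sm.inv f.2 (funext fun z => mul_inv_cancel₀ (h z))⟩
    (Subtype.ext (funext fun z => mul_inv_cancel₀ (h z)))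

lemma Frame.stokes (h : Frame D) {Ω : RR J N Λ} (hΩ : dE g (del g) D Ω = 0) :
    ∫ x, g.top (g.c none * evR (x, 1) Ω) ∂Measure.haar =
      ∫ x, g.top (g.c none * evR (x, 0) Ω) ∂Measure.haar := by
  set f := topS g ((g.c none ⊗ₜ 1) * Ω) with hf
  have e : ∀ z, g.top (g.c none * evR z Ω) = f.1 z := by
    intro z
    rw [← evz_apply, hf, evz_topS, map_mul (evR z), evR_tmul, map_one, one_smul]
  have h1 := topS_dE g (top_del g) D Ω
  rw [hΩ, map_zero, Fintype.sum_option, ← hf] at h1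
  have h2 : ∀ s : ℝ, ∫ x, (D none f).1 (x, s) ∂Measure.haar = 0 := by
    intro s
    rw [eq_neg_of_add_eq_zero_left h1.symm]
    simp only [← evz_apply, map_neg, map_sum]
    simp only [evz_apply]
    rw [integral_neg, integral_finset_sum _ fun i _ => SS_int _ s, neg_eq_zero]
    exact Finset.sum_eq_zero fun i _ => (h.good i.1 i.2.1 i.2.2).int _ s
  have h3 := integral_sub_eq (Measure.haar : Measure (UX J (Fin N)))
    (f := fun t x => f.1 (x, t)) (f' := fun t x => (D none f).1 (x, t))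
    (fun t => (SS_cont f).comp (by fun_prop)) ((SS_cont _).comp continuous_swap)
    (fun t x => h.time f x t)
  simp only [h2, intervalIntegral.integral_zero, sub_eq_zero] at h3
  simp only [e, h3]

lemma evR_inj {Y : Type*} [Fintype Y] [DecidableEq Y] (z : UX J (Fin N) × ℝ)
    (M : Matrix Y Y (SS J (Fin N))) : (evR z).mapMatrix (inj.mapMatrix M : Matrix Y Y (RR J N Λ)) =
      (Algebra.ofId ℂ Λ).mapMatrix ((evz z).mapMatrix M) := by
  ext a b
  simp [inj_apply, evR_tmul, Algebra.ofId_apply, Algebra.algebraMap_eq_smul_one]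

lemma deriv_st_eq_zero {δ y : ℝ} (hδ : 0 < δ) (h : δ ≤ y) :
    deriv (fun y => Real.smoothTransition (y / δ)) y = 0 := by
  refine IsLocalMax.deriv_eq_zero (Filter.Eventually.of_forall fun x => ?_)
  simp only
  rw [Real.smoothTransition.one_of_one_le ((one_le_div hδ).2 h)]
  exact Real.smoothTransition.le_one _

theorem Frame.cover (h : Frame D) {Y : Type} [Fintype Y] [DecidableEq Y]
    (U U' : J → Matrix Y Y (SS J (Fin N))) (hU : ∀ l, U l * U' l = 1)
    (hst : ∀ l z, (evz z).mapMatrix (U' l) = star ((evz z).mapMatrix (U l)))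
    (a : Matrix J J ℂ) (ha : a.det ≠ 0)
    (htr : ∀ l k, ((inj.mapMatrix (U' l) * (dE g (del g) D).mapMatrix (inj.mapMatrix (U l))) ^
      (2 * k + 1)).trace = incl (∑ j, a l j • om g j k))
    (ζ : Fin N → ℂ) (hζ : ∀ r, star (ζ r) * ζ r = 1) :
    ∃ x, ∀ l r, ((evz (x, 1)).mapMatrix (U l) - ζ r • (1 : Matrix Y Y ℂ)).det = 0 := by
  by_contra hc
  push Not at hc
  let u : J × Fin N → SS J (Fin N) := fun p =>
    (U p.1 - ζ p.2 • 1).det * (U' p.1 - star (ζ p.2) • 1).det
  have hu : ∀ p z, evz z (u p) =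
      (Complex.normSq ((evz z).mapMatrix (U p.1) - ζ p.2 • (1 : Matrix Y Y ℂ)).det : ℝ) := by
    intro p z
    simp only [u, map_mul, AlgHom.map_det, map_sub, map_smul, map_one, hst]
    rw [← Complex.mul_conj]
    congr 1
    rw [← RCLike.star_def, ← Matrix.det_conjTranspose, ← Matrix.star_eq_conjTranspose, star_sub,
      star_smul, star_one]
  have hui : ∀ p z, ((u p).1 z).im = 0 := fun p z => by rw [← evz_apply, hu, ofReal_im]
  obtain ⟨δ, hδ, hδ'⟩ : ∃ δ : ℝ, 0 < δ ∧ ∀ x, ∃ p, δ ≤ (evz (x, 1) (u p)).re := by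
    have hcont : Continuous fun x : UX J (Fin N) => ∑ p, (evz (x, 1) (u p)).re :=
      continuous_finsetSum _ fun p _ =>
        Complex.continuous_re.comp ((SS_cont (u p)).comp (Continuous.prodMk_left 1))
    obtain ⟨x0, -, hx0⟩ := isCompact_univ.exists_isMinOn Set.univ_nonempty hcont.continuousOn
    have hpos : 0 < ∑ p, (evz (x0, 1) (u p)).re := by
      obtain ⟨l, r, hlr⟩ := hc x0
      refine Finset.sum_pos' (fun p _ => ?_) ⟨(l, r), Finset.mem_univ _, ?_⟩
      · rw [hu, ofReal_re]; exact Complex.normSq_nonneg _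
      · rw [hu, ofReal_re]; exact Complex.normSq_pos.2 hlr
    refine ⟨(∑ p, (evz (x0, 1) (u p)).re) / (Fintype.card (J × Fin N) + 1), by positivity,
      fun x => ?_⟩
    by_contra hx
    push Not at hx
    have h1 := Finset.sum_le_sum fun p (_ : p ∈ Finset.univ) => (hx p).le
    have h2 : (∑ p, (evz (x0, 1) (u p)).re) ≤ ∑ p, (evz (x, 1) (u p)).re := hx0 (Set.mem_univ x)
    rw [Finset.sum_const, Finset.card_univ, nsmul_eq_mul, ← mul_div_assoc,
      le_div_iff₀ (by positivity)] at h1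
    nlinarith
  have hk : ContDiff ℝ ∞ fun y : ℝ => Real.smoothTransition (y / δ) :=
    Real.smoothTransition.contDiff.comp (contDiff_id.div_const δ)
  let χ : J × Fin N → SS J (Fin N) := fun p => cmp _ hk (u p) (hui p)
  let ψ : SS J (Fin N) := Vale.Agent.P174.sv * Vale.Agent.P174.sv *
    (algebraMap ℂ _ 3 - algebraMap ℂ _ 2 * Vale.Agent.P174.sv)
  let t : J × Fin N → SS J (Fin N) := fun p => ψ * χ p
  let F : J × Fin N → Matrix Y Y (SS J (Fin N)) := fun p =>
    (1 - t p) • U p.1 - (t p * algebraMap ℂ _ (ζ p.2)) • 1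
  have hχ : ∀ p z, evz z (χ p) = (Real.smoothTransition ((evz z (u p)).re / δ) : ℝ) :=
    fun p z => rfl
  have hψ : ∀ z, evz z ψ = (z.2 * z.2 * (3 - 2 * z.2) : ℝ) := by
    intro z
    simp [ψ, evz_sv]
  have hF : ∀ p z, (evz z).mapMatrix (F p) = (1 - evz z (t p)) • (evz z).mapMatrix (U p.1) -
      (evz z (t p) * ζ p.2) • 1 := by
    intro p z
    ext a b
    by_cases hab : a = b <;> simp [F, hab]
  have hV : ∀ l z, (evz z).mapMatrix (U l) * star ((evz z).mapMatrix (U l)) = 1 := by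
    intro l z
    rw [← hst, ← map_mul, hU, map_one]
  have hFu : ∀ p, IsUnit (F p).det := by
    intro p
    refine SS_isUnit _ fun z hz => ?_
    rw [AlgHom.map_det, hF] at hz
    have ht : evz z (t p) = ((z.2 * z.2 * (3 - 2 * z.2)) *
        Real.smoothTransition ((evz z (u p)).re / δ) : ℝ) := by
      simp only [t, map_mul, hχ, hψ, ofReal_mul]
    rw [ht] at hz
    obtain ⟨h1, h2⟩ := det_eq_zero_of (mul_eq_one_comm.1 (hV _ _)) (hζ _) hz
    rw [hu, h2] at h1
    simp at h1
  let θ : J × Fin N → Matrix Y Y (RR J N Λ) := fun p =>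
    inj.mapMatrix (F p)⁻¹ * (dE g (del g) D).mapMatrix (inj.mapMatrix (F p))
  have hl := dE_lb g (del_lb g) D
  have hθ : ∀ p k, dE g (del g) D (θ p ^ (2 * k + 1)).trace = 0 := by
    intro p k
    have := maurer (hl.mat (n := Y)) (F := inj.mapMatrix (F p)) (G := inj.mapMatrix (F p)⁻¹)
      (fun X => by ext a b; exact dE_par g (del_par g) D _) (P_inj g _) (P_inj g _)
      (by rw [← map_mul, Matrix.nonsing_inv_mul _ (hFu p), map_one])
      (by rw [← map_mul, Matrix.mul_nonsing_inv _ (hFu p), map_one])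
      (by ext a b; exact h.dd g _)
    exact (g.toSAlg.tens _).closed_odd hl this.1 this.2 k
  obtain ⟨e⟩ : Nonempty (Fin (Fintype.card (J × Fin N)) ≃ J × Fin N) :=
    ⟨(Fintype.equivFin _).symm⟩
  have hS := h.stokes g (hl.prod_closed
    (List.ofFn fun i => (θ (e i) ^ (2 * ((e i).2 : ℕ) + 1)).trace) (by
      intro x hx
      obtain ⟨i, rfl⟩ := List.mem_ofFn.1 hx
      exact hθ _ _))
  have hed : ∀ p z, ed g D z (t p) = 0 →
      (evR z).mapMatrix ((dE g (del g) D).mapMatrix (inj.mapMatrix (F p))) = (1 - evz z (t p)) •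
        (evR z).mapMatrix ((dE g (del g) D).mapMatrix (inj.mapMatrix (U p.1))) := by
    intro p z hz
    ext a b
    change ed g D z (F p a b) = (1 - evz z (t p)) • ed g D z (U p.1 a b)
    by_cases hab : a = b <;> simp [F, hab, ed_mul, hz, ed_one, ed_alg]
  have hedψ : ∀ z, ed g D z ψ = (6 * z.2 * (1 - z.2) : ℂ) • ed g D z Vale.Agent.P174.sv := by
    intro z
    simp only [ψ, ed_mul, map_sub, ed_alg, map_mul, AlgHom.commutes, evz_sv, Algebra.algebraMap_self,
      RingHom.id_apply]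
    module
  have h1 : ∀ x, evR (x, 1) (List.ofFn fun i =>
      (θ (e i) ^ (2 * ((e i).2 : ℕ) + 1)).trace).prod = 0 := by
    intro x
    obtain ⟨p, hp⟩ := hδ' x
    rw [map_list_prod, List.prod_eq_zero]
    refine List.mem_map.2 ⟨_, List.mem_ofFn.2 ⟨e.symm p, rfl⟩, ?_⟩
    have e1 : ed g D (x, 1) (t p) = 0 := by
      simp only [t, χ, ed_mul, hedψ, h.ed_cmp, deriv_st_eq_zero hδ hp]
      simp
    have e2 : evz (x, 1) (t p) = 1 := by
      simp only [t, map_mul, hχ, hψ, Real.smoothTransition.one_of_one_le ((one_le_div hδ).2 hp)]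
      norm_num
    rw [Equiv.apply_symm_apply, alg_trace, map_pow, map_mul, hed p _ e1, e2]
    simp
  have h0 : ∀ x, evR (x, 0) (List.ofFn fun i =>
      (θ (e i) ^ (2 * ((e i).2 : ℕ) + 1)).trace).prod =
      (List.ofFn fun i => ∑ j, a (e i).1 j • om g j (e i).2).prod := by
    intro x
    rw [map_list_prod, List.map_ofFn]
    congr 2
    funext i
    have e1 : ed g D (x, 0) (t (e i)) = 0 := by
      simp only [t, ed_mul, hedψ, hψ]
      simp
    have e2 : evz (x, 0) (t (e i)) = 0 := by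
      simp only [t, map_mul, hψ]
      simp
    have e3 : (evz (x, 0)).mapMatrix (F (e i))⁻¹ = (evz (x, 0)).mapMatrix (U' (e i).1) := by
      have := congrArg (evz (x, 0)).mapMatrix (Matrix.nonsing_inv_mul _ (hFu (e i)))
      rw [map_mul, hF, e2, map_one] at this
      simp only [sub_zero, one_smul, zero_mul, zero_smul] at this
      rw [hst, ← mul_one ((evz (x, 0)).mapMatrix (F (e i))⁻¹), ← hV (e i).1 (x, 0), ← mul_assoc,
        this, one_mul]
    have e4 := congrArg (evR (x, 0)) (htr (e i).1 (e i).2)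
    rw [incl_apply, evR_tmul, map_one, one_smul, alg_trace, map_pow, map_mul, evR_inj] at e4
    rw [Function.comp_apply, alg_trace, map_pow, map_mul, hed _ _ e1, e2, evR_inj, e3, sub_zero,
      one_smul, e4]
  simp only [h1, h0, mul_zero, map_zero, integral_const, smul_zero] at hS
  have hpos : (Measure.haar : Measure (UX J (Fin N))).real Set.univ ≠ 0 := by
    rw [Ne, measureReal_eq_zero_iff]
    exact (isOpen_univ.measure_pos _ Set.univ_nonempty).ne'
  exact nonvanish g a ha e ((smul_eq_zero.1 hS.symm).resolve_left hpos)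

end

end Vale.Agent.P174
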