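import Vale.Agent.P174.Word

/-! Removing the conjugating tails and isolating the faces. -/

namespace Vale.Agent.P174

open Monoid

set_option linter.unusedSectionVars false
set_option linter.unusedSimpArgs false

section emb
variable {Y Z H : Type*} [Group H]

noncomputable def embF (e : Z ↪ Y) (x : Mon Z H) : Mon Y H :=
  ⟨x.σ.viaEmbedding e, Function.extend e x.a 1⟩

lemma embF_σ (e : Z ↪ Y) (x : Mon Z H) (i : Z) : (embF e x).σ (e i) = e (x.σ i) :=
  Equiv.Perm.viaEmbedding_apply _ _ _

lemma embF_a (e : Z ↪ Y) (x : Mon Z H) (i : Z) : (embF e x).a (e i) = x.a i :=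
  e.injective.extend_apply _ _ _

lemma embF_supp (e : Z ↪ Y) (x : Mon Z H) : Supp (embF e x) (Set.range e) := fun j hj =>
  ⟨Equiv.Perm.viaEmbedding_apply_of_notMem _ _ _ hj, Function.extend_apply' _ _ _ hj⟩

lemma embF_ext (e : Z ↪ Y) (x : Mon Z H) (y : Mon Y H) (hy : Supp y (Set.range e))
    (h : ∀ i, y.σ (e i) = e (x.σ i) ∧ y.a (e i) = x.a i) : embF e x = y := by
  refine Mon.ext' fun j => ?_
  by_cases hj : j ∈ Set.range e
  · obtain ⟨i, rfl⟩ := hj
    rw [embF_σ, embF_a, (h i).1, (h i).2]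
    exact ⟨rfl, rfl⟩
  · rw [(embF_supp e x j hj).1, (embF_supp e x j hj).2, (hy j hj).1, (hy j hj).2]
    exact ⟨rfl, rfl⟩

noncomputable def emb (e : Z ↪ Y) : Mon Z H →* Mon Y H where
  toFun := embF e
  map_one' := embF_ext e _ _ (Supp.one _) (by simp)
  map_mul' x y := embF_ext e _ _ ((embF_supp e x).mul (embF_supp e y)) (by
    intro i
    simp [embF_σ, embF_a])

variable [DecidableEq Y] [DecidableEq Z]

lemma emb_tr (e : Z ↪ Y) (y y' : Z) (h : H) : emb e (tr y y' h) = tr (e y) (e y') h := by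
  refine embF_ext e _ _ ((tr_supp _ _ _).mono ?_) fun i => ?_
  · rintro j (rfl | rfl) <;> simp
  · simp [tr_a, e.injective.swap_apply, e.injective.eq_iff]

lemma emb_dpt (e : Z ↪ Y) (y : Z) (h : H) : emb e (dpt y h) = dpt (e y) h := by
  refine embF_ext e _ _ ((dpt_supp _ _).mono ?_) fun i => ?_
  · rintro j rfl; simp
  · simp [dpt_a, e.injective.eq_iff]

lemma prod_disjoint {ι : Type*} (x : ι → Mon Y H) (S : ι → Set Y) (hS : ∀ i, Supp (x i) (S i))
    (hd : ∀ i i', i ≠ i' → ∀ j, j ∈ S i → j ∉ S i') (l : List ι) (hl : l.Nodup) :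
    Supp (l.map x).prod {j | ∃ i ∈ l, j ∈ S i} ∧ ∀ i ∈ l, ∀ j ∈ S i,
      (l.map x).prod.σ j = (x i).σ j ∧ (l.map x).prod.a j = (x i).a j := by
  induction l with
  | nil => exact ⟨Supp.one _, by simp⟩
  | cons a l ih =>
    rw [List.nodup_cons] at hl
    obtain ⟨h1, h2⟩ := ih hl.2
    rw [List.map_cons, List.prod_cons]
    constructor
    · refine Supp.mul ((hS a).mono fun j hj => ⟨a, by simp, hj⟩) (h1.mono ?_)
      rintro j ⟨i, hi, hj⟩
      exact ⟨i, by simp [hi], hj⟩
    · intro i hi j hj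
      rcases List.mem_cons.1 hi with rfl | hi
      · have := h1 j (by
          rintro ⟨i', hi', hj'⟩
          exact hd i i' (fun h => hl.1 (h ▸ hi')) j hj hj')
        simp [this]
      · have h3 := h2 i hi j hj
        have h4 := hS a ((x i).σ j) (hd i a (fun h => hl.1 (h ▸ hi)) _ ((hS i).mem hj))
        simp [h3, h4]

end emb

variable {G : Type*} [Group G] {n : ℕ} {Y : Type*} [DecidableEq Y]

/-- The formal inverse of a named word (names are kept). -/
def invW (V : List (G ⊕ Y)) : List (G ⊕ Y) := (V.map (Sum.map (fun γ => γ⁻¹) id)).reverse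

lemma tr_one_inv (pt y : Y) : (tr pt y (1 : Circle × G))⁻¹ = tr pt y 1 := by
  refine Mon.ext' fun j => ?_
  simp [tr_a]

lemma CW_invW (pt : Y) (V : List (G ⊕ Y)) : CW pt (invW V) = (CW pt V)⁻¹ := by
  induction V with
  | nil => simp [invW]
  | cons a V ih =>
    rw [invW, List.map_cons, List.reverse_cons, CW_append, CW_cons pt a, mul_inv_rev, ← ih]
    congr 1
    cases a with
    | inl γ => simp [cl, dpt_inv]
    | inr y => simp [cl, tr_one_inv]

lemma nm_invW (V : List (G ⊕ Y)) : nm (invW V) = (nm V).reverse := by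
  induction V with
  | nil => simp [invW]
  | cons a V ih =>
    rw [invW, List.map_cons, List.reverse_cons, nm_append]
    rw [invW] at ih
    cases a with
    | inl γ => simp [ih]
    | inr y => simp [ih]

lemma ev_invW (lab lab' : Y → Ltr n) (V : List (G ⊕ Y))
    (h : ∀ y ∈ nm V, lab' y = linv (lab y)) :
    ((invW V).map (ev lab')).prod = ((V.map (ev lab)).prod)⁻¹ := by
  induction V with
  | nil => simp [invW]
  | cons a V ih =>
    rw [invW, List.map_cons, List.reverse_cons, List.map_append, List.prod_append, List.map_cons,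
      List.map_cons, List.prod_cons (a := ev lab a), mul_inv_rev]
    cases a with
    | inl γ =>
      rw [← ih (by simpa using h)]
      simp [ev, invW]
    | inr y =>
      simp only [nm_inr, List.mem_cons, forall_eq_or_imp] at h
      rw [← ih h.2]
      simp [ev, invW, h.1, lev_linv]

/-- The named word of a list of syllables. -/
def sylW {k : ℕ} (γ : Fin k → G) (ι : Fin k → Y) : List (G ⊕ Y) :=
  (List.finRange k).flatMap fun i => [Sum.inl (γ i), Sum.inr (ι i)]

lemma nm_flatMap {α : Type*} (l : List α) (f : α → List (G ⊕ Y)) :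
    nm (l.flatMap f) = l.flatMap fun a => nm (f a) := by
  induction l with
  | nil => rfl
  | cons a l ih => simp [ih]

lemma nm_sylW {k : ℕ} (γ : Fin k → G) (ι : Fin k → Y) :
    nm (sylW γ ι) = (List.finRange k).map ι := by
  rw [sylW, nm_flatMap]
  simp [List.flatMap_singleton', List.map_eq_flatMap]

lemma CW_sylW_emb {Z : Type*} [DecidableEq Z] {k : ℕ} (γ : Fin k → G) (ι : Fin k → Z) (pt : Z)
    (e : Z ↪ Y) : emb e (CW pt (sylW γ ι)) = CW (e pt) (sylW γ fun i => e (ι i)) := by
  simp only [sylW]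
  induction List.finRange k with
  | nil => simp
  | cons a l ih => simp [cl, emb_tr, emb_dpt, ih]

lemma CW_moves (pt : Y) (W : List (G ⊕ Y)) (hN : (nm W).Nodup) (hp : pt ∉ nm W)
    (hW : nm W ≠ []) : (CW pt W).σ⁻¹ pt ≠ pt := by
  induction W with
  | nil => simp at hW
  | cons a W ih =>
    cases a with
    | inl γ =>
      simp only [nm_inl] at hN hp hW
      simpa [cl] using ih hN hp hW
    | inr y =>
      simp only [nm_inr, List.nodup_cons, List.mem_cons, not_or] at hN hp
      have h1 := (CW_supp pt W).inv y (by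
        rintro (h | h)
        exacts [hp.1 h.symm, hN.1 h])
      simp only [CW_cons, cl, Mon.mul_σ, tr_σ, mul_inv_rev, Equiv.swap_inv, Equiv.Perm.mul_apply,
        Equiv.swap_apply_left]
      rw [← Mon.inv_σ, h1.1]
      exact fun h => hp.1 h.symm

/-- The model face operator. -/
lemma exists_face {k : ℕ} (hk : 0 < k) (γ : Fin k → G) :
    ∃ (c : Mon (Option (Fin k)) (Circle × G)) (y : Option (Fin k)) (h : Circle × G), none ≠ y ∧
      c = CW none (sylW γ some) * tr none y h ∧ c.σ none = none ∧ c.a none = 1 := by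
  set C := CW none (sylW γ some) with hC
  have h1 : C.σ⁻¹ none ≠ none := by
    refine CW_moves _ _ ?_ ?_ ?_
    · rw [nm_sylW]
      exact (List.nodup_finRange k).map (Option.some_injective _)
    · simp [nm_sylW]
    · rw [nm_sylW]
      intro h
      have := congrArg List.length h
      simp at this
      omega
  refine ⟨_, C.σ⁻¹ none, (C.a (C.σ⁻¹ none))⁻¹, h1.symm, rfl, ?_, ?_⟩
  · simp
  · simp [tr_a]

/-- Structured words: faces with conjugating tails. -/
inductive Str {Φ : Type*} (lab : Y → Ltr n) (fw : Φ → List (G ⊕ Y)) :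
    List (G ⊕ Y) → List Y → List Φ → Prop
  | nil : Str lab fw [] [] []
  | face {W T F} (φ : Φ) : Str lab fw W T F → Str lab fw (fw φ ++ W) T (φ :: F)
  | wrap {W1 T1 F1 W2 T2 F2} (γ : G) (y y' : Y) : Str lab fw W1 T1 F1 → Str lab fw W2 T2 F2 →
      lab y' = linv (lab y) →
      Str lab fw (Sum.inl γ :: Sum.inr y :: (W1 ++ Sum.inr y' :: Sum.inl γ⁻¹ :: W2))
        (y :: y' :: (T1 ++ T2)) (F1 ++ F2)

variable [Fintype Y]

theorem comb2 {Φ : Type*} {lab : Y → Ltr n} {fw : Φ → List (G ⊕ Y)} (pt : Y)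
    (cf : Φ → Mon Y (Circle × G)) (hcf : ∀ φ, Rl 1 (CW pt (fw φ)) (cf φ))
    (hsup : ∀ φ, Supp (cf φ) {j | j ∈ nm (fw φ)})
    {W : List (G ⊕ Y)} {T : List Y} {F : List Φ}
    (h : Str lab fw W T F) (hN : (nm W).Nodup) (hp : pt ∉ nm W) :
    (∀ j ∈ T, j ∈ nm W) ∧ Supp (F.map cf).prod {j | j ∈ nm W} ∧
    ∃ R : Mon Y (Circle × G), Supp R {j | j ∈ T} ∧ R * R = 1 ∧ (∀ j, R.a j = 1) ∧
      (∀ j ∈ T, lab (R.σ j) = linv (lab j)) ∧
      Rl (F.length + T.length / 2) (R * CW pt W) (F.map cf).prod := by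
  induction h with
  | nil =>
    refine ⟨by simp, Supp.one _, 1, Supp.one _, by simp, by simp, by simp, ?_⟩
    simpa using Rl.refl _
  | @face W T F φ _ ih =>
    simp only [nm_append, List.nodup_append, List.mem_append, not_or] at hN hp
    obtain ⟨t1, t2, R, r1, r2, r3, r4, r5⟩ := ih hN.2.1 hp.2
    refine ⟨fun j hj => by simp [t1 j hj], ?_, R, r1, r2, r3, r4, ?_⟩
    · rw [List.map_cons, List.prod_cons]
      refine Supp.mul ((hsup φ).mono fun j hj => ?_) (t2.mono fun j hj => ?_)
      · simp only [Set.mem_ofPred_eq] at hj; simp [hj]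
      · simp only [Set.mem_ofPred_eq] at hj; simp [hj]
    · have c1 : R * CW pt (fw φ) = CW pt (fw φ) * R := r1.comm (CW_supp _ _) (by
        rintro j hj (rfl | h)
        · exact hp.2 (t1 _ hj)
        · exact hN.2.2 j h j (t1 _ hj) rfl)
      rw [CW_append, ← mul_assoc, c1, mul_assoc, List.map_cons, List.prod_cons]
      convert (hcf φ).mul r5 using 1
      simp only [List.length_cons]; push_cast; ring
  | @wrap B T1 F1 A T2 F2 γ y y' _ _ hl ihB ihA =>
    simp only [nm_inr, nm_inl, nm_append, List.nodup_cons, List.mem_append, List.mem_cons, not_or,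
      List.nodup_append, forall_eq_or_imp, ne_eq] at hN hp
    obtain ⟨⟨hyB, hyy', hyA⟩, hNB, ⟨hy'A, hNA⟩, hBA⟩ := hN
    obtain ⟨hpy, hpB, hpy', hpA⟩ := hp
    have hy'B : y' ∉ nm B := fun h => (hBA _ h).1 rfl
    have hBA' : ∀ j, j ∈ nm B → j ∉ nm A := fun j hj hj' => (hBA j hj).2 j hj' rfl
    obtain ⟨tB, sB, PB, b1, b2, b3, b4, b5⟩ := ihB hNB hpB
    obtain ⟨tA, sA, PA, a1, a2, a3, a4, a5⟩ := ihA hNA hpA
    have b1' : Supp PB {j | j ∈ nm B} := b1.mono tB
    have a1' : Supp PA {j | j ∈ nm A} := a1.mono tA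
    set π0 : Mon Y (Circle × G) := tr y y' 1 with hπ
    have hπs : Supp π0 {y, y'} := tr_supp _ _ _
    have cπB : PB * π0 = π0 * PB := b1'.comm hπs (by
      rintro j hj (rfl | rfl)
      exacts [hyB hj, hy'B hj])
    have cπA : PA * π0 = π0 * PA := a1'.comm hπs (by
      rintro j hj (rfl | rfl)
      exacts [hyA hj, hy'A hj])
    have cBA : PB * PA = PA * PB := b1'.comm a1' hBA'
    refine ⟨?_, ?_, π0 * PB * PA, ?_, ?_, ?_, ?_, ?_⟩
    · intro j hj
      simp only [List.mem_cons, List.mem_append] at hj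
      rcases hj with rfl | rfl | hj | hj
      · simp
      · simp
      · simp [tB j hj]
      · simp [tA j hj]
    · rw [List.map_append, List.prod_append]
      refine Supp.mul (sB.mono fun j hj => ?_) (sA.mono fun j hj => ?_)
      · simp only [Set.mem_ofPred_eq] at hj; simp [hj]
      · simp only [Set.mem_ofPred_eq] at hj; simp [hj]
    · refine Supp.mul (Supp.mul (hπs.mono ?_) (b1.mono ?_)) (a1.mono ?_)
      · rintro j (rfl | rfl) <;> simp
      · intro j hj; simp only [Set.mem_ofPred_eq] at hj; simp [hj]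
      · intro j hj; simp only [Set.mem_ofPred_eq] at hj; simp [hj]
    · calc π0 * PB * PA * (π0 * PB * PA) = π0 * PB * (PA * π0) * PB * PA := by group
        _ = π0 * (PB * π0) * (PA * PB) * PA := by rw [cπA]; group
        _ = (π0 * π0) * (PB * PB) * (PA * PA) := by rw [cπB, ← cBA]; group
        _ = 1 := by rw [tr_mul_self hyy', b2, a2]; simp
    · intro j
      simp [a3, b3, hπ, tr_a]
    · intro j hj
      simp only [List.mem_append, List.mem_cons] at hj
      simp only [Mon.mul_σ, Equiv.Perm.mul_apply, hπ, tr_σ]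
      rcases hj with rfl | rfl | hj | hj
      · rw [(a1' j hyA).1, (b1' j hyB).1, Equiv.swap_apply_left, hl]
      · rw [(a1' j hy'A).1, (b1' j hy'B).1, Equiv.swap_apply_right, hl, linv_linv]
      · have := b1'.mem (tB j hj)
        rw [(a1' j (hBA' j (tB j hj))).1, Equiv.swap_apply_of_ne_of_ne, b4 j hj]
        · rintro h; rw [h] at this; exact hyB this
        · rintro h; rw [h] at this; exact hy'B this
      · have := a1'.mem (tA j hj)
        rw [(b1' _ fun h => hBA' _ h this).1, Equiv.swap_apply_of_ne_of_ne, a4 j hj]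
        · rintro h; rw [h] at this; exact hyA this
        · rintro h; rw [h] at this; exact hy'A this
    · set D : Mon Y (Circle × G) := dpt pt (1, γ) with hD
      have hDi : (dpt pt (1, γ⁻¹) : Mon Y (Circle × G)) = D⁻¹ := by rw [hD, dpt_inv]; simp
      have sD : Supp D {pt} := dpt_supp _ _
      have c0 : π0 * D = D * π0 := hπs.comm sD (by
        rintro j (rfl | rfl) h
        exacts [hpy h.symm, hpy' h.symm])
      have c1 : PB * (D * tr pt y 1) = (D * tr pt y 1) * PB :=
        b1'.comm (T := {pt, y}) (Supp.mul (sD.mono (by simp)) (tr_supp _ _ _)) (by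
        rintro j hj (rfl | rfl)
        exacts [hpB hj, hyB hj])
      have c2 : PA * (D * tr pt y 1 * CW pt B * tr pt y' 1 * D⁻¹) =
          (D * tr pt y 1 * CW pt B * tr pt y' 1 * D⁻¹) * PA := by
        refine a1'.comm (T := {j | j = pt ∨ j = y ∨ j = y' ∨ j ∈ nm B}) ?_ ?_
        · refine Supp.mul (Supp.mul (Supp.mul (Supp.mul (sD.mono (by simp))
            ((tr_supp _ _ _).mono ?_)) ((CW_supp _ _).mono ?_))
            ((tr_supp _ _ _).mono ?_)) (sD.inv.mono (by simp))
          · rintro j (rfl | rfl) <;> simp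
          · rintro j (rfl | hj)
            · simp
            · simp [hj]
          · rintro j (rfl | rfl) <;> simp
        · rintro j hj (rfl | rfl | rfl | h)
          exacts [hpA hj, hyA hj, hy'A hj, hBA' j h hj]
      have e1 : π0 * PB * PA * CW pt (Sum.inl γ :: Sum.inr y ::
            (B ++ Sum.inr y' :: Sum.inl γ⁻¹ :: A)) =
          (D * π0 * tr pt y 1 * (PB * CW pt B) * (tr pt y' 1 * D⁻¹)) * (PA * CW pt A) := by
        simp only [CW_cons, CW_append, cl, hDi, ← hD]
        calc π0 * PB * PA * (D * (tr pt y 1 * (CW pt B * (tr pt y' 1 * (D⁻¹ * CW pt A)))))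
            = π0 * PB * (PA * (D * tr pt y 1 * CW pt B * tr pt y' 1 * D⁻¹)) * CW pt A := by group
          _ = π0 * (PB * (D * tr pt y 1)) * CW pt B * tr pt y' 1 * D⁻¹ * PA * CW pt A := by
            rw [c2]; group
          _ = (π0 * D) * tr pt y 1 * PB * CW pt B * tr pt y' 1 * D⁻¹ * PA * CW pt A := by
            rw [c1]; group
          _ = _ := by rw [c0]; group
      rw [e1]
      set XB := (F1.map cf).prod with hXB
      set XA := (F2.map cf).prod with hXA
      have c3 : XB * (tr pt y' 1 * D⁻¹) = (tr pt y' 1 * D⁻¹) * XB :=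
        sB.comm (T := {pt, y'}) (Supp.mul (tr_supp _ _ _) (sD.inv.mono (by simp))) (by
        rintro j hj (rfl | rfl)
        exacts [hpB hj, hy'B hj])
      have r1 := (b5.both (D * π0 * tr pt y 1) (tr pt y' 1 * D⁻¹)).mul a5
      have e3 : D * π0 * tr pt y 1 * XB * (tr pt y' 1 * D⁻¹) * XA =
          D * (π0 * tr pt y 1 * dpt pt 1 * tr pt y' 1) * (D⁻¹ * XB * XA) := by
        rw [mul_assoc _ XB, c3, dpt_one]; group
      rw [e3] at r1
      have r2 := (Rl.tr hpy 1 (π0 * tr pt y 1 * dpt pt 1 * tr pt y' 1)).both D (D⁻¹ * XB * XA)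
      rw [core_three hpy hpy' hyy'] at r2
      have r3 := r1.trans r2
      convert r3 using 1
      · simp only [List.length_cons, List.length_append]
        push_cast; ring
      · have : (dg fun j => if j = pt then (1 : Circle × G) else if j = y then 1⁻¹ * 1⁻¹ else
            if j = y' then 1 * 1 else 1) = 1 := by
          refine Mon.ext' fun j => ?_
          simp
        rw [this, List.map_append, List.prod_append, ← hXA, ← hXB]
        group

end Vale.Agent.P174
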