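import Vale.Agent.P174.Phase

/-! The group algebra with its canonical trace, and matrices over it. -/

namespace Vale.Agent.P174

open Complex Finset

set_option linter.unusedSectionVars false
set_option linter.unusedSimpArgs false

universe u

/-- The complex group algebra (a copy carrying a star operation). -/
def GA (G : Type u) [Group G] : Type u := MonoidAlgebra ℂ G

variable {G : Type u} [Group G]

noncomputable instance : Ring (GA G) := inferInstanceAs (Ring (MonoidAlgebra ℂ G))
noncomputable instance : Algebra ℂ (GA G) := inferInstanceAs (Algebra ℂ (MonoidAlgebra ℂ G))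

noncomputable def gst (a : MonoidAlgebra ℂ G) : MonoidAlgebra ℂ G :=
  a.coeff.sum fun g c => MonoidAlgebra.single g⁻¹ ((starRingEnd ℂ) c)

lemma gst_zero : gst (0 : MonoidAlgebra ℂ G) = 0 := by simp [gst]

lemma gst_add (a b : MonoidAlgebra ℂ G) : gst (a + b) = gst a + gst b := by
  simp only [gst, MonoidAlgebra.coeff_add]
  exact Finsupp.sum_add_index' (by simp) (by simp [MonoidAlgebra.single_add])

lemma gst_single (g : G) (c : ℂ) :
    gst (MonoidAlgebra.single g c) = MonoidAlgebra.single g⁻¹ ((starRingEnd ℂ) c) := by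
  simp only [gst, MonoidAlgebra.coeff_single]
  exact Finsupp.sum_single_index (by simp)

lemma gst_gst (a : MonoidAlgebra ℂ G) : gst (gst a) = a := by
  induction a using MonoidAlgebra.induction_linear with
  | zero => simp [gst_zero]
  | add a b ha hb => rw [gst_add, gst_add, ha, hb]
  | single g c => simp [gst_single]

lemma gst_mul (a b : MonoidAlgebra ℂ G) : gst (a * b) = gst b * gst a := by
  induction a using MonoidAlgebra.induction_linear with
  | zero => simp [gst_zero]
  | add a a' ha ha' => rw [add_mul, gst_add, gst_add, ha, ha', mul_add]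
  | single g c =>
    induction b using MonoidAlgebra.induction_linear with
    | zero => simp [gst_zero]
    | add b b' hb hb' => rw [mul_add, gst_add, gst_add, hb, hb', add_mul]
    | single h d => simp [gst_single, MonoidAlgebra.single_mul_single, mul_comm]

lemma gst_smul (z : ℂ) (a : MonoidAlgebra ℂ G) : gst (z • a) = star z • gst a := by
  induction a using MonoidAlgebra.induction_linear with
  | zero => simp [gst_zero]
  | add a b ha hb => rw [smul_add, gst_add, gst_add, ha, hb, smul_add]
  | single g c => simp [gst_single]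

noncomputable instance : StarRing (GA G) where
  star := gst
  star_involutive := gst_gst
  star_mul := gst_mul
  star_add := gst_add

instance : StarModule ℂ (GA G) where
  star_smul := gst_smul

/-- The coefficient of the identity. -/
noncomputable def tau0 : MonoidAlgebra ℂ G →ₗ[ℂ] ℂ where
  toFun a := a.coeff 1
  map_add' a b := by simp
  map_smul' z a := by simp

lemma tau0_apply (a : MonoidAlgebra ℂ G) : tau0 a = a.coeff 1 := rfl

open Classical in
lemma tau0_single (g : G) (c : ℂ) : tau0 (MonoidAlgebra.single g c) = if g = 1 then c else 0 := by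
  simp [tau0_apply, MonoidAlgebra.coeff_single, Finsupp.single_apply]

lemma tau0_comm (a b : MonoidAlgebra ℂ G) : tau0 (a * b) = tau0 (b * a) := by
  induction a using MonoidAlgebra.induction_linear with
  | zero => simp
  | add a a' ha ha' => rw [add_mul, mul_add, map_add, map_add, ha, ha']
  | single g c =>
    induction b using MonoidAlgebra.induction_linear with
    | zero => simp
    | add b b' hb hb' => rw [add_mul, mul_add, map_add, map_add, hb, hb']
    | single h d =>
      simp only [MonoidAlgebra.single_mul_single, tau0_single, mul_comm c]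
      by_cases h1 : g * h = 1
      · rw [if_pos h1, if_pos (mul_eq_one_comm.1 h1)]
      · rw [if_neg h1, if_neg (fun h2 => h1 (mul_eq_one_comm.1 h2))]

lemma tau0_gst (a : MonoidAlgebra ℂ G) : tau0 (gst a) = (starRingEnd ℂ) (tau0 a) := by
  induction a using MonoidAlgebra.induction_linear with
  | zero => simp [gst_zero]
  | add a b ha hb => rw [gst_add, map_add, map_add, map_add, ha, hb]
  | single g c =>
    simp only [gst_single, tau0_single, inv_eq_one]
    by_cases h1 : g = 1
    · simp [h1]
    · simp [h1]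

lemma tau0_pos (a : MonoidAlgebra ℂ G) : 0 ≤ (tau0 (gst a * a)).re := by
  have : tau0 (gst a * a) = a.coeff.sum fun g c => (starRingEnd ℂ) c * a.coeff g := by
    simp only [gst, Finsupp.sum, Finset.sum_mul, map_sum]
    refine Finset.sum_congr rfl fun g _ => ?_
    simp [tau0_apply]
  rw [this, Finsupp.sum, Complex.re_sum]
  refine Finset.sum_nonneg fun g _ => ?_
  rw [mul_comm, Complex.mul_conj]
  simp [Complex.normSq_nonneg]

/-- The canonical trace. -/
noncomputable def trG (G : Type u) [Group G] : PTr (GA G) where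
  τ := tau0
  comm := tau0_comm
  pos := tau0_pos
  conj := tau0_gst

/-- Group elements with a phase. -/
noncomputable def lam : Circle × G →* GA G where
  toFun x := MonoidAlgebra.single x.2 (x.1 : ℂ)
  map_one' := rfl
  map_mul' x y := by
    exact (MonoidAlgebra.single_mul_single x.2 y.2 (x.1 : ℂ) (y.1 : ℂ)).symm

lemma star_lam (x : Circle × G) : star (lam x) = lam x⁻¹ := by
  change gst (MonoidAlgebra.single _ _) = MonoidAlgebra.single _ _
  rw [gst_single, ← Circle.coe_inv_eq_conj]
  rfl

open Classical in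
lemma tau_lam (x : Circle × G) : (trG G).τ (lam x) = if x.2 = 1 then (x.1 : ℂ) else 0 :=
  tau0_single _ _

lemma lam_one (z : Circle) : (lam (z, 1) : GA G) = algebraMap ℂ (GA G) z := rfl

lemma tau_one : (trG G).τ 1 = 1 := by
  have := tau_lam (1 : Circle × G)
  simpa using this

section mat
variable {A : Type*} [Ring A] [Algebra ℂ A] [StarRing A] [StarModule ℂ A]
variable {Y : Type*} [Fintype Y] [DecidableEq Y]

/-- The trace on matrices. -/
noncomputable def PTr.mat (t : PTr A) (Y : Type*) [Fintype Y] [DecidableEq Y] :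
    PTr (Matrix Y Y A) where
  τ := t.τ ∘ₗ Matrix.traceLinearMap Y ℂ A
  comm a b := by
    simp only [LinearMap.comp_apply, Matrix.traceLinearMap_apply, Matrix.trace, Matrix.diag,
      Matrix.mul_apply, map_sum]
    rw [Finset.sum_comm]
    simp only [t.comm (a _ _)]
  pos a := by
    simp only [LinearMap.comp_apply, Matrix.traceLinearMap_apply, Matrix.trace, Matrix.diag,
      Matrix.mul_apply, map_sum, Matrix.star_apply, Complex.re_sum]
    exact Finset.sum_nonneg fun _ _ => Finset.sum_nonneg fun _ _ => t.pos _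
  conj a := by
    simp only [LinearMap.comp_apply, Matrix.traceLinearMap_apply, Matrix.trace, Matrix.diag,
      map_sum, Matrix.star_apply, t.conj]

lemma PTr.mat_τ (t : PTr A) (M : Matrix Y Y A) : (t.mat Y).τ M = ∑ y, t.τ (M y y) := by
  simp [PTr.mat, Matrix.trace]

lemma phase_diagonal (t : PTr A) {n : ℕ} (b : Fin n → ℂ) (d : Y → A) :
    phase (t.mat Y) b (Matrix.diagonal d) = ∑ y, phase t b (d y) := by
  simp only [phase, ← Complex.re_sum]
  congr 1
  symm
  rw [Finset.sum_comm]
  refine Finset.sum_congr rfl fun i _ => ?_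
  rw [Finset.sum_comm]
  refine Finset.sum_congr rfl fun j _ => ?_
  split_ifs
  · simp
  · rw [← Finset.mul_sum, Finset.sum_sub_distrib, PTr.mat_τ, PTr.mat_τ]
    simp [Matrix.diagonal_pow, Matrix.star_eq_conjTranspose, Matrix.diagonal_conjTranspose]

end mat

/-- The trivial trace on the complex numbers. -/
noncomputable def trC : PTr ℂ where
  τ := LinearMap.id
  comm := mul_comm
  pos a := by
    simp only [LinearMap.id_apply, RCLike.star_def]
    rw [mul_comm, Complex.mul_conj]
    simp [Complex.normSq_nonneg]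
  conj a := rfl

lemma phase_lam_one {n : ℕ} (b : Fin n → ℂ) (z : Circle) :
    phase (trG G) b (lam (z, 1)) = phase trC b z := by
  simp only [phase, ← map_pow, star_lam, ← map_mul, tau_lam, tau_one, trC]
  simp [← Circle.coe_inv_eq_conj]

lemma phase_lam_avg {n : ℕ} (b : Fin n → ℂ) (z : Circle) {g : G} (hg : g ≠ 1) :
    ∃ r : ℕ, 2 ≤ r ∧ phase (trG G) b (lam (z, g)) =
      (∑ k ∈ range r, phase trC b (z * exp (2 * Real.pi * I / r) ^ k)) / r := by
  classical
  obtain ⟨r, hr2, hr⟩ : ∃ r : ℕ, 2 ≤ r ∧ ∀ i j : Fin n,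
      g ^ (i : ℕ) = g ^ (j : ℕ) ↔ (i : ℕ) ≡ j [MOD r] := by
    by_cases h0 : orderOf g = 0
    · refine ⟨n + 2, by omega, fun i j => ?_⟩
      rw [pow_eq_pow_iff_modEq, h0, Nat.modEq_zero_iff]
      constructor
      · intro h; rw [h]
      · intro h
        exact Nat.ModEq.eq_of_lt_of_lt h (by omega) (by omega)
    · refine ⟨orderOf g, ?_, fun i j => pow_eq_pow_iff_modEq⟩
      have := orderOf_eq_one_iff.not.2 hg
      omega
  refine ⟨r, hr2, ?_⟩
  have hr0 : r ≠ 0 := by omega
  have hrC : (r : ℂ) ≠ 0 := by exact_mod_cast hr0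
  set ω : ℂ := exp (2 * Real.pi * I / r) with hω
  have hprim : IsPrimitiveRoot ω r := Complex.isPrimitiveRoot_exp r hr0
  have hωc : (starRingEnd ℂ) ω * ω = 1 := by
    rw [hω, ← exp_conj, ← exp_add]
    simp [neg_div, map_ofNat]
  have key : ∀ i j : Fin n, (trG G).τ (star (lam (z, g) ^ (j : ℕ)) * lam (z, g) ^ (i : ℕ)) * r =
      ∑ k ∈ range r, star ((z * ω ^ k) ^ (j : ℕ)) * (z * ω ^ k) ^ (i : ℕ) := by
    intro i j
    have e : ∀ k, star ((z * ω ^ k) ^ (j : ℕ)) * (z * ω ^ k) ^ (i : ℕ) =
        (starRingEnd ℂ) z ^ (j : ℕ) * (z : ℂ) ^ (i : ℕ) *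
          ((starRingEnd ℂ) ω ^ (j : ℕ) * ω ^ (i : ℕ)) ^ k := by
      intro k
      simp only [RCLike.star_def, map_pow, map_mul, mul_pow, ← pow_mul]
      rw [mul_comm k, mul_comm k]
      ring
    simp only [e, ← Finset.mul_sum, ← map_pow, star_lam, ← map_mul, tau_lam]
    simp only [Prod.pow_mk, Prod.inv_mk, Prod.mk_mul_mk, inv_mul_eq_one, map_pow]
    have hx : (starRingEnd ℂ) ω ^ (j : ℕ) * ω ^ (i : ℕ) = 1 ↔ g ^ (j : ℕ) = g ^ (i : ℕ) := by
      have hω0 : ω ≠ 0 := right_ne_zero_of_mul_eq_one hωc
      have hm : ω ^ (j : ℕ) = ω ^ (i : ℕ) ↔ (j : ℕ) ≡ i [MOD r] := by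
        have := pow_eq_pow_iff_modEq (x := Units.mk0 ω hω0) (n := j) (m := i)
        rw [← orderOf_units, Units.val_mk0, ← hprim.eq_orderOf] at this
        rw [← this, Units.ext_iff]
        simp
      rw [hr, ← hm]
      have h1 : (starRingEnd ℂ) ω ^ (j : ℕ) * ω ^ (j : ℕ) = 1 := by rw [← mul_pow, hωc, one_pow]
      constructor
      · intro h
        have h2 : (starRingEnd ℂ) ω ^ (j : ℕ) ≠ 0 := left_ne_zero_of_mul_eq_one h1
        exact mul_left_cancel₀ h2 (h1.trans h.symm)
      · intro h; rw [← h, h1]
    split_ifs with h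
    · rw [hx.2 h]
      simp [← Circle.coe_inv_eq_conj]
    · have h1 : ((starRingEnd ℂ) ω ^ (j : ℕ) * ω ^ (i : ℕ)) ^ r = 1 := by
        rw [mul_pow, ← pow_mul, ← pow_mul, mul_comm _ r, mul_comm _ r, pow_mul, pow_mul, ← map_pow,
          hprim.pow_eq_one]
        simp
      rw [geom_sum_eq (hx.not.2 h), h1]
      simp
  rw [eq_div_iff (by exact_mod_cast hr0)]
  simp only [phase, ← Complex.re_sum, tau_one]
  rw [← Complex.re_mul_ofReal]
  congr 1
  symm
  rw [Finset.sum_comm, Finset.sum_mul]
  refine Finset.sum_congr rfl fun i _ => ?_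
  rw [Finset.sum_comm, Finset.sum_mul]
  refine Finset.sum_congr rfl fun j _ => ?_
  split_ifs
  · simp
  · rw [← Finset.mul_sum, Finset.sum_sub_distrib, mul_assoc, sub_mul]
    simp only [trC, LinearMap.id_apply, ← key, Complex.ofReal_natCast]
    simp

end Vale.Agent.P174
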