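import Vale.Agent.P174.Super

/-! Grassmann algebras with contractions and the top coefficient. -/

namespace Vale.Agent.P174

set_option linter.unusedSectionVars false
set_option linter.unusedSimpArgs false

/-- The data of a Grassmann algebra on generators indexed by `ι`. -/
structure Gr (ι : Type) [DecidableEq ι] (Λ : Type) [Ring Λ] [Algebra ℂ Λ] extends SAlg Λ where
  c : ι → Λ
  I : ι → Λ →ₗ[ℂ] Λ
  top : Λ →ₗ[ℂ] ℂ
  Pc : ∀ x, P (c x) = - c x
  Ic : ∀ x y, I x (c y) = if x = y then 1 else 0
  Imul : ∀ x, Lb P (I x)
  PI : ∀ x a, P (I x a) = - I x (P a)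
  topI : ∀ x a, top (I x a) = 0
  gen : Algebra.adjoin ℂ (Set.range c) = ⊤
  top_prod : ∀ l : List ι, l.Nodup → (∀ x, x ∈ l) → top (l.map c).prod ≠ 0

lemma prod_perm_anti {Λ ι : Type*} [Ring Λ] (c : ι → Λ) (h : ∀ x y, c x * c y = -(c y * c x))
    {l l' : List ι} (p : l.Perm l') :
    (l.map c).prod = (l'.map c).prod ∨ (l.map c).prod = -(l'.map c).prod := by
  induction p with
  | nil => simp
  | cons x _ ih =>
    rcases ih with ih | ih
    · left; simp [ih]
    · right; simp [ih]
  | swap x y l =>
    right
    simp only [List.map_cons, List.prod_cons]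
    rw [← mul_assoc, h, neg_mul, mul_assoc]
  | trans _ _ h1 h2 =>
    rcases h1 with h1 | h1 <;> rcases h2 with h2 | h2 <;> simp [h1, h2]

section construct
open CliffordAlgebra

abbrev Ex (ι : Type) := ExteriorAlgebra ℂ (ι → ℂ)

lemma ex_mul {ι : Type} (m : ι → ℂ) (b : Ex ι) :
    CliffordAlgebra.ι 0 m * b = involute b * CliffordAlgebra.ι 0 m := by
  induction b using CliffordAlgebra.left_induction with
  | algebraMap r => rw [AlgHom.commutes, Algebra.commutes]
  | add x y hx hy => rw [mul_add, map_add, add_mul, hx, hy]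
  | ι_mul x m' hx =>
    rw [map_mul, involute_ι, mul_assoc, ← hx, ← mul_assoc, ← mul_assoc, neg_mul,
      eq_neg_of_add_eq_zero_left (ExteriorAlgebra.ι_add_mul_swap m m')]

noncomputable def exS (ι : Type) : SAlg (Ex ι) where
  P := involute
  PP := involute_involute
  sc a b := by
    induction a using CliffordAlgebra.left_induction with
    | algebraMap r =>
      rw [AlgHom.commutes, two_smul, Algebra.commutes]
      abel
    | add x y hx hy =>
      simp only [add_mul, mul_add, smul_add, map_add, hx, hy]
      abel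
    | ι_mul x m hx =>
      have e : ∀ y z : Ex ι, CliffordAlgebra.ι 0 m * (y * z) =
          involute y * (CliffordAlgebra.ι 0 m * z) := by
        intro y z
        rw [← mul_assoc, ex_mul, mul_assoc]
      rw [mul_assoc, ← mul_smul_comm, hx]
      simp only [mul_add, mul_sub, e b, e (involute b), involute_involute, map_mul, involute_ι,
        neg_mul, mul_neg]
      abel

variable {ι : Type} [Fintype ι] [DecidableEq ι]

noncomputable def exI (x : ι) : Ex ι →ₗ[ℂ] Ex ι := contractLeft (LinearMap.proj x)

lemma exI_mul (x : ι) : Lb involute (exI x) := by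
  intro a b
  induction a using CliffordAlgebra.left_induction with
  | algebraMap r => simp [exI, contractLeft_algebraMap_mul]
  | add x y hx hy =>
    simp only [add_mul, map_add, hx, hy]
    abel
  | ι_mul y m hx =>
    simp only [exI] at hx ⊢
    rw [mul_assoc, contractLeft_ι_mul, hx, contractLeft_ι_mul, map_mul, involute_ι]
    simp only [mul_add, sub_mul, smul_mul_assoc, neg_mul, mul_assoc]
    abel

lemma exI_par (x : ι) (a : Ex ι) : involute (exI x a) = - exI x (involute a) := by
  induction a using CliffordAlgebra.left_induction with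
  | algebraMap r => simp [exI]
  | add x y hx hy =>
    simp only [map_add, hx, hy]
    abel
  | ι_mul y m hx =>
    simp only [exI] at hx ⊢
    rw [contractLeft_ι_mul, map_mul, involute_ι, neg_mul, map_neg, contractLeft_ι_mul, map_sub,
      map_mul, hx, involute_ι]
    simp

noncomputable def exT : List ι → Ex ι →ₗ[ℂ] Ex ι
  | [] => LinearMap.id
  | x :: l => exT l ∘ₗ exI x

lemma exT_I (l : List ι) {x : ι} (hx : x ∈ l) (a : Ex ι) : exT l (exI x a) = 0 := by
  induction l generalizing a with
  | nil => simp at hx
  | cons y l ih =>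
    simp only [exT, LinearMap.comp_apply]
    rcases List.mem_cons.1 hx with rfl | h
    · simp only [exI]; rw [contractLeft_contractLeft, map_zero]
    · have : exI y (exI x a) = - exI x (exI y a) := contractLeft_comm _ _ _
      rw [this, map_neg, ih h, neg_zero]

noncomputable def exc (x : ι) : Ex ι := CliffordAlgebra.ι 0 (Pi.single x 1)

lemma exI_c (x y : ι) : exI x (exc y) = if x = y then 1 else 0 := by
  simp only [exI, exc, contractLeft_ι, LinearMap.proj_apply, Pi.single_apply]
  split_ifs <;> simp

lemma exT_prod (l : List ι) (hl : l.Nodup) : exT l (l.map exc).prod = 1 := by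
  induction l with
  | nil => simp [exT]
  | cons y l ih =>
    rw [List.nodup_cons] at hl
    have : exI y (l.map exc).prod = 0 := by
      refine (exI_mul y).prod_closed _ fun a ha => ?_
      obtain ⟨z, hz, rfl⟩ := List.mem_map.1 ha
      rw [exI_c, if_neg]
      rintro rfl
      exact hl.1 hz
    simp only [exT, LinearMap.comp_apply, List.map_cons, List.prod_cons]
    rw [exI_mul, this, exI_c, if_pos rfl, one_mul, mul_zero, add_zero, ih hl.2]

noncomputable def exG (ι : Type) [Fintype ι] [DecidableEq ι] : Gr ι (Ex ι) where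
  toSAlg := exS ι
  c := exc
  I := exI
  top := ExteriorAlgebra.algebraMapInv.toLinearMap ∘ₗ exT (Finset.univ.toList)
  Pc x := involute_ι _
  Ic := exI_c
  Imul := exI_mul
  PI := exI_par
  topI x a := by
    rw [LinearMap.comp_apply, exT_I _ (by simp), map_zero]
  gen := by
    rw [eq_top_iff]
    rintro a -
    induction a using CliffordAlgebra.left_induction with
    | algebraMap r => exact Subalgebra.algebraMap_mem _ _
    | add x y hx hy => exact add_mem hx hy
    | ι_mul y m hx =>
      refine mul_mem ?_ hx
      rw [← Finset.univ_sum_single m, map_sum]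
      refine sum_mem fun x _ => ?_
      have : CliffordAlgebra.ι 0 (Pi.single x (m x)) = m x • exc x := by
        rw [exc, ← map_smul, ← Pi.single_smul]; simp
      rw [this]
      exact Subalgebra.smul_mem _ (Algebra.subset_adjoin (Set.mem_range_self x)) _
  top_prod l hl hx := by
    have p : l.Perm (Finset.univ : Finset ι).toList :=
      (List.perm_ext_iff_of_nodup hl (Finset.nodup_toList _)).2 (by simp [hx])
    have h1 := exT_prod _ (Finset.nodup_toList (Finset.univ : Finset ι))
    rcases prod_perm_anti exc (fun x y =>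
      eq_neg_of_add_eq_zero_left (ExteriorAlgebra.ι_add_mul_swap _ _)) p with h | h
    · simp [h, h1]
    · simp [h, h1]

end construct

namespace Gr
variable {ι : Type} [Fintype ι] [DecidableEq ι] {Λ : Type} [Ring Λ] [Algebra ℂ Λ] (g : Gr ι Λ)

lemma top_cI (x : ι) (a : Λ) : g.top (g.c x * g.I x a) = g.top a := by
  have := g.topI x (g.c x * a)
  rw [g.Imul, g.Ic, if_pos rfl, one_mul, g.Pc, neg_mul, map_add, map_neg] at this
  linear_combination -this

/-- The odd derivation with prescribed values on generators. -/
noncomputable def der (u : ι → Λ) : Λ →ₗ[ℂ] Λ := ∑ x, LinearMap.mulLeft ℂ (u x) ∘ₗ g.I x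

lemma der_apply (u : ι → Λ) (a : Λ) : g.der u a = ∑ x, u x * g.I x a := by
  simp [der, LinearMap.sum_apply]

lemma der_lb {u : ι → Λ} (hu : ∀ x, g.P (u x) = u x) : Lb g.P (g.der u) :=
  Lb.sum _ fun x => (g.Imul x).mulLeft g.toSAlg (hu x)

lemma der_c (u : ι → Λ) (x : ι) : g.der u (g.c x) = u x := by
  simp [der_apply, g.Ic]

lemma der_par {u : ι → Λ} (hu : ∀ x, g.P (u x) = u x) (a : Λ) :
    g.P (g.der u a) = - g.der u (g.P a) := by
  simp [der_apply, hu, g.PI]

lemma top_der {u : ι → Λ} (hu : ∀ x, g.P (u x) = u x) (h : ∑ x, g.I x (u x) = 0) (a : Λ) :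
    g.top (g.der u a) = 0 := by
  have : ∀ x, g.top (u x * g.I x a) = - g.top (g.I x (u x) * a) := by
    intro x
    have := g.topI x (u x * a)
    rw [g.Imul, hu, map_add] at this
    linear_combination this
  rw [der_apply, map_sum]
  simp only [this, Finset.sum_neg_distrib, ← map_sum, ← Finset.sum_mul, h]
  simp

lemma der_der {u : ι → Λ} (hu : ∀ x, g.P (u x) = u x) (h : ∀ x, g.der u (u x) = 0) (a : Λ) :
    g.der u (g.der u a) = 0 := by
  have ha : a ∈ Algebra.adjoin ℂ (Set.range g.c) := by rw [g.gen]; trivial
  induction ha using Algebra.adjoin_induction with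
  | mem x hx => obtain ⟨x, rfl⟩ := hx; rw [der_c, h]
  | algebraMap r => rw [(g.der_lb hu).alg, map_zero]
  | add x y _ _ hx hy => rw [map_add, map_add, hx, hy, add_zero]
  | mul x y _ _ hx hy => rw [(g.der_lb hu).dd (g.der_par hu) g.PP, hx, hy]; simp

end Gr

end Vale.Agent.P174
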