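import Vale.Agent.P174.Prep

/-! The main theorem. -/

namespace Vale.Agent.P174

open Monoid

set_option linter.unusedSectionVars false
set_option linter.unusedSimpArgs false

variable {G : Type*} [Group G] {n : ℕ}

section tails
variable {Y Φ T : Type*} [DecidableEq Y]

lemma Str.append {lab : Y → Ltr n} {fw : Φ → List (G ⊕ Y)} {W1 W2 T1 T2 F1 F2}
    (h1 : Str lab fw W1 T1 F1) (h2 : Str lab fw W2 T2 F2) :
    Str lab fw (W1 ++ W2) (T1 ++ T2) (F1 ++ F2) := by
  induction h1 with
  | nil => simpa using h2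
  | face φ _ ih => simpa using Str.face φ ih
  | wrap γ y y' a1 _ hl _ ih => simpa using Str.wrap γ y y' a1 ih hl

lemma Str.perm {lab : Y → Ltr n} {fw : Φ → List (G ⊕ Y)} {W T F} (h : Str lab fw W T F) :
    (nm W).Perm (T ++ F.flatMap fun φ => nm (fw φ)) := by
  rw [List.perm_iff_count]
  intro a
  induction h with
  | nil => simp
  | face φ _ ih => simp only [nm_append, List.count_append, List.flatMap_cons, ih]; omega
  | wrap γ y y' _ _ hl ih1 ih2 =>
    simp only [nm_inl, nm_inr, nm_append, List.count_append, List.count_cons, List.flatMap_append,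
      List.cons_append] at ih1 ih2 ⊢
    omega

lemma Str.flatMap {lab : Y → Ltr n} {fw : Φ → List (G ⊕ Y)} (W : Φ → List (G ⊕ Y))
    (T : Φ → List Y) (h : ∀ φ, Str lab fw (W φ) (T φ) [φ]) (F : List Φ) :
    Str lab fw (F.flatMap W) (F.flatMap T) F := by
  induction F with
  | nil => exact Str.nil
  | cons φ F ih => simpa using (h φ).append ih

/-- A word conjugated by a tail. -/
def tailW (γ : T → G) (ν : T → Bool → Y) : List T → List (G ⊕ Y) → List (G ⊕ Y)
  | [], W => W
  | t :: ts, W => Sum.inl (γ t) :: Sum.inr (ν t true) ::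
      (tailW γ ν ts W ++ [Sum.inr (ν t false), Sum.inl (γ t)⁻¹])

lemma Str.tail {lab : Y → Ltr n} {fw : Φ → List (G ⊕ Y)} (γ : T → G) (ν : T → Bool → Y)
    (hν : ∀ t, lab (ν t false) = linv (lab (ν t true))) (φ : Φ) (ts : List T) :
    Str lab fw (tailW γ ν ts (fw φ)) (ts.flatMap fun t => [ν t true, ν t false]) [φ] := by
  induction ts with
  | nil => simpa [tailW] using Str.face (lab := lab) (fw := fw) φ Str.nil
  | cons t ts ih => simpa [tailW] using Str.wrap (γ t) _ _ ih Str.nil (hν t)

lemma ev_tailW (lab : Y → Ltr n) (γ : T → G) (ν : T → Bool → Y)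
    (hν : ∀ t, lab (ν t false) = linv (lab (ν t true))) (W : List (G ⊕ Y)) (ts : List T) :
    ((tailW γ ν ts W).map (ev lab)).prod =
      (ts.map fun t => Coprod.inl (γ t) * lev G (lab (ν t true))).prod * (W.map (ev lab)).prod *
      (ts.map fun t => Coprod.inl (γ t) * lev G (lab (ν t true))).prod⁻¹ := by
  induction ts with
  | nil => simp [tailW]
  | cons t ts ih => simp [tailW, ih, ev, hν, lev_linv, mul_assoc]

lemma ev_sylW (lab : Y → Ltr n) {k : ℕ} (γ : Fin k → G) (ι : Fin k → Y) :
    ((sylW γ ι).map (ev lab)).prod = syl γ fun i => lab (ι i) := by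
  simp only [sylW, syl]
  induction List.finRange k with
  | nil => simp
  | cons a l ih => simp [ev, ih, mul_assoc]

lemma prod_flatMap {α β M : Type*} [Monoid M] (l : List α) (f : α → List β) (g : β → M) :
    ((l.flatMap f).map g).prod = (l.map fun a => ((f a).map g).prod).prod := by
  induction l with
  | nil => simp
  | cons a l ih => simp [ih]

/-- Number of occurrences. -/
def cnt (y : Y) (l : List Y) : ℕ := l.count y

lemma cnt_append (y : Y) (l l' : List Y) : cnt y (l ++ l') = cnt y l + cnt y l' := List.count_append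

lemma cnt_perm (y : Y) {l l' : List Y} (h : l.Perm l') : cnt y l = cnt y l' := h.count_eq y

lemma cnt_pos {y : Y} {l : List Y} : y ∈ l ↔ 0 < cnt y l := List.count_pos_iff.symm

lemma nodup_of_cnt {l : List Y} (h : ∀ y, cnt y l ≤ 1) : l.Nodup := List.nodup_iff_count_le_one.2 h

lemma cnt_flatMap {α : Type*} (y : Y) (l : List α) (f : α → List Y) :
    cnt y (l.flatMap f) = (l.map fun a => cnt y (f a)).sum := List.count_flatMap

lemma cnt_map {α : Type*} (y : Y) (l : List α) (f : α → Y) :
    cnt y (l.map f) = (l.map fun a => if y = f a then 1 else 0).sum := by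
  induction l with
  | nil => rfl
  | cons a l ih =>
    rw [List.map_cons, List.map_cons, List.sum_cons, ← ih, cnt, cnt, List.count_cons, add_comm]
    congr 1
    by_cases h : y = f a
    · simp [h]
    · simp [h, Ne.symm h]

end tails

abbrev Sg {α : Type} (k : α → ℕ) := Σ j, Fin (k j)
abbrev YT (N : ℕ) {α β : Type} (k : α → ℕ) (kt : β → ℕ) := YY N (Sg k) (Option (Sg kt × Bool))

set_option synthInstance.maxSize 2048 in
set_option maxHeartbeats 800000 in
theorem main_faces {J : Type} [Fintype J] [DecidableEq J] (w : J → Coprod G (FreeGroup (Fin n)))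
    (x0 : Fin n) (col : J → Fin n) (hcol : Function.Injective col)
    (ha : (Matrix.of fun l j => ((Multiplicative.toAdd (expo G n (w j)) (col l) : ℤ) : ℂ)).det ≠ 0)
    (g : G) {N : ℕ} (F : List (Fin N × (J × Bool)))
    (u : Fin N × (J × Bool) → Coprod G (FreeGroup (Fin n))) (hF : F.Nodup) (hF' : ∀ φ, φ ∈ F)
    (hg : (F.map fun φ => cj w (u φ, φ.2)).prod = Coprod.inl g) : g = 1 := by
  choose k γ l hk hw using fun j => exists_syl x0 (w j)
  choose kt γt lt _ hu using fun φ => exists_syl x0 (u φ)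
  choose c y0 h0 hy0 hc hc1 hc2 using fun j => exists_face (hk j) (γ j)
  let lb : (Sg k) → Ltr n := fun s => l s.1 s.2
  let lab : YT N k kt → Ltr n := Sum.elim (fun p => if p.2.2 then lb p.2.1 else linv (lb p.2.1))
    fun o => o.elim (x0, true) fun p => if p.2 then lt p.1.1 p.1.2 else linv (lt p.1.1 p.1.2)
  let pt : YT N k kt := Sum.inr none
  let e : ∀ φ : Fin N × (J × Bool), Option (Fin (k φ.2.1)) ↪ YT N k kt := fun φ =>
    ⟨fun o => o.elim pt fun i => Sum.inl (φ.1, ⟨φ.2.1, i⟩, φ.2.2), by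
      rintro (_ | i) (_ | i') h <;> simpa [pt] using h⟩
  let V : Fin N × (J × Bool) → List (G ⊕ YT N k kt) := fun φ =>
    sylW (γ φ.2.1) fun i => e φ (some i)
  let fw : Fin N × (J × Bool) → List (G ⊕ YT N k kt) := fun φ => if φ.2.2 then V φ else invW (V φ)
  let c' : ∀ j, Bool → Mon (Option (Fin (k j))) (Circle × G) := fun j s =>
    if s then c j else (c j)⁻¹
  let cf : Fin N × (J × Bool) → Mon (YT N k kt) (Circle × G) := fun φ => emb (e φ) (c' φ.2.1 φ.2.2)
  let ν : (Sg kt) → Bool → YT N k kt := fun t b => Sum.inr (some (t, b))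
  let ts : Fin N × (J × Bool) → List (Sg kt) := fun φ => (List.finRange (kt φ)).map fun i => ⟨φ, i⟩
  let W := F.flatMap fun φ => tailW (fun t : (Sg kt) => γt t.1 t.2) ν (ts φ) (fw φ)
  let TL := F.flatMap fun φ => (ts φ).flatMap fun t => [ν t true, ν t false]
  have hν : ∀ t, lab (ν t false) = linv (lab (ν t true)) := fun t => rfl
  have hstr : Str lab fw W TL F := Str.flatMap _ _ (fun φ => Str.tail _ ν hν φ _) F
  have hfw : ∀ φ, ((fw φ).map (ev lab)).prod = if φ.2.2 then w φ.2.1 else (w φ.2.1)⁻¹ := by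
    rintro ⟨f, j, _ | _⟩
    · simp only [fw, Bool.false_eq_true, if_false]
      rw [ev_invW (fun y => linv (lab y)) lab _ (by simp), ev_sylW, ← hw j]
      congr 2
      funext i
      exact linv_linv _
    · simp only [fw, if_true]
      rw [ev_sylW, ← hw j]
      rfl
  have hev : (W.map (ev lab)).prod = Coprod.inl g := by
    rw [← hg, prod_flatMap]
    congr 1
    refine List.map_congr_left fun φ _ => ?_
    rw [ev_tailW lab _ ν hν, hfw, cj, ← hu φ, syl]
    simp only [ts, List.map_map]
    rfl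
  have he : ∀ φ i, e φ (some i) = Sum.inl (φ.1, ⟨φ.2.1, i⟩, φ.2.2) := fun _ _ => rfl
  have hnfw : ∀ φ y, cnt y (nm (fw φ)) = ∑ i, if y = e φ (some i) then 1 else 0 := by
    intro φ y
    have : cnt y (nm (fw φ)) = cnt y (nm (V φ)) := by
      simp only [fw]
      split_ifs
      · rfl
      · rw [nm_invW, cnt_perm y (List.reverse_perm _)]
    rw [this, nm_sylW, Fin.sum_univ_def, cnt_map]
  have hsum : ∀ (f : Fin N × (J × Bool) → List (YT N k kt)) y,
      cnt y (F.flatMap f) = ∑ φ, cnt y (f φ) := by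
    intro f y
    rw [cnt_flatMap, ← List.sum_toFinset _ hF]
    congr 1
    ext φ
    simp [hF']
  have hTL : ∀ y, cnt y TL = ∑ t : Sg kt × Bool, if y = Sum.inr (some t) then 1 else 0 := by
    intro y
    rw [hsum, Fintype.sum_prod_type (α₁ := Sg kt), Fintype.sum_sigma]
    refine Finset.sum_congr rfl fun φ _ => ?_
    simp only [ts]
    rw [Fin.sum_univ_def, cnt_flatMap, List.map_map]
    congr 1
    refine List.map_congr_left fun i _ => ?_
    exact (cnt_map y [true, false] (ν ⟨φ, i⟩)).trans (by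
      rw [Fintype.sum_bool, List.map_cons, List.map_cons, List.map_nil, List.sum_cons, List.sum_cons,
        List.sum_nil, add_zero])
  have hcount : ∀ y, cnt y (nm W) = if y = pt then 0 else 1 := by
    intro y
    rw [cnt_perm y hstr.perm, cnt_append, hTL, hsum]
    simp only [hnfw, he]
    rcases y with ⟨f, ⟨j, i⟩, s⟩ | _ | t
    · rw [Finset.sum_eq_single (f, j, s), Finset.sum_eq_single i]
      · simp [pt]
      · intro i' _ hi
        simp [hi.symm]
      · simp
      · rintro ⟨f', j', s'⟩ _ hφ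
        refine Finset.sum_eq_zero fun i' _ => if_neg fun h => hφ ?_
        simp only [Sum.inl.injEq, Prod.mk.injEq, Sigma.mk.injEq] at h
        simp [h]
      · simp
    · simp [pt]
    · simp [pt]
  have hN : (nm W).Nodup := nodup_of_cnt fun y => by
    rw [hcount]; split_ifs <;> simp
  have hmem : ∀ y, y ∈ nm W ↔ y ≠ pt := fun y => by
    rw [cnt_pos, hcount]; split_ifs with h <;> simp [h]
  have hp : pt ∉ nm W := by simp [hmem]
  have hL : Fintype.card (YT N k kt) = (nm W).length + 1 := by
    rw [← List.toFinset_card_of_nodup hN, show (nm W).toFinset = Finset.univ.erase pt by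
      ext y; simp [hmem], Finset.card_erase_add_one (Finset.mem_univ _), Finset.card_univ]
  have hTmem : ∀ y, y ∈ TL ↔ ∃ o, o ≠ none ∧ y = Sum.inr o := fun y => by
    rw [cnt_pos, hTL]
    rcases y with p | _ | t <;> simp
  have hTlen : TL.length = Fintype.card ((Sg kt) × Bool) := by
    have h1 : TL.Nodup := nodup_of_cnt fun y => by
      rw [hTL]
      rcases y with p | _ | t <;> simp
    rw [← List.toFinset_card_of_nodup h1, ← Finset.card_univ, ← Finset.card_image_of_injective
      (f := fun t : (Sg kt) × Bool => (Sum.inr (some t) : YT N k kt)) _ (by intro a b h; simpa using h)]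
    congr 1
    ext y
    rcases y with p | _ | t <;> simp [hTmem]
  have hFlen : F.length = N * (Fintype.card J * 2) := by
    rw [← List.toFinset_card_of_nodup hF, show F.toFinset = Finset.univ by ext φ; simp [hF']]
    simp
  have hc' : ∀ j s, (c' j s).σ none = none ∧ (c' j s).a none = 1 := by
    rintro j (_ | _)
    · have : (c j).σ⁻¹ none = none := by rw [Equiv.Perm.inv_eq_iff_eq]; exact (hc1 j).symm
      simp [c', this, hc2]
    · simp [c', hc1, hc2]
  have hsup0 : ∀ φ, Supp (cf φ) {y | ∃ i, y = e φ (some i)} := by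
    intro φ y hy
    by_cases h : y ∈ Set.range (e φ)
    · obtain ⟨_ | i, rfl⟩ := h
      · exact ⟨(embF_σ _ _ _).trans (by rw [(hc' _ _).1]), (embF_a _ _ _).trans (hc' _ _).2⟩
      · exact absurd ⟨i, rfl⟩ hy
    · exact embF_supp _ _ y h
  have hsup : ∀ φ, Supp (cf φ) {j | j ∈ nm (fw φ)} := fun φ => (hsup0 φ).mono (by
    rintro _ ⟨i, rfl⟩
    rw [Set.mem_ofPred_eq, cnt_pos, hnfw]
    exact Finset.sum_pos' (fun _ _ => Nat.zero_le _) ⟨i, Finset.mem_univ _, by simp⟩)
  have hcf : ∀ φ, Rl 1 (CW pt (fw φ)) (cf φ) := by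
    have key : ∀ φ, Rl 1 (CW pt (V φ)) (emb (e φ) (c φ.2.1)) := by
      intro φ
      rw [hc, map_mul, CW_sylW_emb, emb_tr]
      exact Rl.tr ((e φ).injective.ne (hy0 _)) _ _
    rintro ⟨f, j, _ | _⟩
    · simp only [fw, cf, c', Bool.false_eq_true, if_false, CW_invW, map_inv]
      exact (key _).inv
    · exact key _
  obtain ⟨-, -, Rt, r1, r2, r3, r4, r5⟩ := comb2 pt cf hcf hsup hstr hN hp
  obtain ⟨d1, d2⟩ := prod_disjoint cf _ hsup0 (by
    rintro ⟨f, j, s⟩ ⟨f', j', s'⟩ hφ _ ⟨i, rfl⟩ ⟨i', h⟩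
    simp only [he, Sum.inl.injEq, Prod.mk.injEq, Sigma.mk.injEq] at h
    exact hφ (by simp [h])) F hF
  have hπ : ∀ j s i, ∃ i', (c' j s).σ (some i) = some i' := by
    intro j s i
    refine Option.ne_none_iff_exists'.1 fun h => ?_
    exact Option.some_ne_none i ((c' j s).σ.injective (h.trans (hc' j s).1.symm))
  choose π hπ using hπ
  refine eq_one_of_prd pt g _ hL fun z => ?_
  obtain ⟨P, p1, p2, p3, p4, p5⟩ := comb1 pt z (val_of_ev lab W g hev) hN hp
  have hcore := core (G := G) (fun s : (Sg k) => s.1) lb none lab (fun _ _ => rfl) (fun _ _ => rfl) P Rt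
    (F.map cf).prod p2 p3 (p1.mono fun y hy => (hmem y).1 hy) (fun y hy => p4 y ((hmem y).2 hy))
    r2 r3 (r1.mono fun y hy => (hTmem y).1 hy) (fun o ho => r4 _ ((hTmem _).2 ⟨o, ho, rfl⟩))
    (fun b => ⟨b.1.1, π b.1.1 b.2 b.1.2⟩) (fun b => (c' b.1.1 b.2).a (some b.1.2))
    (fun f b => ((d2 (f, b.1.1, b.2) (hF' _) _ ⟨b.1.2, rfl⟩).1.trans (embF_σ _ _ _)).trans (by
      rw [hπ]; rfl))
    (fun f b => (d2 (f, b.1.1, b.2) (hF' _) _ ⟨b.1.2, rfl⟩).2.trans (embF_a _ _ _))
    (d1.mono (by rintro _ ⟨φ, -, i, rfl⟩; exact ⟨_, rfl⟩)) (fun b => rfl)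
    (by
      rintro ⟨⟨j, i⟩, s⟩
      have h1 : c' j (!s) * c' j s = 1 := by cases s <;> simp [c']
      have h2 := congrArg (fun x => x.σ (some i)) h1
      have h3 := congrArg (fun x => x.a (some i)) h1
      simp only [Mon.mul_σ, Equiv.Perm.mul_apply, hπ, Mon.one_σ, Equiv.Perm.one_apply,
        Option.some.injEq, Mon.mul_a, Mon.one_a] at h2 h3
      exact ⟨by simp only [h2], h3⟩)
    col hcol (by
      convert ha using 3
      funext a j
      rw [← hw j, expo_syl, Fintype.sum_sigma, Finset.sum_eq_single j]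
      · simp [lb]
      · intro j' _ hj
        simp [hj]
      · simp)
  have r6 : Rl (F.length + TL.length / 2) (P * CW pt W) (P * Rt * (F.map cf).prod) := by
    have := r5.left (P * Rt)
    rwa [mul_assoc, ← mul_assoc Rt, r2, one_mul] at this
  have h7 := Prd.mul (p5.symm.trans r6) hcore
  rw [← toM_mul, inv_mul_cancel_right, Dl, toM_dg] at h7
  convert h7 using 1
  · have e1 : Fintype.card (YT N k kt) =
        Fintype.card (Fin N × ((Sg k) × Bool)) + (Fintype.card ((Sg kt) × Bool) + 1) := by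
      rw [Fintype.card_sum, Fintype.card_option]
    have e2 : ((nm W).length : ℝ) = Fintype.card (Fin N × ((Sg k) × Bool)) + Fintype.card ((Sg kt) × Bool) := by
      exact_mod_cast (by omega : (nm W).length =
        Fintype.card (Fin N × ((Sg k) × Bool)) + Fintype.card ((Sg kt) × Bool))
    rw [hL, hFlen, hTlen]
    push_cast
    rw [e2]
    ring
  · congr 1
    funext y
    by_cases h : y = pt
    · simp [h]
    · simp [h, (hmem y).2 h]

theorem howie {m : ℕ} (w : Fin m → Coprod G (FreeGroup (Fin n)))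
    (h : (Matrix.of fun i j => ((Multiplicative.toAdd (expo G n (w i)) j : ℤ) : ℚ)).rank = m)
    (g : G) (hg : Coprod.inl g ∈ Subgroup.normalClosure (Set.range w)) : g = 1 := by
  obtain ⟨L, hL⟩ := exists_cj w hg
  rcases L with _ | ⟨p, L⟩
  · exact Coprod.inl_injective (hL.symm.trans (map_one _).symm)
  obtain ⟨col, hcol, hdet⟩ := exists_cols _ h
  set L' := p :: L
  have hbal : ∀ j, (L'.map Prod.snd).count (j, true) = (L'.map Prod.snd).count (j, false) := by
    have h1 := sum_cj w (expo G n) L'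
    rw [hL, expo_inl] at h1
    have h2 := Matrix.eq_zero_of_vecMul_eq_zero hdet (v := fun j =>
      ((((L'.map Prod.snd).count (j, true) : ℤ) - (L'.map Prod.snd).count (j, false) : ℤ) : ℚ)) (by
        funext l
        have h3 := congrFun h1 (col l)
        simp only [toAdd_one, Pi.zero_apply, Finset.sum_apply, Pi.smul_apply, smul_eq_mul] at h3
        simp only [Matrix.vecMul, dotProduct, Matrix.submatrix_apply, Matrix.of_apply, id,
          Pi.zero_apply]
        exact_mod_cast h3.symm)
    intro j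
    have h3 := congrFun h2 j
    simp only [Pi.zero_apply, Int.cast_eq_zero, sub_eq_zero, Nat.cast_inj] at h3
    exact h3
  obtain ⟨N, F, u, h1, h2, h3⟩ := exists_faces w L' hbal
  refine main_faces w (col p.2.1) col hcol ?_ g F u h1 h2 (h3.trans hL)
  rw [← Matrix.det_transpose]
  have := (algebraMap ℚ ℂ).map_det
    ((Matrix.of fun i j => ((Multiplicative.toAdd (expo G n (w i)) j : ℤ) : ℚ)).submatrix id col)
  refine fun h0 => hdet ((algebraMap ℚ ℂ).injective ?_)
  rw [this, map_zero, ← h0]
  congr 1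

end Vale.Agent.P174
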