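import Vale.Agent.P174.Window

/-! Monomial matrices. -/

namespace Vale.Agent.P174

open Complex Finset

set_option linter.unusedSectionVars false
set_option linter.unusedSimpArgs false

/-- Monomial operators: a permutation with labels. -/
@[ext] structure Mon (Y H : Type*) where
  σ : Equiv.Perm Y
  a : Y → H

variable {Y H : Type*} [Group H]

instance : Mul (Mon Y H) := ⟨fun x y => ⟨x.σ * y.σ, fun j => x.a (y.σ j) * y.a j⟩⟩
instance : One (Mon Y H) := ⟨⟨1, fun _ => 1⟩⟩
instance : Inv (Mon Y H) := ⟨fun x => ⟨x.σ⁻¹, fun j => (x.a (x.σ⁻¹ j))⁻¹⟩⟩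

@[simp] lemma Mon.mul_σ (x y : Mon Y H) : (x * y).σ = x.σ * y.σ := rfl
@[simp] lemma Mon.mul_a (x y : Mon Y H) (j : Y) : (x * y).a j = x.a (y.σ j) * y.a j := rfl
@[simp] lemma Mon.one_σ : (1 : Mon Y H).σ = 1 := rfl
@[simp] lemma Mon.one_a (j : Y) : (1 : Mon Y H).a j = 1 := rfl
@[simp] lemma Mon.inv_σ (x : Mon Y H) : x⁻¹.σ = x.σ⁻¹ := rfl
@[simp] lemma Mon.inv_a (x : Mon Y H) (j : Y) : x⁻¹.a j = (x.a (x.σ⁻¹ j))⁻¹ := rfl

instance : Group (Mon Y H) where
  mul_assoc x y z := by ext <;> simp [mul_assoc]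
  one_mul x := by ext <;> simp
  mul_one x := by ext <;> simp
  inv_mul_cancel x := by ext <;> simp

lemma Mon.ext' {x y : Mon Y H} (h : ∀ j, x.σ j = y.σ j ∧ x.a j = y.a j) : x = y :=
  Mon.ext (Equiv.ext fun j => (h j).1) (funext fun j => (h j).2)

/-- `x` acts trivially outside the set `S`. -/
def Supp (x : Mon Y H) (S : Set Y) : Prop := ∀ j, j ∉ S → x.σ j = j ∧ x.a j = 1

lemma Supp.mem {x : Mon Y H} {S : Set Y} (h : Supp x S) {j : Y} (hj : j ∈ S) : x.σ j ∈ S := by
  by_contra h1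
  have := x.σ.injective (h _ h1).1
  rw [this] at h1
  exact h1 hj

lemma Supp.mono {x : Mon Y H} {S T : Set Y} (h : Supp x S) (hST : S ⊆ T) : Supp x T :=
  fun j hj => h j fun h1 => hj (hST h1)

lemma Supp.one (S : Set Y) : Supp (1 : Mon Y H) S := fun _ _ => ⟨rfl, rfl⟩

lemma Supp.mul {x y : Mon Y H} {S : Set Y} (h : Supp x S) (h' : Supp y S) : Supp (x * y) S := by
  intro j hj
  simp [h' j hj, h j hj]

lemma Supp.inv {x : Mon Y H} {S : Set Y} (h : Supp x S) : Supp x⁻¹ S := by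
  intro j hj
  have : x.σ⁻¹ j = j := by rw [Equiv.Perm.inv_eq_iff_eq]; exact (h j hj).1.symm
  simp [this, h j hj]

lemma Supp.comm {x y : Mon Y H} {S T : Set Y} (h : Supp x S) (h' : Supp y T)
    (hd : ∀ j, j ∈ S → j ∉ T) : x * y = y * x := by
  refine Mon.ext' fun j => ?_
  by_cases hS : j ∈ S
  · have h1 := h' j (hd j hS)
    have h2 := h' _ (hd _ (h.mem hS))
    simp [h1, h2]
  · by_cases hT : j ∈ T
    · have h1 := h j hS
      have h2 := h (y.σ j) fun h3 => hd _ h3 (h'.mem hT)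
      simp [h1, h2]
    · simp [h j hS, h' j hT]

variable [DecidableEq Y]

/-- Diagonal monomial. -/
def dg (a : Y → H) : Mon Y H := ⟨1, a⟩
/-- Labelled transposition. -/
def tr (y y' : Y) (h : H) : Mon Y H :=
  ⟨Equiv.swap y y', fun j => if j = y then h else if j = y' then h⁻¹ else 1⟩
/-- Label at one point. -/
def dpt (y : Y) (h : H) : Mon Y H := dg fun j => if j = y then h else 1

@[simp] lemma dg_σ (a : Y → H) : (dg a).σ = 1 := rfl
@[simp] lemma dg_a (a : Y → H) : (dg a).a = a := rfl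
@[simp] lemma tr_σ (y y' : Y) (h : H) : (tr y y' h).σ = Equiv.swap y y' := rfl
lemma tr_a (y y' : Y) (h : H) (j : Y) :
    (tr y y' h).a j = if j = y then h else if j = y' then h⁻¹ else 1 := rfl
@[simp] lemma dpt_σ (y : Y) (h : H) : (dpt y h).σ = 1 := rfl
lemma dpt_a (y : Y) (h : H) (j : Y) : (dpt y h).a j = if j = y then h else 1 := rfl

lemma tr_supp (y y' : Y) (h : H) : Supp (tr y y' h) {y, y'} := by
  intro j hj
  simp only [Set.mem_insert_iff, Set.mem_singleton_iff, not_or] at hj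
  simp [tr_a, hj, Equiv.swap_apply_of_ne_of_ne hj.1 hj.2]

lemma dpt_supp (y : Y) (h : H) : Supp (dpt y h) {y} := by
  intro j hj
  simp only [Set.mem_singleton_iff] at hj
  simp [dpt_a, hj]

lemma tr_mul_self {y y' : Y} (hy : y ≠ y') (h : H) : tr y y' h * tr y y' h = 1 := by
  refine Mon.ext' fun j => ?_
  by_cases h1 : j = y
  · subst h1; simp [tr_a, hy.symm]
  · by_cases h2 : j = y'
    · subst h2; simp [tr_a, h1]
    · simp [tr_a, h1, h2, Equiv.swap_apply_of_ne_of_ne h1 h2]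

lemma dpt_mul (y : Y) (h h' : H) : dpt y h * dpt y h' = dpt y (h * h') := by
  refine Mon.ext' fun j => ?_
  by_cases h1 : j = y <;> simp [dpt_a, h1]

lemma dpt_one (y : Y) : dpt y (1 : H) = 1 := by
  refine Mon.ext' fun j => ?_
  simp [dpt_a]

lemma dpt_inv (y : Y) (h : H) : (dpt y h)⁻¹ = dpt y h⁻¹ := by
  rw [inv_eq_iff_mul_eq_one, dpt_mul, mul_inv_cancel, dpt_one]

/-- The three point computation. -/
lemma core_three {pt y y' : Y} (h1 : pt ≠ y) (h2 : pt ≠ y') (h3 : y ≠ y') (ρ ζ κ : H) :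
    tr y y' ζ * tr pt y 1 * dpt pt ρ * tr pt y' 1 * tr pt y κ =
      dg fun j => if j = pt then κ else if j = y then ζ⁻¹ * κ⁻¹ else if j = y' then ζ * ρ else 1 := by
  refine Mon.ext' fun j => ?_
  by_cases e1 : j = pt
  · subst e1
    simp [tr_a, dpt_a, h1, h2, h3, h1.symm, h2.symm, h3.symm, Equiv.swap_apply_of_ne_of_ne]
  · by_cases e2 : j = y
    · subst e2
      simp [tr_a, dpt_a, h1, h2, h3, h1.symm, h2.symm, h3.symm, Equiv.swap_apply_of_ne_of_ne]
    · by_cases e3 : j = y'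
      · subst e3
        simp [tr_a, dpt_a, h1, h2, h3, h1.symm, h2.symm, h3.symm, Equiv.swap_apply_of_ne_of_ne]
      · simp [tr_a, dpt_a, e1, e2, e3, Equiv.swap_apply_of_ne_of_ne]

section mat
variable {G : Type*} [Group G] [Fintype Y]

/-- The matrix of a monomial. -/
noncomputable def toM (x : Mon Y (Circle × G)) : Matrix Y Y (GA G) :=
  Matrix.of fun i j => if i = x.σ j then lam (x.a j) else 0

lemma toM_apply (x : Mon Y (Circle × G)) (i j : Y) :
    toM x i j = if i = x.σ j then lam (x.a j) else 0 := rfl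

lemma toM_one : toM (1 : Mon Y (Circle × G)) = 1 := by
  ext i j
  simp [toM_apply, Matrix.one_apply]

lemma toM_mul (x y : Mon Y (Circle × G)) : toM (x * y) = toM x * toM y := by
  ext i j
  simp only [Matrix.mul_apply, toM_apply, mul_ite, mul_zero, Finset.sum_ite_eq', Finset.mem_univ,
    if_true, Mon.mul_σ, Mon.mul_a, map_mul, Equiv.Perm.mul_apply]
  split_ifs <;> simp

lemma star_toM (x : Mon Y (Circle × G)) : star (toM x) = toM x⁻¹ := by
  ext i j
  simp only [Matrix.star_apply, toM_apply, Mon.inv_σ, Mon.inv_a]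
  by_cases h : j = x.σ i
  · subst h; simp [star_lam]
  · rw [if_neg h, if_neg, star_zero]
    rintro rfl
    simp at h

lemma toM_unitary (x : Mon Y (Circle × G)) : toM x ∈ unitary (Matrix Y Y (GA G)) := by
  constructor
  · rw [star_toM, ← toM_mul, inv_mul_cancel, toM_one]
  · rw [star_toM, ← toM_mul, mul_inv_cancel, toM_one]

lemma toM_dg (a : Y → Circle × G) : toM (dg a) = Matrix.diagonal fun y => lam (a y) := by
  ext i j
  simp only [toM_apply, dg_σ, dg_a, Matrix.diagonal_apply, Equiv.Perm.one_apply]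
  by_cases h : i = j
  · simp [h]
  · simp [h]

lemma cost_tr {y y' : Y} (hy : y ≠ y') (h : Circle × G) :
    cost ((trG G).mat Y) (toM (tr y y' h)) = 1 := by
  rw [cost, ← Complex.sub_re, ← map_sub, PTr.mat_τ]
  have : ∀ j, (trG G).τ ((1 - toM (tr y y' h)) j j) =
      (if j = y then 1 else 0) + (if j = y' then 1 else 0) := by
    intro j
    rw [Matrix.sub_apply, Matrix.one_apply_eq, toM_apply, map_sub, tau_one]
    by_cases h1 : j = y
    · subst h1; simp [hy]
    · by_cases h2 : j = y'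
      · subst h2; simp [h1]
      · simp [h1, h2, Equiv.swap_apply_of_ne_of_ne h1 h2, tr_a, tau_one]
  simp only [this, Finset.sum_add_distrib, Finset.sum_ite_eq', Finset.mem_univ, if_true]
  norm_num

/-- `x` and `y` differ by reflections of total cost at most `c`. -/
def Rl (c : ℝ) (x y : Mon Y (Circle × G)) : Prop := Prd ((trG G).mat Y) c (toM (x * y⁻¹))

lemma Rl.refl (x : Mon Y (Circle × G)) : Rl 0 x x := by
  rw [Rl, mul_inv_cancel, toM_one]; exact Prd.one _

lemma Rl.of_eq {x y : Mon Y (Circle × G)} (h : x = y) : Rl 0 x y := h ▸ Rl.refl x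

lemma Rl.mono {c c' : ℝ} {x y : Mon Y (Circle × G)} (h : Rl c x y) (hc : c ≤ c') : Rl c' x y :=
  Prd.mono h hc

lemma Rl.trans {c c' : ℝ} {x y z : Mon Y (Circle × G)} (h : Rl c x y) (h' : Rl c' y z) :
    Rl (c + c') x z := by
  have := Prd.mul h h'
  rw [← toM_mul] at this
  rw [Rl]
  convert this using 2
  group

lemma Rl.symm {c : ℝ} {x y : Mon Y (Circle × G)} (h : Rl c x y) : Rl c y x := by
  have := Prd.star h
  rw [star_toM] at this
  rw [Rl]
  convert this using 2
  group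

lemma Rl.both {c : ℝ} {x y : Mon Y (Circle × G)} (h : Rl c x y) (z w : Mon Y (Circle × G)) :
    Rl c (z * x * w) (z * y * w) := by
  have := Prd.conj h (toM_unitary z)
  rw [star_toM, ← toM_mul, ← toM_mul] at this
  rw [Rl]
  convert this using 2
  group

lemma Rl.left {c : ℝ} {x y : Mon Y (Circle × G)} (h : Rl c x y) (z : Mon Y (Circle × G)) :
    Rl c (z * x) (z * y) := by simpa using h.both z 1

lemma Rl.right {c : ℝ} {x y : Mon Y (Circle × G)} (h : Rl c x y) (w : Mon Y (Circle × G)) :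
    Rl c (x * w) (y * w) := by simpa using h.both 1 w

lemma Rl.mul {c c' : ℝ} {x y x' y' : Mon Y (Circle × G)} (h : Rl c x y) (h' : Rl c' x' y') :
    Rl (c + c') (x * x') (y * y') := (h.right x').trans (h'.left y)

lemma Rl.inv {c : ℝ} {x y : Mon Y (Circle × G)} (h : Rl c x y) : Rl c x⁻¹ y⁻¹ := by
  have := (h.both x⁻¹ y⁻¹).symm
  simpa [mul_assoc] using this

lemma Rl.tr {y y' : Y} (hy : y ≠ y') (h : Circle × G) (x : Mon Y (Circle × G)) :
    Rl 1 x (x * tr y y' h) := by
  have h1 : Rl 1 (Vale.Agent.P174.tr y y' h) 1 := by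
    rw [Rl, inv_one, mul_one, ← cost_tr hy h]
    refine Prd.single _ ?_ ?_
    · rw [← toM_mul, tr_mul_self hy, toM_one]
    · rw [star_toM, inv_eq_of_mul_eq_one_right (tr_mul_self hy h)]
  simpa using (h1.left x).symm

end mat

end Vale.Agent.P174
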