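import Vale.Agent.P174.Vand

/-! Nonvanishing of the product of the primitive forms. -/

namespace Vale.Agent.P174

open Finset

set_option linter.unusedSectionVars false
set_option linter.unusedSimpArgs false

section general
variable {Λ : Type*} [Ring Λ] [Algebra ℂ Λ]

lemma top_replace {P : Λ →ₐ[ℂ] Λ} {d : Λ →ₗ[ℂ] Λ} (top : Λ →ₗ[ℂ] ℂ) (h : Lb P d)
    (hp : ∀ a, P (d a) = - d (P a)) (hP : ∀ a, P (P a) = a) (ht : ∀ a, top (d a) = 0)
    {κ : Type*} (W W' γ : κ → Λ) (h1 : ∀ i, d (W i) = 0) (h2 : ∀ i, d (W' i) = 0)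
    (h3 : ∀ i, W i = W' i + d (γ i)) (L : List κ) :
    ∀ u, d u = 0 → top (u * (L.map W).prod) = top (u * (L.map W').prod) := by
  induction L with
  | nil => simp
  | cons x L ih =>
    intro u hu
    have hv : d (L.map W).prod = 0 := h.prod_closed _ (by
      intro a ha
      obtain ⟨i, -, rfl⟩ := List.mem_map.1 ha
      exact h1 i)
    have hu' : d (P u) = 0 := by
      have := hp u
      rw [hu, map_zero] at this
      exact neg_eq_zero.1 this.symm
    have e := ht (P u * (γ x * (L.map W).prod))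
    rw [h, h, hu', hv, hP, zero_mul, zero_add, mul_zero, add_zero] at e
    rw [List.map_cons, List.prod_cons, List.map_cons, List.prod_cons, h3, add_mul, mul_add, map_add,
      e, add_zero, ← mul_assoc, ← mul_assoc]
    exact ih _ (by rw [h, hu, h2]; simp)

lemma top_drop {N : Λ →ₗ[ℂ] Λ} (top : Λ →ₗ[ℂ] ℂ) (hN : Lb (AlgHom.id ℂ Λ) N) (q : ℕ)
    (ht : ∀ a, top (N a) = q * top a) {κ : Type*} (Z β : κ → Λ) (hZ : ∀ i, N (Z i) = Z i)
    (hβ : ∀ i, N (β i) = 0) (L : List κ) :
    ∀ (γ : Λ) (p : ℕ), N γ = (p : ℂ) • γ → p + L.length ≤ q →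
      top (γ * (L.map fun i => Z i + β i).prod) =
        if p + L.length = q then top (γ * (L.map Z).prod) else 0 := by
  induction L with
  | nil =>
    intro γ p h1 h2
    simp only [List.map_nil, List.prod_nil, List.length_nil, add_zero, mul_one] at h2 ⊢
    split_ifs with h3
    · rfl
    · have := ht γ
      rw [h1, map_smul, smul_eq_mul] at this
      have h4 : (p : ℂ) - q ≠ 0 := by
        rw [sub_ne_zero]; exact_mod_cast h3
      exact (mul_eq_zero.1 (by linear_combination this : ((p : ℂ) - q) * top γ = 0)).resolve_left h4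
  | cons x L ih =>
    intro γ p h1 h2
    simp only [List.length_cons] at h2
    rw [List.map_cons, List.prod_cons, List.map_cons, List.prod_cons, add_mul, mul_add, map_add,
      ← mul_assoc, ← mul_assoc, ← mul_assoc, ih (γ * Z x) (p + 1) ?_ (by omega),
      ih (γ * β x) p ?_ (by omega), if_neg (show ¬ p + L.length = q by omega), add_zero,
      List.length_cons]
    · congr 1
      simp only [eq_iff_iff]
      omega
    · rw [hN, h1, hβ]; simp
    · rw [hN, h1, hZ]; simp [add_smul]

end general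

section mono
variable {ι : Type} [Fintype ι] [DecidableEq ι] {Λ : Type} [Ring Λ] [Algebra ℂ Λ] (g : Gr ι Λ)

/-- `a` is a product of the generators in `s`. -/
def Mono (s : Multiset ι) (a : Λ) : Prop := ∃ l : List ι, (l : Multiset ι) = s ∧ a = (l.map g.c).prod

lemma Mono.mul {s t : Multiset ι} {a b : Λ} (h : Mono g s a) (h' : Mono g t b) :
    Mono g (s + t) (a * b) := by
  obtain ⟨l, rfl, rfl⟩ := h
  obtain ⟨l', rfl, rfl⟩ := h'
  exact ⟨l ++ l', by simp, by simp⟩

lemma Mono.single (x : ι) : Mono g {x} (g.c x) := ⟨[x], rfl, by simp⟩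

lemma Mono.prod {κ : Type*} (S : Finset κ) (s : κ → Multiset ι) (f : κ → Subring.center Λ)
    (h : ∀ i ∈ S, Mono g (s i) (f i)) : Mono g (∑ i ∈ S, s i) ((∏ i ∈ S, f i : Subring.center Λ) : Λ) := by
  classical
  induction S using Finset.induction_on with
  | empty => exact ⟨[], by simp, by simp⟩
  | insert a S ha ih =>
    rw [Finset.sum_insert ha, Finset.prod_insert ha, Subring.coe_mul]
    exact (h a (by simp)).mul g (ih fun i hi => h i (by simp [hi]))

lemma Mono.top_ne {s : Multiset ι} {a : Λ} (h : Mono g s a) (hs : ∀ x, s.count x = 1) :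
    g.top a ≠ 0 := by
  obtain ⟨l, rfl, rfl⟩ := h
  refine g.top_prod l ?_ fun x => ?_
  · rw [← Multiset.coe_nodup, Multiset.nodup_iff_count_le_one]
    exact fun x => (hs x).le
  · rw [← Multiset.mem_coe, ← Multiset.one_le_count_iff_mem]
    exact (hs x).ge

lemma Gr.anti (x y : ι) : g.c x * g.c y = -(g.c y * g.c x) := by
  rw [g.odd_mul (g.Pc x), g.Pc, neg_mul]

end mono

section gl
variable {J : Type} [Fintype J] [DecidableEq J] {N : ℕ}
variable {Λ : Type} [Ring Λ] [Algebra ℂ Λ] (g : Gr (Option (J × Fin N × Fin N)) Λ)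

lemma del_om (j : J) (k : ℕ) : del g (om g j k) = 0 :=
  g.closed_odd (del_lb g) (P_xi g j) (del_xi g j) k

noncomputable def ww (j : J) (a b : Fin N) : Subring.center Λ :=
  ⟨g.c (some (j, b, a)) * g.c (some (j, a, b)), by
    rw [Subring.mem_center_iff]
    intro y
    exact (g.even_mul (by rw [map_mul, g.Pc, g.Pc]; simp) y).symm⟩

lemma ww_anti (j : J) (a b : Fin N) : ww g j a b = - ww g j b a := Subtype.ext (g.anti _ _)

lemma ww_self (j : J) (a : Fin N) : ww g j a a = 0 := Subtype.ext (g.odd_sq (g.Pc _))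

lemma ww_sq (j : J) (a b : Fin N) : ww g j a b * ww g j a b = 0 := by
  nth_rewrite 2 [ww_anti]
  apply Subtype.ext
  simp only [ww, Subring.coe_mul, Subring.coe_neg, mul_neg, Subring.coe_zero, neg_eq_zero]
  rw [mul_assoc, ← mul_assoc (g.c (some (j, a, b))), g.odd_sq (g.Pc _)]
  simp

lemma neg_kap (j : J) (a : Fin N) : -kap g j a = ((∑ b, ww g j a b : Subring.center Λ) : Λ) := by
  simp only [kap, Matrix.mul_apply, xi_apply, AddSubmonoidClass.coe_finsetSum, ww,
    ← Finset.sum_neg_distrib]
  exact Finset.sum_congr rfl fun b _ => (g.anti _ _).symm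

lemma I_kap (j : J) (a : Fin N) (j' : J) (c : Fin N) : g.I (some (j', c, c)) (-kap g j a) = 0 := by
  simp only [kap, Matrix.mul_apply, xi_apply, map_neg, map_sum, neg_eq_zero]
  refine Finset.sum_eq_zero fun b _ => ?_
  by_cases h : a = b
  · rw [h, g.odd_sq (g.Pc _), map_zero]
  · rw [g.Imul, g.Ic, g.Ic, if_neg, if_neg]
    · simp
    · simp only [Option.some.injEq, Prod.mk.injEq]
      rintro ⟨-, rfl, rfl⟩
      exact h rfl
    · simp only [Option.some.injEq, Prod.mk.injEq]
      rintro ⟨-, rfl, rfl⟩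
      exact h rfl

theorem nonvanish (a : Matrix J J ℂ) (ha : a.det ≠ 0) {q : ℕ} (e : Fin q ≃ J × Fin N) :
    g.top (g.c none * (List.ofFn fun i => ∑ j, a (e i).1 j • om g j (e i).2).prod) ≠ 0 := by
  choose β γ hβ hγ using transgression g
  set B : ℕ → ℂ := fun k => intg ((MvPolynomial.X 0 * MvPolynomial.X 0 - MvPolynomial.X 0) ^ k)
    with hB
  have hB0 : ∀ k, B k ≠ 0 := intg_ne
  set cst : ℕ → ℂ := fun k => (B k)⁻¹ * (1 / ((k : ℂ) + 1)) with hcst
  have hcst0 : ∀ k, cst k ≠ 0 := fun k =>
    mul_ne_zero (inv_ne_zero (hB0 k)) (one_div_ne_zero (Nat.cast_add_one_ne_zero k))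
  set Z0 : J → ℕ → Λ := fun j k => ∑ c, zz g j c * (-kap g j c) ^ k with hZ0
  have hom : ∀ j k, om g j k = cst k • Z0 j k + (B k)⁻¹ • β j k + del g ((B k)⁻¹ • γ j k) := by
    intro j k
    rw [map_smul, hcst, mul_smul, ← smul_add, ← smul_add, ← hγ j k, smul_smul,
      inv_mul_cancel₀ (hB0 k), one_smul]
  set Z : Fin q → Λ := fun i => ∑ j, a (e i).1 j • cst (e i).2 • Z0 j (e i).2 with hZ
  set b : Fin q → Λ := fun i => ∑ j, a (e i).1 j • (B (e i).2)⁻¹ • β j (e i).2 with hb
  set W : Fin q → Λ := fun i => ∑ j, a (e i).1 j • om g j (e i).2 with hW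
  set c : Fin q → Λ := fun i => ∑ j, a (e i).1 j • (B (e i).2)⁻¹ • γ j (e i).2 with hc
  have h3 : ∀ i, W i = (Z i + b i) + del g (c i) := by
    intro i
    simp only [hW, hZ, hb, hc, hom, map_sum, smul_add, Finset.sum_add_distrib, map_smul]
  have h1 : ∀ i, del g (W i) = 0 := by
    intro i
    simp [hW, del_om]
  have h2 : ∀ i, del g (Z i + b i) = 0 := by
    intro i
    have := h1 i
    rwa [h3, map_add, del_del, add_zero] at this
  rw [List.ofFn_eq_map, top_replace g.top (del_lb g) (del_par g) g.PP (top_del g) W _ c h1 h2 h3 _ _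
    (del_none g)]
  let NN : Λ →ₗ[ℂ] Λ := ∑ p : J × Fin N, LinearMap.mulLeft ℂ (zz g p.1 p.2) ∘ₗ g.I (some (p.1, p.2, p.2))
  have NN_apply : ∀ x, NN x = ∑ p : J × Fin N, zz g p.1 p.2 * g.I (some (p.1, p.2, p.2)) x := by
    intro x; simp [NN, LinearMap.sum_apply]
  have hN : Lb (AlgHom.id ℂ Λ) NN := Lb.sum _ fun p => (g.Imul _).mulLeft_odd' g.toSAlg (g.Pc _)
  have hq : Fintype.card (J × Fin N) = q := by rw [← Fintype.card_congr e, Fintype.card_fin]
  have ht : ∀ x, g.top (NN x) = q * g.top x := by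
    intro x
    simp only [NN_apply, map_sum, zz, g.top_cI, Finset.sum_const, Finset.card_univ, hq, nsmul_eq_mul]
  have hNz : ∀ j c, NN (zz g j c) = zz g j c := by
    intro j c
    rw [NN_apply, Finset.sum_eq_single (j, c)]
    · simp [zz, g.Ic]
    · intro p _ hp
      rw [zz, zz, g.Ic, if_neg, mul_zero]
      simp only [Option.some.injEq, Prod.mk.injEq]
      rintro ⟨rfl, rfl, -⟩
      exact hp rfl
    · simp
  have hNk : ∀ j c, NN (-kap g j c) = 0 := by
    intro j c
    simp only [NN_apply, I_kap, mul_zero, Finset.sum_const_zero]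
  have hNZ : ∀ i, NN (Z i) = Z i := by
    intro i
    simp only [hZ, hZ0, map_sum, map_smul, hN _ _, hNz, hN.pow_closed (hNk _ _), mul_zero, add_zero]
  have hNb : ∀ i, NN (b i) = 0 := by
    intro i
    simp only [hb, map_sum, map_smul, NN_apply, hβ, mul_zero, Finset.sum_const_zero, smul_zero]
  rw [top_drop g.top hN q ht Z b hNZ hNb _ _ 0 (by simp [NN_apply, g.Ic]) (by simp),
    if_pos (by simp), ← List.ofFn_eq_map]
  let al : ℂ →+* Subring.center Λ := (algebraMap ℂ Λ).codRestrict _ fun z => by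
    rw [Subring.mem_center_iff]; exact fun y => (Algebra.commutes z y).symm
  let A' : Matrix (J × Fin N) (J × Fin N) ℂ := Matrix.blockDiagonal fun r => cst r • a
  let V' : Matrix (Fin N × J) (Fin N × J) (Subring.center Λ) :=
    Matrix.blockDiagonal fun j => Matrix.of fun r c => (∑ b, ww g j c b) ^ (r : ℕ)
  let M := (al.mapMatrix A' * V'.submatrix Prod.swap Prod.swap).submatrix e e
  have hM : Z = fun i => ∑ k, M i k • zz g (e k).1 (e k).2 := by
    funext i
    simp only [M, Matrix.submatrix_apply]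
    rw [Equiv.sum_comp e (fun k => (al.mapMatrix A' * V'.submatrix Prod.swap Prod.swap) (e i) k •
      zz g k.1 k.2), Fintype.sum_prod_type]
    refine Finset.sum_congr rfl fun j _ => ?_
    simp only [hZ0, Finset.smul_sum]
    refine Finset.sum_congr rfl fun c _ => ?_
    have : (al.mapMatrix A' * V'.submatrix Prod.swap Prod.swap) (e i) (j, c) =
        al (cst (e i).2 * a (e i).1 j) * (∑ b, ww g j c b) ^ ((e i).2 : ℕ) := by
      rw [Matrix.mul_apply, Finset.sum_eq_single (j, (e i).2)]
      · simp [A', V', Matrix.blockDiagonal_apply]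
      · rintro ⟨j', r'⟩ _ hp
        by_cases h : j' = j
        · subst h
          have : (e i).2 ≠ r' := fun h => hp (by rw [h])
          simp [A', V', Matrix.blockDiagonal_apply, this]
        · simp [A', V', Matrix.blockDiagonal_apply, h]
      · simp
    rw [this, neg_kap, smul_smul, mul_comm (a _ _), Algebra.smul_def, Algebra.smul_def,
      ← SubmonoidClass.coe_pow, Subring.mem_center_iff.1 (Subtype.property _) (zz g j c), ← mul_assoc]
    rfl
  rw [hM, prod_eq_det_smul _ ?_ M]
  · have hdet : M.det = al (A'.det * ∏ j : J,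
        ((N.factorial * ∏ r : Fin N, (r : ℕ).factorial : ℕ) : ℂ)) *
        ∏ j : J, ∏ c, ∏ b ∈ Iio c, ww g j c b := by
      simp only [M]
      rw [Matrix.det_submatrix_equiv_self, Matrix.det_mul, ← RingHom.map_det,
        show V'.submatrix Prod.swap Prod.swap = V'.submatrix (Equiv.prodComm _ _) (Equiv.prodComm _ _)
          from rfl, Matrix.det_submatrix_equiv_self, Matrix.det_blockDiagonal (o := J)]
      simp only [vander N _ (ww_anti g _) (ww_sq g _) (ww_self g _), Finset.prod_mul_distrib,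
        map_mul, map_prod, map_natCast, mul_assoc]
    have hne : A'.det * ∏ j : J, ((N.factorial * ∏ r : Fin N, (r : ℕ).factorial : ℕ) : ℂ) ≠ 0 := by
      refine mul_ne_zero ?_ (Finset.prod_ne_zero_iff.2 fun j _ => Nat.cast_ne_zero.2 ?_)
      · rw [Matrix.det_blockDiagonal]
        refine Finset.prod_ne_zero_iff.2 fun r _ => ?_
        rw [Matrix.det_smul]
        exact mul_ne_zero (pow_ne_zero _ (hcst0 _)) ha
      · positivity
    rw [hdet, mul_smul, Algebra.smul_def]
    change g.top (_ * (algebraMap ℂ Λ _ * _)) ≠ 0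
    rw [← Algebra.smul_def, mul_smul_comm, map_smul, smul_eq_mul]
    refine mul_ne_zero hne ?_
    rw [Algebra.smul_def]
    have m1 := Mono.prod g univ (fun j => ∑ c : Fin N, ∑ b ∈ Iio c,
        (({some (j, b, c)} : Multiset (Option (J × Fin N × Fin N))) + {some (j, c, b)}))
      (fun j => ∏ c, ∏ b ∈ Iio c, ww g j c b) fun j _ => Mono.prod g _ _ _ fun c _ =>
        Mono.prod g _ _ _ fun b _ => (Mono.single g _).mul g (Mono.single g _)
    have m2 : Mono g (∑ p : J × Fin N, {some (p.1, p.2, p.2)})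
        (List.ofFn fun k => zz g (e k).1 (e k).2).prod := by
      refine ⟨List.ofFn fun k => some ((e k).1, (e k).2, (e k).2), ?_, ?_⟩
      · rw [← Equiv.sum_comp e, ← Fin.univ_val_map, Finset.sum, ← Multiset.sum_map_singleton
          (Multiset.map _ _), Multiset.map_map]
        rfl
      · rw [List.map_ofFn]; rfl
    refine ((Mono.single g none).mul g (m1.mul g m2)).top_ne g fun x => ?_
    simp only [Multiset.count_add, Multiset.count_sum', Multiset.count_singleton,
      Fintype.sum_prod_type]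
    cases x with
    | none => simp
    | some x =>
      obtain ⟨j, c, d⟩ := x
      simp only [Option.some.injEq, Prod.mk.injEq, Finset.sum_add_distrib, ite_and, reduceCtorEq,
        if_false, zero_add, Finset.sum_ite_irrel, Finset.sum_const_zero, Finset.sum_ite_eq,
        Finset.mem_univ, if_true, Finset.mem_Iio]
      rw [Finset.sum_eq_single d (fun x _ hx => by simp [Ne.symm hx]) (by simp)]
      rcases lt_trichotomy c d with h | h | h
      · simp [h, h.ne', h.not_gt]
      · simp [h]
      · simp [h, h.ne, h.not_gt]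
  · intro v
    apply eq_zero_of_eq_neg
    simp only [Finset.sum_mul, Finset.mul_sum, smul_mul_smul_comm]
    nth_rewrite 1 [Finset.sum_comm]
    simp only [← Finset.sum_neg_distrib]
    refine Finset.sum_congr rfl fun i _ => Finset.sum_congr rfl fun k _ => ?_
    rw [zz, zz, g.anti, smul_neg, mul_comm]

end gl

end Vale.Agent.P174
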