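import Vale.Agent.P174.Top
import Vale.Agent.P174.Face

/-! The cost of a product of two involutions with a large common fixed space. -/

namespace Vale.Agent.P174

open scoped Matrix
open Complex

set_option linter.unusedSectionVars false
set_option linter.unusedSimpArgs false

variable {G : Type*} [Group G] {Y : Type*} [Fintype Y] [DecidableEq Y]

/-- Scalar matrices inside matrices over the group algebra. -/
noncomputable def mp (G : Type*) [Group G] : Matrix Y Y ℂ →ₐ[ℂ] Matrix Y Y (GA G) :=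
  (Algebra.ofId ℂ (GA G)).mapMatrix

lemma mp_apply (M : Matrix Y Y ℂ) (i j : Y) : mp G M i j = algebraMap ℂ (GA G) (M i j) := rfl

lemma star_mp (M : Matrix Y Y ℂ) : star (mp G M) = mp G (star M) := by
  ext i j
  simp only [Matrix.star_apply, mp_apply, algebraMap_star_comm]

lemma tau_alg (z : ℂ) : (trG G).τ (algebraMap ℂ (GA G) z) = z := by
  rw [Algebra.algebraMap_eq_smul_one, map_smul, tau_one, smul_eq_mul, mul_one]

lemma tau_mp (M : Matrix Y Y ℂ) : ((trG G).mat Y).τ (mp G M) = M.trace := by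
  simp [PTr.mat_τ, mp_apply, tau_alg, Matrix.trace]

lemma tau_mat_one : ((trG G).mat Y).τ 1 = Fintype.card Y := by
  rw [← map_one (mp G), tau_mp, Matrix.trace_one]

lemma prd_mp {t : Matrix Y Y ℂ} (h1 : t * t = 1) (h2 : star t = t) :
    Prd ((trG G).mat Y) ((Fintype.card Y - t.trace.re) / 2) (mp G t) := by
  have := Prd.single ((trG G).mat Y) (r := mp G t) (by rw [← map_mul, h1, map_one])
    (by rw [star_mp, h2])
  rwa [cost, tau_mp, tau_mat_one, natCast_re] at this

lemma pcost_aux {K : Type*} [Fintype K] [DecidableEq K] {V V' : Matrix Y K ℂ}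
    (hV : Vᴴ * V = 1) (hV' : V'ᴴ * V' = 1) (ho : Vᴴ * V' = 0) {T : Matrix Y Y ℂ} (h1 : T * T = 1)
    (h2 : star T = T) (h3 : T * V = V') :
    let Q := V * Vᴴ + V' * V'ᴴ
    (T * (1 - Q) + Q) * (T * (1 - Q) + Q) = 1 ∧ star (T * (1 - Q) + Q) = T * (1 - Q) + Q ∧
      (T * (1 - Q) + Q).trace = T.trace + 2 * Fintype.card K ∧ T * Q = V' * Vᴴ + V * V'ᴴ ∧
      Q * T = T * Q ∧ Q * Q = Q := by
  intro Q
  have ho' : V'ᴴ * V = 0 := by
    have := congrArg Matrix.conjTranspose ho
    simpa using this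
  have h4 : T * V' = V := by rw [← h3, ← Matrix.mul_assoc, h1, Matrix.one_mul]
  have hs : Tᴴ = T := h2
  have h5 : Vᴴ * T = V'ᴴ := by rw [← h3, Matrix.conjTranspose_mul, hs]
  have h6 : V'ᴴ * T = Vᴴ := by rw [← h4, Matrix.conjTranspose_mul, hs]
  have a1 : T * Q = V' * Vᴴ + V * V'ᴴ := by
    simp only [Q, mul_add, ← Matrix.mul_assoc, h3, h4]
  have a2 : Q * T = T * Q := by
    rw [a1]
    simp only [Q, add_mul, Matrix.mul_assoc, h5, h6]
    rw [add_comm]
  have a3 : Q * Q = Q := by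
    simp only [Q, add_mul, mul_add, Matrix.mul_assoc]
    simp only [← Matrix.mul_assoc Vᴴ, ← Matrix.mul_assoc V'ᴴ, hV, hV', ho, ho', Matrix.one_mul,
      Matrix.zero_mul, Matrix.mul_zero, add_zero, zero_add]
  have a4 : star Q = Q := by simp [Q, Matrix.star_eq_conjTranspose]
  refine ⟨?_, ?_, ?_, a1, a2, a3⟩
  · have e : Q * (T * Q) = T * Q := by rw [← mul_assoc, a2, mul_assoc, a3]
    have e' : ∀ X, T * (T * X) = X := fun X => by rw [← mul_assoc, h1, one_mul]
    simp only [mul_add, add_mul, mul_sub, sub_mul, mul_one, one_mul, mul_assoc, a2, a3, e, e', h1]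
    abel
  · simp only [star_add, star_mul, star_sub, star_one, a4, h2, sub_mul, mul_sub, a2, one_mul,
      mul_one]
  · rw [mul_sub, mul_one, a1, Matrix.trace_add, Matrix.trace_sub, Matrix.trace_add,
      Matrix.trace_add, Matrix.trace_mul_comm V', Matrix.trace_mul_comm V, Matrix.trace_mul_comm V,
      Matrix.trace_mul_comm V', ho, ho', hV, hV']
    simp
    ring

theorem pcost {K : Type*} [Fintype K] [DecidableEq K] {V : Matrix Y K ℂ} {P R Γ : Matrix Y Y ℂ}
    (p1 : P * P = 1) (p2 : star P = P) (p3 : P.trace = 1)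
    (r1 : R * R = 1) (r2 : star R = R) (r3 : R.trace = 1) (g1 : star Γ = Γ)
    (g2 : Γ * P = -(P * Γ)) (hV : Vᴴ * V = 1) (h1 : Γ * V = V) (h2 : P * R * V = V) :
    Prd ((trG G).mat Y) (Fintype.card Y - 1 - 2 * Fintype.card K) (mp G (P * R)) := by
  have hs : Pᴴ = P := p2
  have hg : Γᴴ = Γ := g1
  have hV' : (P * V)ᴴ * (P * V) = 1 := by
    rw [Matrix.conjTranspose_mul, hs, Matrix.mul_assoc, ← Matrix.mul_assoc P, p1, Matrix.one_mul, hV]
  have ho : Vᴴ * (P * V) = 0 := by
    apply eq_zero_of_eq_neg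
    have e : Vᴴ * Γ = Vᴴ := by rw [← hg, ← Matrix.conjTranspose_mul, h1]
    nth_rewrite 1 [← e]
    rw [Matrix.mul_assoc, ← Matrix.mul_assoc Γ, g2, Matrix.neg_mul, Matrix.mul_assoc, h1,
      Matrix.mul_neg]
  have hR : R * V = P * V := by
    nth_rewrite 2 [← h2]
    rw [← Matrix.mul_assoc, ← mul_assoc, p1, one_mul]
  obtain ⟨a1, a2, a3, a4, a5, a6⟩ := pcost_aux hV hV' ho p1 p2 rfl
  obtain ⟨b1, b2, b3, b4, b5, -⟩ := pcost_aux hV hV' ho r1 r2 hR
  set Q := V * Vᴴ + P * V * (P * V)ᴴ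
  have h := (prd_mp (G := G) a1 a2).mul (prd_mp b1 b2)
  rw [← map_mul, a3, b3, p3, r3] at h
  have e : (P * (1 - Q) + Q) * (R * (1 - Q) + Q) = P * R := by
    have e1 : Q * (R * Q) = R * Q := by rw [← mul_assoc, b5, mul_assoc, a6]
    have e2 : P * (R * Q) = Q := by rw [b4, ← a4, ← mul_assoc, p1, one_mul]
    simp only [mul_add, add_mul, mul_sub, sub_mul, mul_one, one_mul, mul_assoc, b5, a6, e1, e2]
    abel
  rw [e] at h
  convert h using 1
  simp
  ring

end Vale.Agent.P174
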