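import Mathlib

/-! Spectral phase inequality in a tracial star algebra. -/

namespace Vale.Agent.P174

open Complex Finset

set_option linter.unusedSectionVars false
set_option linter.unusedSimpArgs false

/-- A positive trace on a complex star algebra. -/
structure PTr (A : Type*) [Ring A] [Algebra ℂ A] [StarRing A] where
  τ : A →ₗ[ℂ] ℂ
  comm : ∀ a b, τ (a * b) = τ (b * a)
  pos : ∀ a, 0 ≤ (τ (star a * a)).re
  conj : ∀ a, τ (star a) = (starRingEnd ℂ) (τ a)

variable {A : Type*} [Ring A] [Algebra ℂ A] [StarRing A] [StarModule ℂ A]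

/-- The regularised phase functional. -/
noncomputable def phase (t : PTr A) {n : ℕ} (b : Fin n → ℂ) (u : A) : ℝ :=
  (∑ i : Fin n, ∑ j : Fin n, if i = j then 0 else
    -((starRingEnd ℂ) (b j) * b i / (I * ((i : ℂ) - (j : ℂ)))) *
      (t.τ (star (u ^ (j : ℕ)) * u ^ (i : ℕ)) - t.τ 1)).re

/-- The path `u (1 + (e^{is} - 1) p)`. -/
noncomputable def pth (u p : A) (s : ℝ) : A := u * (1 + (exp (s * I) - 1) • p)

noncomputable def dpw (v v' : A) : ℕ → A
  | 0 => 0
  | k + 1 => v' * v ^ k + v * dpw v v' k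

lemma pth_eq (u p : A) (s : ℝ) : pth u p s = (u - u * p) + exp (s * I) • (u * p) := by
  simp only [pth, mul_add, mul_one, mul_smul_comm]
  rw [sub_smul, one_smul]
  abel

lemma pth_mul_p {u p : A} (hp : p * p = p) (s : ℝ) :
    pth u p s * p = exp (s * I) • (u * p) := by
  rw [pth_eq, add_mul, sub_mul, smul_mul_assoc, mul_assoc, hp, sub_self, zero_add]

lemma hasDerivAt_expI (s : ℝ) :
    HasDerivAt (fun s : ℝ => exp (s * I)) (exp (s * I) * I) s := by
  have h1 : HasDerivAt (fun s : ℝ => (s : ℂ) * I) I s := by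
    simpa using (Complex.ofRealCLM.hasDerivAt (x := s)).mul_const I
  exact h1.cexp

lemma hasDerivAt_tau_pow (t : PTr A) {u p : A} (hp : p * p = p) (s : ℝ) (k : ℕ) :
    ∀ a : A, HasDerivAt (fun s : ℝ => t.τ (a * pth u p s ^ k))
      (t.τ (a * dpw (pth u p s) (I • (pth u p s * p)) k)) s := by
  induction k with
  | zero => intro a; simpa [dpw] using hasDerivAt_const s (t.τ a)
  | succ k ih =>
    intro a
    have e : (fun s : ℝ => t.τ (a * pth u p s ^ (k + 1))) = fun s : ℝ =>
        t.τ ((a * (u - u * p)) * pth u p s ^ k) + exp (s * I) * t.τ ((a * (u * p)) * pth u p s ^ k) := by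
      funext s
      rw [pow_succ']
      nth_rewrite 1 [pth_eq]
      simp only [add_mul, mul_add, smul_mul_assoc, mul_smul_comm, map_add, map_smul, smul_eq_mul,
        mul_assoc]
    rw [e]
    have h := (ih (a * (u - u * p))).add ((hasDerivAt_expI s).mul (ih (a * (u * p))))
    refine HasDerivAt.congr_deriv h ?_
    rw [dpw, pth_mul_p hp]
    set D := dpw (pth u p s) (I • exp (↑s * I) • (u * p)) k
    set V := pth u p s ^ k
    rw [pth_eq]
    simp only [add_mul, mul_add, smul_mul_assoc, mul_smul_comm, map_add, map_smul, smul_eq_mul,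
        mul_assoc]
    ring

lemma tau_dpw (t : PTr A) (v p : A) (k : ℕ) :
    ∀ c : A, c * v = v * c → t.τ (c * dpw v (I • (v * p)) k) = I * k * t.τ (c * v ^ k * p) := by
  induction k with
  | zero => intro c _; simp [dpw]
  | succ k ih =>
    intro c hc
    have hc' : Commute c v := hc
    rw [dpw, mul_add, map_add, ← mul_assoc c v, ih (c * v) (by rw [← mul_assoc v, ← hc])]
    have : t.τ (c * (I • (v * p) * v ^ k)) = I * t.τ (c * v ^ (k + 1) * p) := by
      rw [smul_mul_assoc, mul_smul_comm, map_smul, smul_eq_mul, ← mul_assoc, t.comm, ← mul_assoc,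
        ← mul_assoc, ← (hc'.pow_right k).eq, pow_succ, mul_assoc c]
    rw [this, pow_succ' v k, mul_assoc c v]
    push_cast
    ring

lemma pth_unitary {u p : A} (hu : u ∈ unitary A) (hp : p * p = p) (hs : star p = p) (s : ℝ) :
    pth u p s ∈ unitary A := by
  refine mul_mem hu ?_
  have hz : (starRingEnd ℂ) (exp (s * I)) * exp (s * I) = 1 := by
    rw [← exp_conj, ← exp_add]; simp
  have key : ∀ z w : ℂ, z * w = 1 → (1 + (z - 1) • p) * (1 + (w - 1) • p) = 1 := by
    intro z w h
    have : (1 + (z - 1) • p) * (1 + (w - 1) • p) = 1 + (z * w - 1) • p := by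
      simp only [add_mul, mul_add, one_mul, mul_one, smul_mul_assoc, mul_smul_comm, hp]
      module
    rw [this, h]; simp
  constructor
  · rw [star_add, star_one, star_smul, hs, star_sub, star_one]
    exact key _ _ hz
  · rw [star_add, star_one, star_smul, hs, star_sub, star_one]
    exact key _ _ (by rw [mul_comm]; exact hz)

lemma star_pow_mul_pow {v : A} (hv : v ∈ unitary A) (j k : ℕ) :
    star (v ^ j) * v ^ (j + k) = v ^ k := by
  rw [pow_add, ← mul_assoc, (pow_mem hv j).1, one_mul]

lemma star_pow_mul_pow' {v : A} (hv : v ∈ unitary A) (i k : ℕ) :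
    star (v ^ (i + k)) * v ^ i = star (v ^ k) := by
  rw [pow_add, star_mul, mul_assoc, (pow_mem hv i).1, mul_one]

lemma hasDerivAt_tau_star_pow (t : PTr A) {u p : A} (hu : u ∈ unitary A) (hp : p * p = p)
    (hs : star p = p) (s : ℝ) (i j : ℕ) :
    HasDerivAt (fun s : ℝ => t.τ (star (pth u p s ^ j) * pth u p s ^ i))
      (I * ((i : ℂ) - j) * t.τ (star (pth u p s ^ j) * pth u p s ^ i * p)) s := by
  have hD : ∀ k : ℕ, HasDerivAt (fun s : ℝ => t.τ (pth u p s ^ k))
      (I * k * t.τ (pth u p s ^ k * p)) s := by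
    intro k
    have := hasDerivAt_tau_pow t (u := u) hp s k 1
    rw [tau_dpw t _ _ _ 1 (by simp)] at this
    simpa using this
  rcases le_total j i with h | h
  · obtain ⟨k, rfl⟩ := Nat.exists_eq_add_of_le h
    simp only [star_pow_mul_pow (pth_unitary hu hp hs _)]
    refine HasDerivAt.congr_deriv (hD k) ?_
    push_cast; ring
  · obtain ⟨k, rfl⟩ := Nat.exists_eq_add_of_le h
    simp only [star_pow_mul_pow' (pth_unitary hu hp hs _), t.conj]
    have h2 := (hD k).star
    refine HasDerivAt.congr_deriv h2 ?_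
    have : t.τ (star (pth u p s ^ k) * p) = (starRingEnd ℂ) (t.τ (pth u p s ^ k * p)) := by
      rw [← t.conj, star_mul, hs, t.comm]
    rw [this]
    simp

/-- The polynomial `q(v)`. -/
noncomputable def qq {n : ℕ} (b : Fin n → ℂ) (v : A) : A := ∑ i : Fin n, b i • v ^ (i : ℕ)

lemma hasDerivAt_phase (t : PTr A) {n : ℕ} (b : Fin n → ℂ)
    (hb : ∑ i, (starRingEnd ℂ) (b i) * b i = 1) {u p : A} (hu : u ∈ unitary A) (hp : p * p = p)
    (hs : star p = p) (s : ℝ) :
    HasDerivAt (fun s : ℝ => phase t b (pth u p s))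
      ((t.τ p).re - (t.τ (star (qq b (pth u p s)) * qq b (pth u p s) * p)).re) s := by
  set v := pth u p s with hv
  have h1 : HasDerivAt (fun s : ℝ => ∑ i : Fin n, ∑ j : Fin n, if i = j then (0 : ℂ) else
      -((starRingEnd ℂ) (b j) * b i / (I * ((i : ℂ) - (j : ℂ)))) *
      (t.τ (star (pth u p s ^ (j : ℕ)) * pth u p s ^ (i : ℕ)) - t.τ 1))
      (∑ i : Fin n, ∑ j : Fin n, if i = j then (0 : ℂ) else
        -((starRingEnd ℂ) (b j) * b i * t.τ (star (v ^ (j : ℕ)) * v ^ (i : ℕ) * p))) s := by
    refine HasDerivAt.fun_sum fun i _ => HasDerivAt.fun_sum fun j _ => ?_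
    split_ifs with hij
    · exact hasDerivAt_const _ _
    · have := ((hasDerivAt_tau_star_pow t hu hp hs s i j).sub_const (t.τ 1)).const_mul
        (-((starRingEnd ℂ) (b j) * b i / (I * ((i : ℂ) - (j : ℂ)))))
      refine HasDerivAt.congr_deriv this ?_
      have hne : ((i : ℕ) : ℂ) - ((j : ℕ) : ℂ) ≠ 0 := by
        rw [sub_ne_zero]
        exact_mod_cast fun h => hij (Fin.ext h)
      have := I_ne_zero
      rw [← hv]
      field_simp
  have h2 := Complex.reCLM.hasFDerivAt.comp_hasDerivAt s h1
  refine HasDerivAt.congr_deriv h2 ?_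
  rw [← Complex.sub_re]
  symm
  change _ = Complex.re _
  congr 1
  have hvu : v ∈ unitary A := pth_unitary hu hp hs s
  have e1 : t.τ (star (qq b v) * qq b v * p) =
      ∑ i : Fin n, ∑ j : Fin n, (starRingEnd ℂ) (b j) * b i * t.τ (star (v ^ (j : ℕ)) * v ^ (i : ℕ) * p) := by
    simp only [qq, star_sum, star_smul, Finset.sum_mul, Finset.mul_sum, map_sum, smul_mul_assoc,
      mul_smul_comm, map_smul, smul_eq_mul]
    refine Finset.sum_congr rfl fun i _ => Finset.sum_congr rfl fun j _ => ?_
    simp only [RCLike.star_def]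
    ring
  have e2 : t.τ p = ∑ i : Fin n, (starRingEnd ℂ) (b i) * b i * t.τ (star (v ^ (i : ℕ)) * v ^ (i : ℕ) * p) := by
    simp only [(pow_mem hvu _).1, one_mul]
    rw [← Finset.sum_mul, hb, one_mul]
  rw [e1, e2, ← Finset.sum_sub_distrib]
  refine Finset.sum_congr rfl fun i _ => ?_
  rw [← Finset.add_sum_erase _ _ (Finset.mem_univ i), ← Finset.add_sum_erase _ _ (Finset.mem_univ i)]
  simp only [if_true, zero_add, sub_add_cancel_left, ← Finset.sum_neg_distrib]
  refine Finset.sum_congr rfl fun j hj => ?_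
  rw [if_neg (Finset.ne_of_mem_erase hj).symm]

/-- The cost of a self-adjoint unitary. -/
noncomputable def cost (t : PTr A) (r : A) : ℝ := ((t.τ 1).re - (t.τ r).re) / 2

lemma phase_mul_le (t : PTr A) {n : ℕ} (b : Fin n → ℂ)
    (hb : ∑ i, (starRingEnd ℂ) (b i) * b i = 1) {u r : A} (hu : u ∈ unitary A) (hr : r * r = 1)
    (hs : star r = r) : phase t b (u * r) ≤ phase t b u + Real.pi * cost t r := by
  set p : A := (1 / 2 : ℂ) • (1 - r) with hpdef
  have hp : p * p = p := by
    simp only [hpdef, smul_mul_assoc, mul_smul_comm, smul_smul, sub_mul, mul_sub, hr, one_mul,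
      mul_one]
    module
  have hps : star p = p := by
    simp only [hpdef, star_smul, star_sub, star_one, hs]
    congr 1
    simp
  have hτ : (t.τ p).re = cost t r := by
    simp only [hpdef, map_smul, map_sub, smul_eq_mul, cost]
    simp
    ring
  have hd : ∀ s, HasDerivAt (fun s : ℝ => phase t b (pth u p s) - s * cost t r)
      (- (t.τ (star (qq b (pth u p s)) * qq b (pth u p s) * p)).re) s := by
    intro s
    have := (hasDerivAt_phase t b hb hu hp hps s).sub ((hasDerivAt_id s).mul_const (cost t r))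
    refine HasDerivAt.congr_deriv this ?_
    rw [hτ]; ring
  have hanti : Antitone (fun s : ℝ => phase t b (pth u p s) - s * cost t r) := by
    refine antitone_of_deriv_nonpos (fun s => (hd s).differentiableAt) fun s => ?_
    rw [(hd s).deriv, neg_nonpos]
    have := t.pos (qq b (pth u p s) * p)
    rw [star_mul, hps, mul_assoc, t.comm, mul_assoc, mul_assoc, hp, ← mul_assoc] at this
    exact this
  have := hanti Real.pi_pos.le
  have e0 : pth u p 0 = u := by simp [pth]
  have e1 : pth u p Real.pi = u * r := by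
    simp only [pth, exp_pi_mul_I, hpdef, smul_smul]
    congr 1
    norm_num
  simp only [e0, e1] at this
  linarith

/-- `u` is a product of self-adjoint unitaries of total cost at most `c`. -/
def Prd (t : PTr A) (c : ℝ) (u : A) : Prop :=
  ∃ l : List A, (∀ r ∈ l, r * r = 1 ∧ star r = r) ∧ l.prod = u ∧ (l.map (cost t)).sum ≤ c

lemma Prd.one (t : PTr A) : Prd t 0 1 := ⟨[], by simp, rfl, by simp⟩

lemma Prd.single (t : PTr A) {r : A} (hr : r * r = 1) (hs : star r = r) : Prd t (cost t r) r :=
  ⟨[r], by simp [hr, hs], by simp, by simp⟩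

lemma Prd.mono {t : PTr A} {c c' : ℝ} {u : A} (h : Prd t c u) (hc : c ≤ c') : Prd t c' u := by
  obtain ⟨l, h1, h2, h3⟩ := h
  exact ⟨l, h1, h2, h3.trans hc⟩

lemma Prd.mul {t : PTr A} {c c' : ℝ} {u v : A} (h : Prd t c u) (h' : Prd t c' v) :
    Prd t (c + c') (u * v) := by
  obtain ⟨l, h1, h2, h3⟩ := h
  obtain ⟨l', h1', h2', h3'⟩ := h'
  refine ⟨l ++ l', ?_, by simp [h2, h2'], by simp; linarith⟩
  intro r hr
  rcases List.mem_append.1 hr with h | h
  exacts [h1 r h, h1' r h]

lemma Prd.star {t : PTr A} {c : ℝ} {u : A} (h : Prd t c u) : Prd t c (star u) := by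
  obtain ⟨l, h1, rfl, h3⟩ := h
  refine ⟨l.reverse, fun r hr => h1 r (List.mem_reverse.1 hr), ?_, by
    rwa [List.map_reverse, List.sum_reverse]⟩
  clear h3
  induction l with
  | nil => simp
  | cons a l ih =>
    rw [List.reverse_cons, List.prod_append, List.prod_cons, List.prod_cons, star_mul,
      ih fun r hr => h1 r (List.mem_cons_of_mem _ hr), (h1 a List.mem_cons_self).2]
    simp

lemma Prd.conj {t : PTr A} {c : ℝ} {u z : A} (h : Prd t c u) (hz : z ∈ unitary A) :
    Prd t c (z * u * Star.star z) := by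
  obtain ⟨l, h1, rfl, h3⟩ := h
  refine ⟨l.map fun r => z * r * Star.star z, ?_, ?_, ?_⟩
  · intro r hr
    obtain ⟨r, hr', rfl⟩ := List.mem_map.1 hr
    obtain ⟨h4, h5⟩ := h1 r hr'
    constructor
    · calc z * r * Star.star z * (z * r * Star.star z)
          = z * r * (Star.star z * z) * r * Star.star z := by simp only [mul_assoc]
        _ = 1 := by rw [hz.1, mul_one, mul_assoc z, h4, mul_one, hz.2]
    · simp [star_mul, h5, mul_assoc]
  · clear h1 h3
    induction l with
    | nil => simpa using hz.2.symm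
    | cons a l ih =>
      rw [List.map_cons, List.prod_cons, ih, List.prod_cons]
      calc z * a * Star.star z * (z * l.prod * Star.star z)
          = z * a * (Star.star z * z) * l.prod * Star.star z := by simp only [mul_assoc]
        _ = _ := by rw [hz.1]; simp only [mul_assoc, one_mul]
  · refine le_trans (le_of_eq ?_) h3
    rw [List.map_map]
    congr 1
    refine List.map_congr_left fun r _ => ?_
    simp only [Function.comp, cost]
    rw [t.comm, ← mul_assoc, hz.1, one_mul]

lemma Prd.phase_le {t : PTr A} {c : ℝ} {u : A} (h : Prd t c u) {n : ℕ} (b : Fin n → ℂ)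
    (hb : ∑ i, (starRingEnd ℂ) (b i) * b i = 1) : phase t b u ≤ Real.pi * c := by
  obtain ⟨l, h1, rfl, h3⟩ := h
  have key : ∀ l : List A, (∀ r ∈ l, r * r = 1 ∧ Star.star r = r) → ∀ v ∈ unitary A,
      phase t b (v * l.prod) ≤ phase t b v + Real.pi * (l.map (cost t)).sum := by
    intro l
    induction l with
    | nil => intro _ v _; simp
    | cons a l ih =>
      intro h v hv
      obtain ⟨h4, h5⟩ := h a List.mem_cons_self
      have ha : a ∈ unitary A := ⟨by rw [h5, h4], by rw [h5, h4]⟩
      have := ih (fun r hr => h r (List.mem_cons_of_mem _ hr)) (v * a) (mul_mem hv ha)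
      have h6 := phase_mul_le t b hb hv h4 h5
      rw [List.prod_cons, ← mul_assoc, List.map_cons, List.sum_cons]
      linarith
  have := key l h1 1 (one_mem _)
  have h0 : phase t b (1 : A) = 0 := by simp [phase]
  rw [one_mul, h0, zero_add] at this
  exact this.trans (mul_le_mul_of_nonneg_left h3 Real.pi_pos.le)

end Vale.Agent.P174
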