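import Vale.Agent.P174.Core

/-! Group theoretic preparation: syllable forms and balanced products of conjugates. -/

namespace Vale.Agent.P174

open Monoid

set_option linter.unusedSectionVars false
set_option linter.unusedSimpArgs false

lemma exists_cols {m n : ℕ} (A : Matrix (Fin m) (Fin n) ℚ) (h : A.rank = m) :
    ∃ col : Fin m → Fin n, Function.Injective col ∧ (A.submatrix id col).det ≠ 0 := by
  obtain ⟨κ, a, ha, hsp, hli⟩ := exists_linearIndependent' ℚ A.col
  haveI : Finite κ := Finite.of_injective a ha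
  haveI := Fintype.ofFinite κ
  have hc : Fintype.card κ = m := by
    rw [← finrank_span_eq_card hli, hsp, ← Matrix.rank_eq_finrank_span_cols, h]
  let e : Fin m ≃ κ := (Fintype.equivFinOfCardEq hc).symm
  refine ⟨a ∘ e, ha.comp e.injective, ?_⟩
  have : LinearIndependent ℚ (A.submatrix id (a ∘ e)).col := hli.comp e e.injective
  exact ((Matrix.isUnit_iff_isUnit_det _).1 (Matrix.linearIndependent_cols_iff_isUnit.1 this)).ne_zero

variable {G : Type*} [Group G] {n : ℕ}

/-- The value of a sequence of syllables. -/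
def syl {k : ℕ} (γ : Fin k → G) (l : Fin k → Ltr n) : Coprod G (FreeGroup (Fin n)) :=
  ((List.finRange k).map fun i => Coprod.inl (γ i) * lev G (l i)).prod

lemma exists_syl (x0 : Fin n) (u : Coprod G (FreeGroup (Fin n))) :
    ∃ (k : ℕ) (γ : Fin k → G) (l : Fin k → Ltr n), 0 < k ∧ syl γ l = u := by
  let pev : List (G × Ltr n) → Coprod G (FreeGroup (Fin n)) := fun L =>
    (L.map fun p => Coprod.inl p.1 * lev G p.2).prod
  have hm : ∀ x y, (∃ L, L ≠ [] ∧ pev L = x) → (∃ L, L ≠ [] ∧ pev L = y) →
      ∃ L, L ≠ [] ∧ pev L = x * y := by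
    rintro _ _ ⟨L, h, rfl⟩ ⟨L', -, rfl⟩
    exact ⟨L ++ L', by simp [h], by simp [pev]⟩
  have hl : ∀ γ : G, ∃ L, L ≠ [] ∧ pev L = Coprod.inl γ := fun γ =>
    ⟨[(γ, (x0, true)), (1, (x0, false))], by simp, by simp [pev, lev]⟩
  have key : ∃ L, L ≠ [] ∧ pev L = u := by
    induction u using Coprod.induction_on with
    | inl γ => exact hl γ
    | mul x y hx hy => exact hm x y hx hy
    | inr f =>
      induction f using FreeGroup.induction_on with
      | C1 => simpa using hl 1
      | of x => exact ⟨[(1, (x, true))], by simp, by simp [pev, lev]⟩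
      | inv_of x _ => exact ⟨[(1, (x, false))], by simp, by simp [pev, lev]⟩
      | mul x y hx hy => rw [map_mul]; exact hm _ _ hx hy
  obtain ⟨L, h, rfl⟩ := key
  refine ⟨L.length, fun i => (L.get i).1, fun i => (L.get i).2, List.length_pos_iff.2 h, ?_⟩
  simp only [syl, pev]
  conv_rhs => rw [← List.map_get_finRange L, List.map_map]
  rfl

/-- The exponent sum homomorphism. -/
def expo (G : Type*) [Group G] (n : ℕ) :
    Coprod G (FreeGroup (Fin n)) →* Multiplicative (Fin n → ℤ) :=
  Coprod.lift 1 (FreeGroup.lift fun j => Multiplicative.ofAdd (Pi.single j 1))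

lemma expo_inl (g : G) : expo G n (Coprod.inl g) = 1 := by simp [expo]

lemma expo_lev (l : Ltr n) (x : Fin n) : Multiplicative.toAdd (expo G n (lev G l)) x =
    (if l = (x, true) then 1 else 0) - (if l = (x, false) then 1 else 0) := by
  obtain ⟨y, _ | _⟩ := l <;> simp [expo, lev, Pi.single_apply, eq_comm]

lemma expo_syl {k : ℕ} (γ : Fin k → G) (l : Fin k → Ltr n) (x : Fin n) :
    Multiplicative.toAdd (expo G n (syl γ l)) x =
      ∑ i, ((if l i = (x, true) then 1 else 0) - (if l i = (x, false) then 1 else 0)) := by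
  rw [syl, map_list_prod, List.map_map, ← List.ofFn_eq_map, List.prod_ofFn, toAdd_prod,
    Finset.sum_apply]
  simp only [Function.comp, map_mul, expo_inl, one_mul, expo_lev]

section conj
variable {Γ : Type*} [Group Γ] {J : Type} [Fintype J] [DecidableEq J]

/-- A conjugate of a relator or of its inverse. -/
def cj (w : J → Γ) (p : Γ × (J × Bool)) : Γ := p.1 * (if p.2.2 then w p.2.1 else (w p.2.1)⁻¹) * p.1⁻¹

lemma exists_cj (w : J → Γ) {x : Γ} (hx : x ∈ Subgroup.normalClosure (Set.range w)) :
    ∃ L : List (Γ × (J × Bool)), (L.map (cj w)).prod = x := by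
  induction hx using Subgroup.closure_induction'' with
  | mem x hx =>
    obtain ⟨_, ⟨j, rfl⟩, h⟩ := Group.mem_conjugatesOfSet_iff.1 hx
    obtain ⟨c, rfl⟩ := isConj_iff.1 h
    exact ⟨[(c, j, true)], by simp [cj]⟩
  | inv_mem x hx =>
    obtain ⟨_, ⟨j, rfl⟩, h⟩ := Group.mem_conjugatesOfSet_iff.1 hx
    obtain ⟨c, rfl⟩ := isConj_iff.1 h
    exact ⟨[(c, j, false)], by simp [cj, mul_assoc]⟩
  | one => exact ⟨[], rfl⟩
  | mul x y _ _ hx hy =>
    obtain ⟨L, rfl⟩ := hx
    obtain ⟨L', rfl⟩ := hy
    exact ⟨L ++ L', by simp⟩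

lemma exists_pad (w : J → Γ) (c : J → ℕ) : ∃ L : List (Γ × (J × Bool)), (L.map (cj w)).prod = 1 ∧
    ∀ j s, (L.map Prod.snd).count (j, s) = c j := by
  let Ach : AddSubmonoid (J → ℕ) :=
    { carrier := {c | ∃ L : List (Γ × (J × Bool)), (L.map (cj w)).prod = 1 ∧
        ∀ j s, (L.map Prod.snd).count (j, s) = c j}
      zero_mem' := ⟨[], rfl, by simp⟩
      add_mem' := by
        rintro a b ⟨L, h1, h2⟩ ⟨L', h3, h4⟩
        exact ⟨L ++ L', by simp [h1, h3], fun j s => by
          rw [List.map_append, List.count_append, h2, h4]; rfl⟩ }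
  change c ∈ Ach
  rw [← Finset.univ_sum_single c]
  refine sum_mem fun j _ => ?_
  have : (Pi.single j (c j) : J → ℕ) = c j • (Pi.single j 1 : J → ℕ) := by
    rw [← Pi.single_smul]; simp
  rw [this]
  refine nsmul_mem (S := Ach) ?_ _
  refine ⟨[(1, j, true), (1, j, false)], by simp [cj], fun j' s => ?_⟩
  by_cases h : j' = j
  · subst h; cases s <;> simp
  · cases s <;> simp [h, Ne.symm h, List.count_cons]

lemma sum_cj {A : Type*} [AddCommGroup A] (w : J → Γ) (φ : Γ →* Multiplicative A)
    (L : List (Γ × (J × Bool))) : Multiplicative.toAdd (φ (L.map (cj w)).prod) =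
      ∑ j, (((L.map Prod.snd).count (j, true) : ℤ) - (L.map Prod.snd).count (j, false)) •
        Multiplicative.toAdd (φ (w j)) := by
  induction L with
  | nil => simp
  | cons p L ih =>
    obtain ⟨u, j, s⟩ := p
    rw [List.map_cons, List.prod_cons, map_mul, toAdd_mul, ih]
    have e : ∀ j', (((List.map Prod.snd ((u, j, s) :: L)).count (j', true) : ℤ) -
        (List.map Prod.snd ((u, j, s) :: L)).count (j', false)) =
        (if j = j' then (if s then 1 else -1) else 0) +
        (((L.map Prod.snd).count (j', true) : ℤ) - (L.map Prod.snd).count (j', false)) := by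
      intro j'
      by_cases h : j = j'
      · cases s <;> simp [List.count_cons, h] <;> ring
      · simp [List.count_cons, h]
    simp only [e, add_smul, Finset.sum_add_distrib, ite_smul, zero_smul, Finset.sum_ite_eq,
      Finset.mem_univ, if_true]
    congr 1
    cases s <;> simp [cj]

lemma exists_names {κ α : Type*} [DecidableEq κ] {N : ℕ} [Inhabited α] (L : List (α × κ)) :
    ∀ F : List (Fin N × κ), F.Nodup → L.map Prod.snd = F.map Prod.snd →
      ∃ u : Fin N × κ → α, F.map (fun φ => (u φ, φ.2)) = L := by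
  induction L with
  | nil =>
    intro F _ h
    obtain rfl : F = [] := by simpa using h.symm
    exact ⟨fun _ => default, rfl⟩
  | cons p L ih =>
    intro F hF h
    cases F with
    | nil => simp at h
    | cons φ F =>
      simp only [List.map_cons, List.cons.injEq] at h
      rw [List.nodup_cons] at hF
      obtain ⟨u, hu⟩ := ih F hF.2 h.2
      refine ⟨Function.update u φ p.1, ?_⟩
      rw [List.map_cons, Function.update_self, ← h.1, ← hu]
      congr 1
      refine List.map_congr_left fun ψ hψ => ?_
      rw [Function.update_of_ne]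
      rintro rfl
      exact hF.1 hψ

lemma exists_faces (w : J → Γ) (L : List (Γ × (J × Bool)))
    (h : ∀ j, (L.map Prod.snd).count (j, true) = (L.map Prod.snd).count (j, false)) :
    ∃ (N : ℕ) (F : List (Fin N × (J × Bool))) (u : Fin N × (J × Bool) → Γ), F.Nodup ∧ (∀ φ, φ ∈ F) ∧
      (F.map fun φ => cj w (u φ, φ.2)).prod = (L.map (cj w)).prod := by
  haveI : Inhabited Γ := ⟨1⟩
  set N := L.length with hN
  obtain ⟨L', h1, h2⟩ := exists_pad w fun j => N - (L.map Prod.snd).count (j, true)
  have hc : ∀ a, ((L ++ L').map Prod.snd).count a = N := by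
    rintro ⟨j, s⟩
    have : (L.map Prod.snd).count (j, true) ≤ N := by
      simpa using List.count_le_length (l := L.map Prod.snd) (a := (j, true))
    rw [List.map_append, List.count_append, h2]
    cases s
    · rw [← h]; omega
    · omega
  have hp : ((L ++ L').map Prod.snd).Perm
      ((Finset.univ : Finset (Fin N × (J × Bool))).toList.map Prod.snd) := by
    rw [List.perm_iff_count]
    intro a
    have : ∀ l : List (Fin N × (J × Bool)), (l.map Prod.snd).count a =
        (l.map fun x => if x.2 = a then 1 else 0).sum := by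
      intro l
      induction l with
      | nil => rfl
      | cons x l ih => simp [List.count_cons, ih, add_comm]
    rw [hc, this, Finset.sum_map_toList, Fintype.sum_prod_type]
    simp
  obtain ⟨F, hF1, hF2⟩ := (congrFun (congrFun (List.eq_map_comp_perm Prod.snd) _) _).mpr hp
  have hF : F.Nodup := hF2.nodup_iff.2 (Finset.nodup_toList _)
  obtain ⟨u, hu⟩ := exists_names (L ++ L') F hF hF1
  refine ⟨N, F, u, hF, fun φ => hF2.mem_iff.2 (by simp), ?_⟩
  have := congrArg (fun l => (l.map (cj w)).prod) hu
  simp only [List.map_map, List.map_append, List.prod_append, h1, mul_one] at this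
  exact this

end conj

end Vale.Agent.P174
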