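import Mathlib

/-! Supercommutative algebras, odd derivations, and transgression identities. -/

namespace Vale.Agent.P174

set_option linter.unusedSectionVars false
set_option linter.unusedSimpArgs false

section general
variable {R : Type*} [Ring R] [Algebra ℂ R]

/-- Twisted Leibniz rule. -/
def Lb (P : R →ₐ[ℂ] R) (d : R →ₗ[ℂ] R) : Prop := ∀ a b, d (a * b) = d a * b + P a * d b

lemma Lb.one {P : R →ₐ[ℂ] R} {d : R →ₗ[ℂ] R} (h : Lb P d) : d 1 = 0 := by
  have := h 1 1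
  simpa using this

lemma Lb.alg {P : R →ₐ[ℂ] R} {d : R →ₗ[ℂ] R} (h : Lb P d) (z : ℂ) : d (algebraMap ℂ R z) = 0 := by
  rw [Algebra.algebraMap_eq_smul_one, map_smul, h.one, smul_zero]

lemma Lb.add {P : R →ₐ[ℂ] R} {d d' : R →ₗ[ℂ] R} (h : Lb P d) (h' : Lb P d') : Lb P (d + d') := by
  intro a b
  simp only [LinearMap.add_apply, h a b, h' a b, add_mul, mul_add]
  abel

lemma Lb.sum {P : R →ₐ[ℂ] R} {ι : Type*} (s : Finset ι) {d : ι → R →ₗ[ℂ] R}
    (h : ∀ i, Lb P (d i)) : Lb P (∑ i ∈ s, d i) := by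
  intro a b
  simp only [LinearMap.sum_apply, h _ a b, Finset.sum_add_distrib, Finset.sum_mul, Finset.mul_sum]

lemma Lb.dd {P : R →ₐ[ℂ] R} {d : R →ₗ[ℂ] R} (h : Lb P d) (hp : ∀ a, P (d a) = - d (P a))
    (hP : ∀ a, P (P a) = a) (a b : R) : d (d (a * b)) = d (d a) * b + a * d (d b) := by
  rw [h, map_add, h, h, hp, hP, neg_mul]
  abel

lemma Lb.pow_closed {P : R →ₐ[ℂ] R} {d : R →ₗ[ℂ] R} (h : Lb P d) {a : R} (ha : d a = 0) (k : ℕ) :
    d (a ^ k) = 0 := by
  induction k with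
  | zero => simpa using h.one
  | succ k ih => rw [pow_succ, h, ih, ha]; simp

lemma Lb.prod_closed {P : R →ₐ[ℂ] R} {d : R →ₗ[ℂ] R} (h : Lb P d) (l : List R)
    (ha : ∀ a ∈ l, d a = 0) : d l.prod = 0 := by
  induction l with
  | nil => simpa using h.one
  | cons a l ih =>
    rw [List.prod_cons, h, ha a List.mem_cons_self, ih fun b hb => ha b (List.mem_cons_of_mem _ hb)]
    simp

/-- A parity involution making the algebra supercommutative. -/
structure SAlg (R : Type*) [Ring R] [Algebra ℂ R] where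
  P : R →ₐ[ℂ] R
  PP : ∀ a, P (P a) = a
  sc : ∀ a b, (2 : ℂ) • (a * b) = b * a + P b * a + b * P a - P b * P a

lemma two_cancel {M : Type*} [AddCommGroup M] [Module ℂ M] {x y : M}
    (h : (2 : ℂ) • x = (2 : ℂ) • y) : x = y :=
  smul_right_injective M (by norm_num : (2 : ℂ) ≠ 0) h

lemma eq_zero_of_eq_neg {M : Type*} [AddCommGroup M] [Module ℂ M] {x : M} (h : x = -x) : x = 0 := by
  apply two_cancel
  rw [two_smul, smul_zero]
  nth_rewrite 1 [h]
  simp

lemma SAlg.odd_mul (S : SAlg R) {a : R} (h : S.P a = -a) (b : R) : a * b = S.P b * a := by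
  apply two_cancel
  rw [S.sc, h, two_smul]
  simp only [mul_neg]
  abel

lemma SAlg.even_mul (S : SAlg R) {a : R} (h : S.P a = a) (b : R) : a * b = b * a := by
  apply two_cancel
  rw [S.sc, h, two_smul]
  abel

lemma SAlg.odd_sq (S : SAlg R) {a : R} (h : S.P a = -a) : a * a = 0 := by
  apply eq_zero_of_eq_neg
  nth_rewrite 1 [S.odd_mul h a, h]
  simp

lemma Lb.mulLeft (S : SAlg R) {d : R →ₗ[ℂ] R} (h : Lb S.P d) {u : R} (hu : S.P u = u) :
    Lb S.P (LinearMap.mulLeft ℂ u ∘ₗ d) := by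
  intro a b
  simp only [LinearMap.comp_apply, LinearMap.mulLeft_apply, h a b, mul_add, mul_assoc]
  rw [← mul_assoc u (S.P a), S.even_mul hu (S.P a), mul_assoc]

/-- Sum of `F^i X F^j` with `i + j + 1 = k`. -/
def sk (F X : R) : ℕ → R
  | 0 => 0
  | k + 1 => X * F ^ k + F * sk F X k

lemma Lb.pow {d : R →ₗ[ℂ] R} (h : Lb (AlgHom.id ℂ R) d) (F : R) (k : ℕ) :
    d (F ^ k) = sk F (d F) k := by
  induction k with
  | zero => simpa [sk] using h.one
  | succ k ih => rw [pow_succ', h, ih, sk]; rfl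

lemma Lb.sk {P : R →ₐ[ℂ] R} {d : R →ₗ[ℂ] R} (h : Lb P d) {F : R} (hF : d F = 0) (hP : P F = F)
    (X : R) (k : ℕ) : d (sk F X k) = sk F (d X) k := by
  induction k with
  | zero => simp [Vale.Agent.P174.sk]
  | succ k ih =>
    simp only [Vale.Agent.P174.sk, map_add, h _ _, ih, hF, hP, h.pow_closed hF]
    simp

lemma sk_eq (F X : R) (k : ℕ) :
    sk F X k = ∑ i ∈ Finset.range k, F ^ i * X * F ^ (k - 1 - i) := by
  induction k with
  | zero => simp [sk]
  | succ k ih =>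
    rw [sk, ih, Finset.sum_range_succ', add_comm, Finset.mul_sum]
    congr 1
    · refine Finset.sum_congr rfl fun i _ => ?_
      rw [pow_succ', show k + 1 - 1 - (i + 1) = k - 1 - i by omega]
      simp only [mul_assoc]
    · simp

end general

section matrix
variable {R : Type*} [Ring R] [Algebra ℂ R] {n : Type*} [Fintype n] [DecidableEq n]

lemma Lb.mat {P : R →ₐ[ℂ] R} {d : R →ₗ[ℂ] R} (h : Lb P d) :
    Lb (P.mapMatrix (m := n)) d.mapMatrix := by
  intro X Y
  ext i j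
  simp [Matrix.mul_apply, h _ _, Finset.sum_add_distrib]

lemma Lb.mat_id {d : R →ₗ[ℂ] R} (h : Lb (AlgHom.id ℂ R) d) :
    Lb (AlgHom.id ℂ (Matrix n n R)) d.mapMatrix := by
  intro X Y
  ext i j
  simp [Matrix.mul_apply, h _ _, Finset.sum_add_distrib]

lemma map_trace' {R' : Type*} [Ring R'] [Algebra ℂ R'] (d : R →ₗ[ℂ] R') (X : Matrix n n R) :
    d X.trace = (d.mapMatrix X).trace := by
  simp [Matrix.trace]

lemma alg_trace {R' : Type*} [Ring R'] [Algebra ℂ R'] (d : R →ₐ[ℂ] R') (X : Matrix n n R) :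
    d X.trace = (d.mapMatrix X).trace := by
  simp [Matrix.trace]

lemma SAlg.tr_odd (S : SAlg R) {X : Matrix n n R} (h : S.P.mapMatrix X = -X) (Y : Matrix n n R) :
    (X * Y).trace = (S.P.mapMatrix Y * X).trace := by
  simp only [Matrix.trace, Matrix.diag, Matrix.mul_apply]
  rw [Finset.sum_comm]
  refine Finset.sum_congr rfl fun i _ => Finset.sum_congr rfl fun j _ => ?_
  exact S.odd_mul (congrFun (congrFun h j) i) _

lemma SAlg.tr_even (S : SAlg R) {X : Matrix n n R} (h : S.P.mapMatrix X = X) (Y : Matrix n n R) :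
    (X * Y).trace = (Y * X).trace := by
  simp only [Matrix.trace, Matrix.diag, Matrix.mul_apply]
  rw [Finset.sum_comm]
  refine Finset.sum_congr rfl fun i _ => Finset.sum_congr rfl fun j _ => ?_
  exact S.even_mul (congrFun (congrFun h j) i) _

lemma SAlg.closed_odd (S : SAlg R) {d : R →ₗ[ℂ] R} (h : Lb S.P d) {θ : Matrix n n R}
    (h1 : S.P.mapMatrix θ = -θ) (h2 : d.mapMatrix θ = -(θ * θ)) (k : ℕ) :
    d (θ ^ (2 * k + 1)).trace = 0 := by
  have hm := h.mat (n := n)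
  have h3 : d.mapMatrix (θ * θ) = 0 := by
    rw [hm, h1, h2]; simp [mul_assoc]
  have h4 : d.mapMatrix (θ ^ (2 * k)) = 0 := by
    rw [pow_mul, pow_two]; exact hm.pow_closed h3 k
  rw [map_trace', pow_succ', hm, h4, h2, mul_zero, add_zero, neg_mul, Matrix.trace_neg, neg_eq_zero,
    mul_assoc]
  apply eq_zero_of_eq_neg
  nth_rewrite 1 [S.tr_odd h1]
  rw [map_mul, map_pow, h1, Even.neg_pow (by simp), neg_mul, neg_mul,
    Matrix.trace_neg]
  congr 2
  rw [mul_assoc, ← pow_succ, ← pow_succ' θ (2 * k)]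

lemma SAlg.odd_trace (S : SAlg R) {θ : Matrix n n R} (h1 : S.P.mapMatrix θ = -θ) (k : ℕ) :
    S.P (θ ^ (2 * k + 1)).trace = -(θ ^ (2 * k + 1)).trace := by
  rw [alg_trace, map_pow, h1, Odd.neg_pow (by simp), Matrix.trace_neg]

lemma maurer {A : Type*} [Ring A] [Algebra ℂ A] {P : A →ₐ[ℂ] A} {d : A →ₗ[ℂ] A} (h : Lb P d)
    (hp : ∀ a, P (d a) = - d (P a)) {F G : A} (hF : P F = F) (hG : P G = G) (h1 : G * F = 1)
    (h2 : F * G = 1) (h3 : d (d F) = 0) :
    P (G * d F) = -(G * d F) ∧ d (G * d F) = -((G * d F) * (G * d F)) := by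
  constructor
  · rw [map_mul, hp, hF, hG, mul_neg]
  · have e : d G * F + G * d F = 0 := by
      have := h G F
      rw [h1, h.one, hG] at this
      exact this.symm
    have e2 : d G = -(G * d F * G) := by
      have : d G = d G * F * G := by rw [mul_assoc, h2, mul_one]
      rw [this, eq_neg_of_add_eq_zero_left e, neg_mul]
    rw [h, h3, e2]
    simp [mul_assoc]

lemma SAlg.tr_sk (S : SAlg R) {F X : Matrix n n R} (hF : S.P.mapMatrix F = F)
    (hX : S.P.mapMatrix X = X) (k : ℕ) (Y : Matrix n n R) :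
    (X * sk F Y k).trace = (Y * sk F X k).trace := by
  simp only [sk_eq, Finset.mul_sum, Matrix.trace_sum]
  rw [← Finset.sum_range_reflect]
  refine Finset.sum_congr rfl fun i hi => ?_
  have hi' := Finset.mem_range.1 hi
  have hXF : S.P.mapMatrix (X * F ^ (k - 1 - i)) = X * F ^ (k - 1 - i) := by
    rw [map_mul, map_pow, hX, hF]
  rw [show k - 1 - (k - 1 - i) = i by omega, mul_assoc _ Y, ← mul_assoc X, S.tr_even hXF]
  simp only [mul_assoc]

/-- The infinitesimal Green identity for Chern-Simons forms. -/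
lemma SAlg.green (S : SAlg R) {d D₁ D₂ : R →ₗ[ℂ] R} (h : Lb S.P d)
    (hp : ∀ a, S.P (d a) = - d (S.P a)) (h1 : Lb (AlgHom.id ℂ R) D₁) (h2 : Lb (AlgHom.id ℂ R) D₂)
    (c1 : ∀ a, D₁ (d a) = d (D₁ a)) (c2 : ∀ a, D₂ (d a) = d (D₂ a))
    (p1 : ∀ a, S.P (D₁ a) = D₁ (S.P a)) (p2 : ∀ a, S.P (D₂ a) = D₂ (S.P a))
    {A : Matrix n n R} (hA : S.P.mapMatrix A = -A) (hdd : d.mapMatrix (d.mapMatrix A) = 0)
    (h12 : D₁.mapMatrix (D₂.mapMatrix A) = D₂.mapMatrix (D₁.mapMatrix A)) (k : ℕ) :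
    ∃ e, D₁ (D₂.mapMatrix A * (d.mapMatrix A + A * A) ^ k).trace -
      D₂ (D₁.mapMatrix A * (d.mapMatrix A + A * A) ^ k).trace = d e := by
  set F := d.mapMatrix A + A * A with hF
  set PM := S.P.mapMatrix (m := n) with hPM
  set dM : Matrix n n R →ₗ[ℂ] Matrix n n R := d.mapMatrix with hdM
  have hm : Lb PM dM := h.mat
  have hpm : ∀ X, PM (dM X) = - dM (PM X) := fun X => by
    ext i j; simp [hPM, hdM, hp]
  have hPP : ∀ X, PM (PM X) = X := fun X => by
    ext i j; simp [hPM, S.PP]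
  let cov : Matrix n n R →ₗ[ℂ] Matrix n n R :=
    dM + LinearMap.mulLeft ℂ A - LinearMap.mulRight ℂ A ∘ₗ PM.toLinearMap
  have cov_apply : ∀ X, cov X = dM X + A * X - PM X * A := fun X => rfl
  have hc : Lb PM cov := by
    intro X Y
    simp only [cov_apply, hm X Y, map_mul, mul_add, add_mul, mul_sub, sub_mul, mul_assoc]
    abel
  have hPF : PM F = F := by
    rw [hF, map_add, hpm, map_mul, hA, map_neg]; simp
  have hcF : cov F = 0 := by
    rw [cov_apply, hPF, hF, map_add, hdd, hm, hA]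
    simp only [mul_add, add_mul, neg_mul, mul_assoc]
    abel
  have htr : ∀ X, (cov X).trace = d X.trace := by
    intro X
    rw [cov_apply, Matrix.trace_sub, Matrix.trace_add, S.tr_odd hA, map_trace']
    abel
  have key : ∀ D : R →ₗ[ℂ] R, Lb (AlgHom.id ℂ R) D → (∀ a, D (d a) = d (D a)) →
      (∀ a, S.P (D a) = D (S.P a)) → PM (D.mapMatrix A) = -D.mapMatrix A ∧
        D.mapMatrix (F ^ k) = sk F (cov (D.mapMatrix A)) k := by
    intro D hD c p
    have e1 : PM (D.mapMatrix A) = -D.mapMatrix A := by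
      rw [← map_neg, ← hA]
      ext i j; simp [hPM, p]
    refine ⟨e1, ?_⟩
    rw [hD.mat_id.pow]
    congr 1
    rw [cov_apply, e1, hF, map_add, hD.mat_id]
    have : D.mapMatrix (dM A) = dM (D.mapMatrix A) := by
      ext i j; simp [hdM, c]
    rw [this]
    simp only [AlgHom.id_apply, neg_mul]
    abel
  obtain ⟨o1, k1⟩ := key D₁ h1 c1 p1
  obtain ⟨o2, k2⟩ := key D₂ h2 c2 p2
  set a₁ := D₁.mapMatrix A
  set a₂ := D₂.mapMatrix A
  refine ⟨-(a₂ * sk F a₁ k).trace, ?_⟩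
  have hev : PM (cov a₂) = cov a₂ := by
    rw [cov_apply, map_sub, map_add, hpm, map_mul, map_mul, hPP, o2, hA]
    simp
  rw [map_trace', map_trace', h1.mat_id, h2.mat_id, k1, k2, h12, map_neg, ← htr, hc, o2,
    hc.sk hcF hPF, Matrix.trace_add, Matrix.trace_add, Matrix.trace_add, S.tr_sk hPF hev]
  simp only [AlgHom.id_apply, neg_mul, Matrix.trace_neg]
  abel

end matrix

end Vale.Agent.P174
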