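import Vale.Agent.P174.Grass

/-! Extension of scalars for superalgebras; the Chevalley-Eilenberg differential of `gl`. -/

namespace Vale.Agent.P174

open scoped TensorProduct

set_option linter.unusedSectionVars false
set_option linter.unusedSimpArgs false

section general
variable {R : Type*} [Ring R] [Algebra ℂ R]

lemma Lb.mulLeft_odd (S : SAlg R) {d : R →ₗ[ℂ] R} (h : Lb (AlgHom.id ℂ R) d) {u : R}
    (hu : S.P u = -u) : Lb S.P (LinearMap.mulLeft ℂ u ∘ₗ d) := by
  intro a b
  simp only [LinearMap.comp_apply, LinearMap.mulLeft_apply, h a b, mul_add, mul_assoc,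
    AlgHom.id_apply]
  rw [← mul_assoc u a, S.odd_mul hu a, mul_assoc]

lemma Lb.mulLeft_odd' (S : SAlg R) {d : R →ₗ[ℂ] R} (h : Lb S.P d) {u : R}
    (hu : S.P u = -u) : Lb (AlgHom.id ℂ R) (LinearMap.mulLeft ℂ u ∘ₗ d) := by
  intro a b
  simp only [LinearMap.comp_apply, LinearMap.mulLeft_apply, h a b, mul_add, mul_assoc,
    AlgHom.id_apply]
  rw [← mul_assoc u (S.P a), S.odd_mul hu (S.P a), S.PP, mul_assoc]

variable {T : Type*} [CommRing T] [Algebra ℂ T]

/-- Extension of scalars of a superalgebra. -/
noncomputable def SAlg.tens (S : SAlg R) (T : Type*) [CommRing T] [Algebra ℂ T] :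
    SAlg (R ⊗[ℂ] T) where
  P := Algebra.TensorProduct.map S.P (AlgHom.id ℂ T)
  PP a := by
    induction a with
    | zero => simp
    | tmul a s => simp [S.PP]
    | add x y hx hy => rw [map_add, map_add, hx, hy]
  sc a b := by
    induction a with
    | zero => simp
    | add x y hx hy =>
      simp only [add_mul, mul_add, smul_add, map_add, hx, hy]
      abel
    | tmul a s =>
      induction b with
      | zero => simp
      | add x y hx hy =>
        simp only [add_mul, mul_add, smul_add, map_add, hx, hy]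
        abel
      | tmul b t =>
        simp only [Algebra.TensorProduct.tmul_mul_tmul, Algebra.TensorProduct.map_tmul,
          AlgHom.id_apply, TensorProduct.smul_tmul', S.sc, mul_comm t s, TensorProduct.add_tmul,
          TensorProduct.sub_tmul]

lemma SAlg.tens_P (S : SAlg R) (a : R) (s : T) : (S.tens T).P (a ⊗ₜ s) = S.P a ⊗ₜ s := rfl

lemma Lb.rT (S : SAlg R) {d : R →ₗ[ℂ] R} (h : Lb S.P d) : Lb (S.tens T).P (d.rTensor T) := by
  intro a b
  induction a with
  | zero => simp
  | add x y hx hy =>
    simp only [add_mul, mul_add, smul_add, map_add, hx, hy]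
    abel
  | tmul a s =>
    induction b with
    | zero => simp
    | add x y hx hy =>
      simp only [add_mul, mul_add, smul_add, map_add, hx, hy]
      abel
    | tmul b t =>
      simp only [Algebra.TensorProduct.tmul_mul_tmul, LinearMap.rTensor_tmul, SAlg.tens_P, h a b,
        TensorProduct.add_tmul]

lemma lb_lT (D : Derivation ℂ T T) :
    Lb (AlgHom.id ℂ (R ⊗[ℂ] T)) (D.toLinearMap.lTensor R) := by
  intro a b
  induction a with
  | zero => simp
  | add x y hx hy =>
    simp only [add_mul, mul_add, smul_add, map_add, hx, hy]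
    abel
  | tmul a s =>
    induction b with
    | zero => simp
    | add x y hx hy =>
      simp only [add_mul, mul_add, smul_add, map_add, hx, hy]
      abel
    | tmul b t =>
      simp only [Algebra.TensorProduct.tmul_mul_tmul, LinearMap.lTensor_tmul, AlgHom.id_apply,
        Derivation.coeFn_coe, Derivation.leibniz, smul_eq_mul, TensorProduct.tmul_add]
      rw [add_comm, mul_comm t]

lemma par_rT (S : SAlg R) {d : R →ₗ[ℂ] R} (hp : ∀ a, S.P (d a) = - d (S.P a)) (a : R ⊗[ℂ] T) :
    (S.tens T).P (d.rTensor T a) = - d.rTensor T ((S.tens T).P a) := by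
  induction a with
  | zero => simp
  | add x y hx hy => simp only [map_add, hx, hy, neg_add]
  | tmul a s => simp [SAlg.tens_P, hp, TensorProduct.neg_tmul]

lemma par_lT (S : SAlg R) (D : T →ₗ[ℂ] T) (a : R ⊗[ℂ] T) :
    (S.tens T).P (D.lTensor R a) = D.lTensor R ((S.tens T).P a) := by
  induction a with
  | zero => simp
  | add x y hx hy => simp only [map_add, hx, hy]
  | tmul a s => simp [SAlg.tens_P]

lemma lT_rT (d : R →ₗ[ℂ] R) (D : T →ₗ[ℂ] T) (a : R ⊗[ℂ] T) :
    D.lTensor R (d.rTensor T a) = d.rTensor T (D.lTensor R a) := by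
  induction a with
  | zero => simp
  | add x y hx hy => simp only [map_add, hx, hy]
  | tmul a s => simp

/-- Apply a functional to the second factor. -/
noncomputable def fn (φ : T →ₗ[ℂ] ℂ) : R ⊗[ℂ] T →ₗ[ℂ] R :=
  (TensorProduct.rid ℂ R).toLinearMap ∘ₗ φ.lTensor R

@[simp] lemma fn_tmul (φ : T →ₗ[ℂ] ℂ) (a : R) (s : T) : fn φ (a ⊗ₜ s) = φ s • a := by
  simp [fn]

lemma fn_rT (φ : T →ₗ[ℂ] ℂ) (d : R →ₗ[ℂ] R) (a : R ⊗[ℂ] T) :
    fn φ (d.rTensor T a) = d (fn φ a) := by
  induction a with
  | zero => simp
  | add x y hx hy => simp only [map_add, hx, hy]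
  | tmul a s => simp

end general

section gl
variable {J n : Type} [Fintype J] [DecidableEq J] [Fintype n] [DecidableEq n]
variable {Λ : Type} [Ring Λ] [Algebra ℂ Λ] (g : Gr (Option (J × n × n)) Λ)

/-- The Maurer-Cartan matrices. -/
def xi (j : J) : Matrix n n Λ := Matrix.of fun a b => g.c (some (j, a, b))

lemma xi_apply (j : J) (a b : n) : xi g j a b = g.c (some (j, a, b)) := rfl

def uu : Option (J × n × n) → Λ
  | none => 0
  | some x => -(xi g x.1 * xi g x.1) x.2.1 x.2.2

/-- The Chevalley-Eilenberg differential. -/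
noncomputable def del : Λ →ₗ[ℂ] Λ := g.der (uu g)

lemma P_xi (j : J) : g.P.mapMatrix (xi g j) = - xi g j := by
  ext a b; simp [xi_apply, g.Pc]

lemma P_uu (x) : g.P (uu g x) = uu g x := by
  cases x with
  | none => simp [uu]
  | some x =>
    have : g.P.mapMatrix (xi g x.1 * xi g x.1) = xi g x.1 * xi g x.1 := by
      rw [map_mul, P_xi]; simp
    rw [uu, map_neg]
    exact congrArg Neg.neg (congrFun (congrFun this _) _)

lemma del_lb : Lb g.P (del g) := g.der_lb (P_uu g)

lemma del_par (a : Λ) : g.P (del g a) = - del g (g.P a) := g.der_par (P_uu g) a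

lemma del_xi (j : J) : (del g).mapMatrix (xi g j) = -(xi g j * xi g j) := by
  ext a b
  exact g.der_c _ _

lemma del_none : del g (g.c none) = 0 := g.der_c _ _

lemma del_xi_sq (j : J) : (del g).mapMatrix (xi g j * xi g j) = 0 := by
  rw [(del_lb g).mat, del_xi, P_xi]
  simp [mul_assoc]

lemma del_del (a : Λ) : del g (del g a) = 0 := by
  refine g.der_der (P_uu g) (fun x => ?_) a
  cases x with
  | none => simp [uu]
  | some x =>
    rw [uu, map_neg, neg_eq_zero]
    exact congrFun (congrFun (del_xi_sq g x.1) _) _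

lemma top_del (a : Λ) : g.top (del g a) = 0 := by
  refine g.top_der (P_uu g) ?_ a
  rw [Fintype.sum_option, Fintype.sum_prod_type]
  simp only [uu, map_zero, zero_add]
  refine Finset.sum_eq_zero fun j _ => ?_
  rw [Fintype.sum_prod_type]
  simp only [Matrix.mul_apply, map_neg, map_sum, g.Imul _ _ _, xi_apply, g.Ic, g.Pc,
    Finset.sum_add_distrib, Finset.sum_neg_distrib, neg_eq_zero]
  simp only [Option.some.injEq, Prod.mk.injEq, true_and, and_true, ite_mul, one_mul, zero_mul,
    Finset.sum_ite_eq, Finset.mem_univ, if_true, mul_ite, mul_neg, mul_one, mul_zero,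
    Finset.sum_ite_eq', Finset.sum_neg_distrib]
  rw [Finset.sum_comm]
  simp

end gl

end Vale.Agent.P174
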