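import Vale.Agent.P174.Cover

/-! Existence of a point with large fixed spaces. -/

namespace Vale.Agent.P174

open scoped TensorProduct ContDiff Matrix
open MeasureTheory Complex

set_option linter.unusedSectionVars false
set_option linter.unusedSimpArgs false

section bd
variable {n B O : Type} [Fintype n] [DecidableEq n] [Fintype B] [DecidableEq B] [Fintype O]
  [DecidableEq O] {α β : Type*} [Ring α] [Ring β]

/-- Block diagonal matrices with a scalar corner. -/
def bd (O : Type) [DecidableEq O] (M : B → Matrix n n α) (c : α) :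
    Matrix ((n × B) ⊕ O) ((n × B) ⊕ O) α :=
  Matrix.fromBlocks (Matrix.blockDiagonal M) 0 0 (Matrix.diagonal fun _ => c)

lemma bd_mul (M M' : B → Matrix n n α) (c c' : α) :
    bd O M c * bd O M' c' = bd O (fun b => M b * M' b) (c * c') := by
  simp [bd, Matrix.fromBlocks_multiply]

lemma bd_one : bd O (fun _ : B => (1 : Matrix n n α)) 1 = 1 := by
  rw [bd, ← Matrix.fromBlocks_one]
  congr
  exact Matrix.blockDiagonal_one

lemma bd_map (M : B → Matrix n n α) (c : α) (f : α → β) (hf : f 0 = 0) :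
    (bd O M c).map f = bd O (fun b => (M b).map f) (f c) := by
  simp [bd, Matrix.fromBlocks_map, Matrix.blockDiagonal_map _ _ hf, Matrix.map_zero _ hf,
    Matrix.diagonal_map hf]

lemma bd_pow (M : B → Matrix n n α) (c : α) (k : ℕ) :
    bd O M c ^ k = bd O (fun b => M b ^ k) (c ^ k) := by
  induction k with
  | zero => simp [bd_one]
  | succ k ih => simp only [pow_succ, ih, bd_mul]

lemma bd_trace (M : B → Matrix n n α) : (bd O M 0).trace = ∑ b, (M b).trace := by
  rw [← Matrix.trace_blockDiagonal]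
  simp [bd, Matrix.trace, Fintype.sum_sum_type]

lemma bd_star [StarRing α] (M : B → Matrix n n α) (c : α) :
    star (bd O M c) = bd O (fun b => star (M b)) (star c) := by
  simp [bd, Matrix.star_eq_conjTranspose, Matrix.fromBlocks_conjTranspose]

end bd

lemma SAlg.tr_conj_neg {R : Type*} [Ring R] [Algebra ℂ R] {n : Type*} [Fintype n] [DecidableEq n]
    (S : SAlg R) {M M' : Matrix n n R} (hM : S.P.mapMatrix M = M) (h1 : M * M' = 1)
    (h2 : M' * M = 1) (X : Matrix n n R) (k : ℕ) :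
    ((M * -(X * M')) ^ (2 * k + 1)).trace = -(X ^ (2 * k + 1)).trace := by
  have e3 : ∀ k : ℕ, (M * (X * M')) ^ k = M * (X ^ k * M') := by
    intro k
    induction k with
    | zero => rw [pow_zero, pow_zero, one_mul, h1]
    | succ k ih =>
      rw [pow_succ, ih, pow_succ]
      simp only [mul_assoc]
      rw [← mul_assoc M', h2, one_mul]
  rw [mul_neg, Odd.neg_pow (by simp), Matrix.trace_neg, e3, S.tr_even hM, mul_assoc, h2, mul_one]

/-- Choose among three values according to a sign. -/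
def sel {α : Type*} (x y z : α) : Option Bool → α
  | some true => x
  | some false => y
  | none => z

open ComplexOrder in
lemma exists_eigen {Y n : Type*} [Fintype Y] [DecidableEq Y] [Fintype n] [DecidableEq n]
    {W : Matrix Y Y ℂ} (hW : star W * W = 1) {ζ : n → ℂ} (hζ : ∀ r, star (ζ r) * ζ r = 1)
    (hi : Function.Injective ζ) (h : ∀ r, (W - ζ r • (1 : Matrix Y Y ℂ)).det = 0) :
    ∃ V : Matrix Y n ℂ, Vᴴ * V = 1 ∧ W * V = V * Matrix.diagonal ζ := by
  have key : ∀ r, ∃ v : Y → ℂ, star v ⬝ᵥ v = 1 ∧ W *ᵥ v = ζ r • v := by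
    intro r
    obtain ⟨v, hv, h1⟩ := Matrix.exists_mulVec_eq_zero_iff.2 (h r)
    rw [Matrix.sub_mulVec, Matrix.smul_mulVec, Matrix.one_mulVec, sub_eq_zero] at h1
    have h2 : 0 < star v ⬝ᵥ v := Matrix.dotProduct_star_self_pos_iff.2 hv
    obtain ⟨h3, h4⟩ := Complex.pos_iff.1 h2
    set q := (star v ⬝ᵥ v).re with hq
    have h5 : star v ⬝ᵥ v = (q : ℂ) := Complex.ext (by simp [hq]) (by simp [h4])
    refine ⟨((√q)⁻¹ : ℝ) • v, ?_, ?_⟩
    · rw [star_smul, smul_dotProduct, dotProduct_smul, h5, smul_smul, star_trivial, ← mul_inv,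
        Real.mul_self_sqrt h3.le, real_smul, ← ofReal_mul, inv_mul_cancel₀ h3.ne', ofReal_one]
    · rw [Matrix.mulVec_smul, h1, smul_comm]
  choose v h1 h2 using key
  refine ⟨Matrix.of fun y r => v r y, ?_, ?_⟩
  · ext r s
    change star (v r) ⬝ᵥ v s = _
    by_cases hrs : r = s
    · rw [hrs, h1, Matrix.one_apply_eq]
    · have e : star (W *ᵥ v r) ⬝ᵥ (W *ᵥ v s) = star (v r) ⬝ᵥ v s := by
        rw [Matrix.star_mulVec, Matrix.dotProduct_mulVec, Matrix.vecMul_vecMul,
          ← Matrix.star_eq_conjTranspose, hW, Matrix.vecMul_one]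
      rw [h2, h2, star_smul, smul_dotProduct, dotProduct_smul, smul_smul, smul_eq_mul] at e
      rw [Matrix.one_apply_ne hrs]
      by_contra hne
      have e2 : star (ζ r) * ζ s = 1 := mul_right_cancel₀ hne (by rw [e, one_mul])
      exact hrs (hi (mul_left_cancel₀ (left_ne_zero_of_mul_eq_one e2) ((hζ r).trans e2.symm)))
  · ext y r
    rw [Matrix.mul_diagonal, Matrix.of_apply, mul_comm]
    exact congrFun (h2 r) y

lemma entry_le_one {Y n : Type*} [Fintype Y] [Fintype n] [DecidableEq n] {V : Matrix Y n ℂ}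
    (h : Vᴴ * V = 1) (y : Y) (r : n) : ‖V y r‖ ≤ 1 := by
  have h1 := congrArg Complex.re (congrFun (congrFun h r) r)
  simp only [Matrix.mul_apply, Matrix.conjTranspose_apply, Matrix.one_apply_eq, Complex.re_sum,
    RCLike.star_def, Complex.conj_mul', one_re, ← ofReal_pow, ofReal_re] at h1
  have h2 : ‖V y r‖ ^ 2 ≤ 1 :=
    h1 ▸ Finset.single_le_sum (f := fun y => ‖V y r‖ ^ 2) (fun _ _ => sq_nonneg _) (Finset.mem_univ y)
  exact (sq_le_one_iff₀ (norm_nonneg _)).1 h2

lemma limit_fixed {X L Y : Type*} [TopologicalSpace X] [CompactSpace X] [Fintype L] [Fintype Y]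
    [DecidableEq Y] {N : ℕ} (W : L → X → Matrix Y Y ℂ) (hc : ∀ l, Continuous (W l))
    (hW : ∀ l x, star (W l x) * W l x = 1)
    (h : ∀ ζ : Fin N → ℂ, (∀ r, star (ζ r) * ζ r = 1) →
      ∃ x, ∀ l r, (W l x - ζ r • (1 : Matrix Y Y ℂ)).det = 0) :
    ∃ x, ∀ l, ∃ V : Matrix Y (Fin N) ℂ, Vᴴ * V = 1 ∧ W l x * V = V := by
  let K : Set (X × (L → Matrix Y (Fin N) ℂ)) := Set.univ ×ˢ Set.univ.pi fun _ => {V | Vᴴ * V = 1}
  have hK : IsCompact K := by
    refine isCompact_univ.prod (isCompact_univ_pi fun _ => IsCompact.of_isClosed_subset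
      (isCompact_univ_pi fun _ : Y => isCompact_univ_pi fun _ : Fin N =>
        isCompact_closedBall (0 : ℂ) 1) (isClosed_eq (by fun_prop) continuous_const) ?_)
    intro V hV i _ j _
    simpa using entry_le_one hV i j
  let f : X × (L → Matrix Y (Fin N) ℂ) → ℝ := fun p =>
    ∑ l, ∑ y, ∑ r, ‖(W l p.1 * p.2 l - p.2 l) y r‖
  have hf : Continuous f := by
    refine continuous_finsetSum _ fun l _ => continuous_finsetSum _ fun y _ =>
      continuous_finsetSum _ fun r _ => Continuous.norm (Continuous.matrix_elem ?_ y r)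
    exact (((hc l).comp continuous_fst).matrix_mul (by fun_prop)).sub (by fun_prop)
  have key : ∀ ε : ℝ, 0 < ε → ε ≤ 1 → ∃ p ∈ K, f p ≤ (Fintype.card L * Fintype.card Y * N) * ε := by
    intro ε h0 h1
    let θ : Fin N → ℝ := fun r => ε / (r + 1)
    have hθ : ∀ r, θ r ∈ Set.Icc 0 ε := fun r =>
      ⟨by positivity, div_le_self h0.le (by linarith [(Nat.cast_nonneg (r : ℕ) : (0 : ℝ) ≤ _)])⟩
    let ζ : Fin N → ℂ := fun r => Circle.exp (θ r)
    have hζ : ∀ r, star (ζ r) * ζ r = 1 := fun r => by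
      simp [ζ, ← exp_conj, ← exp_add]
    have hi : Function.Injective ζ := by
      intro r s hrs
      have := Circle.exp_injOn_Icc (a := 0) (b := ε) (by linarith [Real.pi_gt_three]) (hθ r) (hθ s)
        (Circle.ext hrs)
      simp only [θ] at this
      rw [div_eq_div_iff (by positivity) (by positivity), mul_right_inj' h0.ne', add_left_inj,
        Nat.cast_inj] at this
      exact Fin.ext this.symm
    obtain ⟨x, hx⟩ := h ζ hζ
    choose V h2 h3 using fun l => exists_eigen (hW l x) hζ hi (hx l)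
    refine ⟨(x, V), ⟨trivial, fun l _ => h2 l⟩, ?_⟩
    have : ∀ l y r, ‖(W l x * V l - V l) y r‖ ≤ ε := by
      intro l y r
      rw [h3, Matrix.sub_apply, Matrix.mul_diagonal, ← mul_sub_one, norm_mul]
      have e : ‖ζ r - 1‖ ≤ ε := by
        have := Real.norm_exp_I_mul_ofReal_sub_one_le (x := θ r)
        rw [Real.norm_of_nonneg (hθ r).1, mul_comm] at this
        exact this.trans (hθ r).2
      calc _ ≤ 1 * ε := mul_le_mul (entry_le_one (h2 l) y r) e (norm_nonneg _) zero_le_one
        _ = ε := one_mul _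
    calc f (x, V) ≤ ∑ l : L, ∑ y : Y, ∑ r : Fin N, ε :=
          Finset.sum_le_sum fun l _ => Finset.sum_le_sum fun y _ => Finset.sum_le_sum fun r _ =>
            this l y r
      _ = _ := by simp [mul_assoc]
  obtain ⟨p1, hp1, -⟩ := key 1 one_pos le_rfl
  obtain ⟨p, hp, hmin⟩ := hK.exists_isMinOn ⟨p1, hp1⟩ hf.continuousOn
  have h0 : f p ≤ 0 := by
    refine le_of_forall_pos_le_add fun η hη => ?_
    set C : ℝ := Fintype.card L * Fintype.card Y * N with hC
    have hC0 : 0 ≤ C := by positivity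
    obtain ⟨q, hq, h1⟩ := key (min 1 (η / (C + 1))) (by positivity) (min_le_left _ _)
    have h2 : f p ≤ f q := hmin hq
    have h3 : C * min 1 (η / (C + 1)) ≤ C * (η / (C + 1)) :=
      mul_le_mul_of_nonneg_left (min_le_right _ _) hC0
    have h4 : C * (η / (C + 1)) ≤ η := by
      rw [← mul_div_assoc, div_le_iff₀ (by positivity)]; nlinarith
    linarith
  refine ⟨p.1, fun l => ⟨p.2 l, hp.2 l trivial, ?_⟩⟩
  rw [← sub_eq_zero]
  ext y r
  have n1 : ∀ l y, 0 ≤ ∑ r, ‖(W l p.1 * p.2 l - p.2 l) y r‖ := fun l y => by positivity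
  have n2 : ∀ l, 0 ≤ ∑ y, ∑ r, ‖(W l p.1 * p.2 l - p.2 l) y r‖ := fun l => by positivity
  have e1 := (Finset.sum_eq_zero_iff_of_nonneg fun l _ => n2 l).1
    (le_antisymm h0 (Finset.sum_nonneg fun l _ => n2 l)) l (Finset.mem_univ _)
  have e2 := (Finset.sum_eq_zero_iff_of_nonneg fun y _ => n1 l y).1 e1 y (Finset.mem_univ _)
  have e3 := (Finset.sum_eq_zero_iff_of_nonneg fun r _ => norm_nonneg _).1 e2 r (Finset.mem_univ _)
  exact norm_eq_zero.1 e3

theorem top_fixed {J B O : Type} [Fintype J] [DecidableEq J] [Fintype B] [DecidableEq B]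
    [Fintype O] [DecidableEq O] {N : ℕ} {Λ : Type} [Ring Λ] [Algebra ℂ Λ]
    (g : Gr (Option (J × Fin N × Fin N)) Λ) (jj : B → J) (e : J → B → Option Bool)
    (ha : (Matrix.of fun l j => ∑ b, if jj b = j then sel (1 : ℂ) (-1) 0 (e l b) else 0).det ≠ 0)
    (A : J → Matrix ((Fin N × B) ⊕ O) ((Fin N × B) ⊕ O) ℂ) (hA : ∀ l, star (A l) * A l = 1) :
    ∃ x : J → unitary (Matrix (Fin N) (Fin N) ℂ), ∀ l, ∃ V : Matrix ((Fin N × B) ⊕ O) (Fin N) ℂ,
      Vᴴ * V = 1 ∧ A l * bd O (fun b => sel (star (x (jj b)).1) (x (jj b)).1 1 (e l b)) 1 * V = V := by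
  obtain ⟨D, h⟩ := exists_frame J N
  let P : J → B → Matrix (Fin N) (Fin N) (SS J (Fin N)) := fun l b =>
    sel (Mp (jj b)) (Mm (jj b)) 1 (e l b)
  let Q : J → B → Matrix (Fin N) (Fin N) (SS J (Fin N)) := fun l b =>
    sel (Mm (jj b)) (Mp (jj b)) 1 (e l b)
  let U : J → Matrix ((Fin N × B) ⊕ O) _ (SS J (Fin N)) := fun l => cM (A l) * bd O (P l) 1
  let U' : J → Matrix ((Fin N × B) ⊕ O) _ (SS J (Fin N)) := fun l => bd O (Q l) 1 * cM (star (A l))
  have hPQ : ∀ l b, P l b * Q l b = 1 := by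
    intro l b
    simp only [P, Q]
    rcases e l b with _ | _ | _ <;> simp [sel, Mp_Mm, Mm_Mp]
  have hU : ∀ l, U l * U' l = 1 := by
    intro l
    simp only [U, U']
    rw [mul_assoc, ← mul_assoc (bd _ _ _), bd_mul]
    simp only [hPQ, mul_one, bd_one, one_mul, ← map_mul, mul_eq_one_comm.1 (hA l), map_one]
  have hev : ∀ l z, (evz z).mapMatrix (U l) =
      A l * bd O (fun b => sel (star (z.1 (jj b)).1) (z.1 (jj b)).1 1 (e l b)) 1 := by
    intro l z
    simp only [U]
    rw [map_mul, evz_cM, AlgHom.mapMatrix_apply, bd_map _ _ _ (map_zero _), map_one]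
    congr 2
    funext b
    simp only [P]
    rcases e l b with _ | _ | _
    · simp [sel]
    · exact evz_Mm _ _
    · exact evz_Mp _ _
  have hst : ∀ l z, (evz z).mapMatrix (U' l) = star ((evz z).mapMatrix (U l)) := by
    intro l z
    rw [hev, star_mul, bd_star, star_one]
    simp only [U']
    rw [map_mul, evz_cM, AlgHom.mapMatrix_apply, bd_map _ _ _ (map_zero _), map_one]
    congr 2
    funext b
    simp only [Q]
    rcases e l b with _ | _ | _
    · simp [sel]
    · exact evz_Mp _ _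
    · simp only [sel, star_star]; exact evz_Mm _ _
  have hl := dE_lb g (del_lb g) D
  refine limit_fixed (X := UX J (Fin N)) (fun l x => A l * bd O
    (fun b => sel (star (x (jj b)).1) (x (jj b)).1 1 (e l b)) 1) (fun l => ?_) (fun l x => ?_)
    fun ζ hζ => ?_
  · have : (fun x : UX J (Fin N) => A l * bd O (fun b =>
        sel (star (x (jj b)).1) (x (jj b)).1 1 (e l b)) 1) =
        fun x => (evz (x, 0)).mapMatrix (U l) := funext fun x => (hev l (x, 0)).symm
    rw [this]
    exact continuous_matrix fun i j => (SS_cont (U l i j)).comp (Continuous.prodMk_left 0)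
  · rw [← hev l (x, 0), ← hst, ← map_mul, mul_eq_one_comm.1 (hU l), map_one]
  · refine (h.cover g U U' hU hst _ ha (fun l k => ?_) ζ hζ).imp
      fun x hx l r => by rw [← hev l (x, 1)]; exact hx l r
    have e1 : (dE g (del g) D).mapMatrix (inj.mapMatrix (cM (A l))) = 0 := by
      ext a b
      exact (congrArg _ ((inj : _ →ₐ[ℂ] RR J N Λ).commutes (A l a b))).trans (hl.alg _)
    simp only [U, U']
    rw [map_mul, map_mul, hl.mat, e1, P_inj, zero_mul, zero_add, mul_assoc, ← mul_assoc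
      (inj.mapMatrix (cM _)), ← map_mul, ← map_mul, hA, map_one, map_one, one_mul,
      AlgHom.mapMatrix_apply, AlgHom.mapMatrix_apply, LinearMap.mapMatrix_apply,
      bd_map _ _ _ (map_zero _), bd_map _ _ _ (map_zero _), bd_map _ _ _ (map_zero _), map_one,
      hl.one, bd_mul, bd_pow, mul_zero, zero_pow (by omega), bd_trace]
    simp only [Matrix.of_apply, Finset.sum_smul, ite_smul, zero_smul]
    rw [Finset.sum_comm, map_sum]
    refine Finset.sum_congr rfl fun b _ => ?_
    rw [Finset.sum_ite_eq, if_pos (Finset.mem_univ _), ← AlgHom.mapMatrix_apply,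
      ← AlgHom.mapMatrix_apply, ← LinearMap.mapMatrix_apply]
    have e2 : incl (om g (jj b) k) =
        ((incl.mapMatrix (xi g (jj b)) : Matrix _ _ (RR J N _)) ^ (2 * k + 1)).trace := by
      rw [om, alg_trace, map_pow]
    simp only [P, Q]
    rcases e l b with _ | _ | _
    · simp [sel, hl.mat.one]
    · simp only [sel]
      rw [h.dMm, neg_one_smul, map_neg, e2]
      exact (g.toSAlg.tens _).tr_conj_neg (P_inj g _) (by rw [← map_mul, Mp_Mm, map_one])
        (by rw [← map_mul, Mm_Mp, map_one]) _ k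
    · simp only [sel]
      rw [h.dMp, ← mul_assoc, ← map_mul, Mm_Mp, map_one, one_mul, one_smul, e2]

end Vale.Agent.P174
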