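import Vale.Agent.P174.Tens

/-! The transgression formula for the primitive forms. -/

namespace Vale.Agent.P174

open scoped TensorProduct
open MvPolynomial

set_option linter.unusedSectionVars false
set_option linter.unusedSimpArgs false

abbrev S2 := MvPolynomial (Fin 2) ℂ

/-- Integration over the unit square. -/
noncomputable def intg : S2 →ₗ[ℂ] ℂ :=
  (basisMonomials (Fin 2) ℂ).constr ℂ fun s => 1 / (((s 0 : ℂ) + 1) * ((s 1 : ℂ) + 1))

lemma XX_eq (s : Fin 2 →₀ ℕ) : (monomial s (1 : ℂ) : S2) = X 0 ^ s 0 * X 1 ^ s 1 := by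
  rw [monomial_eq, Finsupp.prod_fintype _ _ (by simp)]
  simp

lemma intg_XX (i j : ℕ) : intg (X 0 ^ i * X 1 ^ j) = 1 / (((i : ℂ) + 1) * ((j : ℂ) + 1)) := by
  have := XX_eq (Finsupp.equivFunOnFinite.symm ![i, j])
  simp only [Finsupp.equivFunOnFinite_symm_apply_apply, Matrix.cons_val_zero, Matrix.cons_val_one] at this
  have h2 := (basisMonomials (Fin 2) ℂ).constr_basis ℂ
    (fun s => 1 / (((s 0 : ℂ) + 1) * ((s 1 : ℂ) + 1))) (Finsupp.equivFunOnFinite.symm ![i, j])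
  rw [coe_basisMonomials] at h2
  rw [← this, intg, h2]
  simp

lemma intg_X0 (i : ℕ) : intg (X 0 ^ i) = 1 / ((i : ℂ) + 1) := by
  simpa using intg_XX i 0

lemma intg_X1 (i : ℕ) : intg (X 1 ^ i) = 1 / ((i : ℂ) + 1) := by
  simpa using intg_XX 0 i

lemma S2_ext {f g : S2 →ₗ[ℂ] ℂ} (h : ∀ i j, f (X 0 ^ i * X 1 ^ j) = g (X 0 ^ i * X 1 ^ j)) :
    f = g := by
  refine (basisMonomials (Fin 2) ℂ).ext fun s => ?_
  rw [coe_basisMonomials]
  simp only [XX_eq, h]

noncomputable def sb0 (c : ℂ) : S2 →ₐ[ℂ] S2 := aeval ![C c, X 1]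
noncomputable def sb1 (c : ℂ) : S2 →ₐ[ℂ] S2 := aeval ![X 0, C c]

lemma green0 : intg ∘ₗ (pderiv 0 : Derivation ℂ S2 S2).toLinearMap =
    intg ∘ₗ (sb0 1).toLinearMap - intg ∘ₗ (sb0 0).toLinearMap := by
  refine S2_ext fun i j => ?_
  have hj : (j : ℂ) + 1 ≠ 0 := Nat.cast_add_one_ne_zero j
  cases i with
  | zero => simp [sb0]
  | succ i =>
    have hi : (i : ℂ) + 1 ≠ 0 := Nat.cast_add_one_ne_zero i
    have e : (pderiv 0 : Derivation ℂ S2 S2) (X 0 ^ (i + 1) * X 1 ^ j) =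
        ((i : ℂ) + 1) • (X 0 ^ i * X 1 ^ j) := by
      simp [Derivation.leibniz_pow, smul_eq_C_mul]
      ring
    simp only [LinearMap.comp_apply, Derivation.coeFn_coe, e, map_smul, intg_XX]
    simp [sb0, intg_X1]
    field_simp

lemma green1 : intg ∘ₗ (pderiv 1 : Derivation ℂ S2 S2).toLinearMap =
    intg ∘ₗ (sb1 1).toLinearMap - intg ∘ₗ (sb1 0).toLinearMap := by
  refine S2_ext fun i j => ?_
  have hi : (i : ℂ) + 1 ≠ 0 := Nat.cast_add_one_ne_zero i
  cases j with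
  | zero => simp [sb1]
  | succ j =>
    have hj : (j : ℂ) + 1 ≠ 0 := Nat.cast_add_one_ne_zero j
    have e : (pderiv 1 : Derivation ℂ S2 S2) (X 0 ^ i * X 1 ^ (j + 1)) =
        ((j : ℂ) + 1) • (X 0 ^ i * X 1 ^ j) := by
      simp [Derivation.leibniz_pow, smul_eq_C_mul]
      ring
    simp only [LinearMap.comp_apply, Derivation.coeFn_coe, e, map_smul, intg_XX]
    simp [sb1, intg_X0]
    field_simp

lemma intg_beta (b : ℕ) : ∀ a : ℕ, intg (X 0 ^ a * (1 - X 0) ^ b) =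
    (a.factorial : ℂ) * b.factorial / (a + b + 1).factorial := by
  induction b with
  | zero =>
    intro a
    have h1 : (a.factorial : ℂ) ≠ 0 := by exact_mod_cast a.factorial_ne_zero
    have hi : (a : ℂ) + 1 ≠ 0 := Nat.cast_add_one_ne_zero a
    simp [intg_X0, Nat.factorial_succ]
    field_simp
  | succ b ih =>
    intro a
    have e : (X 0 ^ a * (1 - X 0) ^ (b + 1) : S2) =
        X 0 ^ a * (1 - X 0) ^ b - X 0 ^ (a + 1) * (1 - X 0) ^ b := by ring
    rw [e, map_sub, ih, ih, show a + 1 + b + 1 = (a + b + 1) + 1 by ring,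
      show a + (b + 1) + 1 = (a + b + 1) + 1 by ring, Nat.factorial_succ (a + b + 1),
      Nat.factorial_succ a, Nat.factorial_succ b]
    have h1 : ((a + b + 1).factorial : ℂ) ≠ 0 := by exact_mod_cast Nat.factorial_ne_zero _
    have h2 : ((a + b + 1 + 1 : ℕ) : ℂ) ≠ 0 := Nat.cast_ne_zero.2 (Nat.succ_ne_zero _)
    push_cast at h2 ⊢
    field_simp
    ring

lemma intg_ne (k : ℕ) : intg ((X 0 * X 0 - X 0) ^ k) ≠ 0 := by
  have e : ((X 0 * X 0 - X 0) ^ k : S2) = ((-1 : ℂ) ^ k) • (X 0 ^ k * (1 - X 0) ^ k) := by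
    rw [← mul_pow, ← smul_pow]
    congr 1
    simp
    ring
  rw [e, map_smul, intg_beta]
  have h1 : ((k + k + 1).factorial : ℂ) ≠ 0 := by exact_mod_cast Nat.factorial_ne_zero _
  have h2 : (k.factorial : ℂ) ≠ 0 := by exact_mod_cast Nat.factorial_ne_zero _
  simp [h1, h2]

section hd
variable {n : Type} [Fintype n] [DecidableEq n] {Λ : Type} [Ring Λ] [Algebra ℂ Λ]
variable {T : Type} [CommRing T] [Algebra ℂ T]

/-- Diagonal part times `p` plus off-diagonal part times `q`. -/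
def hd (p q : T) (X : Matrix n n Λ) : Matrix n n (Λ ⊗[ℂ] T) :=
  Matrix.of fun a b => X a b ⊗ₜ (if a = b then p else q)

lemma hd_apply (p q : T) (X : Matrix n n Λ) (a b : n) :
    hd p q X a b = X a b ⊗ₜ (if a = b then p else q) := rfl

lemma hd_rT (p q : T) (X : Matrix n n Λ) (d : Λ →ₗ[ℂ] Λ) :
    (d.rTensor T).mapMatrix (hd p q X) = hd p q (d.mapMatrix X) := by
  ext a b; simp [hd_apply]

lemma hd_lT (p q : T) (X : Matrix n n Λ) (d : T →ₗ[ℂ] T) :
    (d.lTensor Λ).mapMatrix (hd p q X) = hd (d p) (d q) X := by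
  ext a b; simp [hd_apply, apply_ite d]

lemma hd_map (p q : T) (X : Matrix n n Λ) (P : Λ →ₐ[ℂ] Λ) (φ : T →ₐ[ℂ] T) :
    (Algebra.TensorProduct.map P φ).mapMatrix (hd p q X) = hd (φ p) (φ q) (P.mapMatrix X) := by
  ext a b; simp [hd_apply, apply_ite φ]

lemma hd_neg (p q : T) (X : Matrix n n Λ) : hd p q (-X) = - hd p q X := by
  ext a b; simp [hd_apply, TensorProduct.neg_tmul]

lemma hd_zero (p q : T) : hd p q (0 : Matrix n n Λ) = 0 := by
  ext a b; simp [hd_apply]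

lemma hd_zero' (X : Matrix n n Λ) : hd (0 : T) 0 X = 0 := by
  ext a b; simp [hd_apply]

lemma hd_mul (p q : T) (X Y : Matrix n n Λ) : hd p p X * hd q q Y = hd (p * q) (p * q) (X * Y) := by
  ext a b; simp [hd_apply, Matrix.mul_apply, TensorProduct.sum_tmul]

lemma hd_pow (p : T) (X : Matrix n n Λ) (k : ℕ) : hd p p X ^ k = hd (p ^ k) (p ^ k) (X ^ k) := by
  induction k with
  | zero =>
    ext a b
    simp only [pow_zero, hd_apply, ite_self, Matrix.one_apply]
    split_ifs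
    · rfl
    · simp
  | succ k ih => rw [pow_succ, ih, hd_mul, pow_succ, pow_succ]

lemma hd_trace (p q : T) (X : Matrix n n Λ) : (hd p q X).trace = X.trace ⊗ₜ p := by
  simp [Matrix.trace, hd_apply, TensorProduct.sum_tmul]

lemma hd_diag (p : T) (X : Matrix n n Λ) : hd p 0 X = Matrix.diagonal fun a => X a a ⊗ₜ p := by
  ext a b
  rw [hd_apply, Matrix.diagonal_apply]
  split_ifs with h
  · rw [h]
  · simp

lemma fn_lT (φ : T →ₗ[ℂ] ℂ) (D : T →ₗ[ℂ] T) (a : Λ ⊗[ℂ] T) :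
    fn φ (D.lTensor Λ a) = fn (φ ∘ₗ D) a := by
  induction a with
  | zero => simp
  | add x y hx hy => simp only [map_add, hx, hy]
  | tmul a s => simp

lemma fn_sub_comp (φ : T →ₗ[ℂ] ℂ) (p q : T →ₐ[ℂ] T) (a : Λ ⊗[ℂ] T) :
    fn (φ ∘ₗ p.toLinearMap - φ ∘ₗ q.toLinearMap) a =
      fn φ (Algebra.TensorProduct.map (AlgHom.id ℂ Λ) p a) -
      fn φ (Algebra.TensorProduct.map (AlgHom.id ℂ Λ) q a) := by
  induction a with
  | zero => simp
  | add x y hx hy => simp only [map_add, hx, hy]; abel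
  | tmul a s => simp [sub_smul]

end hd

section gl
variable {J n : Type} [Fintype J] [DecidableEq J] [Fintype n] [DecidableEq n]
variable {Λ : Type} [Ring Λ] [Algebra ℂ Λ] (g : Gr (Option (J × n × n)) Λ)

/-- The primitive forms. -/
def om (j : J) (k : ℕ) : Λ := (xi g j ^ (2 * k + 1)).trace
/-- The diagonal generators. -/
def zz (j : J) (a : n) : Λ := g.c (some (j, a, a))
/-- The torus curvatures. -/
def kap (j : J) (a : n) : Λ := (xi g j * xi g j) a a

noncomputable def bb (j : J) (k : ℕ) (p q p' q' : S2) : Λ ⊗[ℂ] S2 :=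
  (hd p' q' (xi g j) * (-hd p q (xi g j * xi g j) + hd p q (xi g j) * hd p q (xi g j)) ^ k).trace

lemma bb_map (j : J) (k : ℕ) (p q p' q' : S2) (φ : S2 →ₐ[ℂ] S2) :
    Algebra.TensorProduct.map (AlgHom.id ℂ Λ) φ (bb g j k p q p' q') =
      bb g j k (φ p) (φ q) (φ p') (φ q') := by
  have e : ∀ X : Matrix n n Λ, (AlgHom.id ℂ Λ).mapMatrix X = X := fun X => by ext; simp
  rw [bb, alg_trace]
  simp only [map_mul, map_pow, map_add, map_neg, hd_map, e, bb]

lemma bb_one (j : J) (k : ℕ) (p : S2) : bb g j k p p 1 1 = om g j k ⊗ₜ ((p * p - p) ^ k) := by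
  have : -hd p p (xi g j * xi g j) + hd p p (xi g j) * hd p p (xi g j) =
      hd (p * p - p) (p * p - p) (xi g j * xi g j) := by
    rw [hd_mul]
    ext a b
    simp [hd_apply, TensorProduct.tmul_sub]
    abel
  rw [bb, this, hd_pow, hd_mul, hd_trace, one_mul, om, pow_succ', pow_mul, pow_two]

lemma bb_diag (j : J) (k : ℕ) (p : S2) :
    bb g j k p 0 1 0 = (∑ a, zz g j a * (-kap g j a) ^ k) ⊗ₜ (p ^ k) := by
  have : -hd p 0 (xi g j * xi g j) + hd p 0 (xi g j) * hd p 0 (xi g j) =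
      Matrix.diagonal fun a => (-kap g j a) ⊗ₜ p := by
    simp only [hd_diag, Matrix.diagonal_mul_diagonal, Matrix.diagonal_neg, Matrix.diagonal_add,
      Algebra.TensorProduct.tmul_mul_tmul, xi_apply, g.odd_sq (g.Pc _)]
    simp [kap, TensorProduct.neg_tmul]
  rw [bb, this, hd_diag, Matrix.diagonal_pow, Matrix.diagonal_mul_diagonal, Matrix.trace_diagonal,
    TensorProduct.sum_tmul]
  refine Finset.sum_congr rfl fun a _ => ?_
  simp [Algebra.TensorProduct.tmul_pow, zz, xi_apply]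

lemma bb_free (j : J) (k : ℕ) (q q' : S2) (j' : J) (c : n) :
    (g.I (some (j', c, c))).rTensor S2 (bb g j k 1 q 0 q') = 0 := by
  set x : Option (J × n × n) := some (j', c, c) with hx
  set IM : Matrix n n (Λ ⊗[ℂ] S2) →ₗ[ℂ] Matrix n n (Λ ⊗[ℂ] S2) :=
    ((g.I x).rTensor S2).mapMatrix with hIM
  have hl : Lb (g.toSAlg.tens S2).P.mapMatrix IM := ((g.Imul x).rT g.toSAlg).mat
  set e : n → Λ := fun a => if x = some (j, a, a) then 1 else 0 with he
  have hE : (g.I x).mapMatrix (xi g j) = Matrix.diagonal e := by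
    ext a b
    simp only [LinearMap.mapMatrix_apply, Matrix.map_apply, xi_apply, g.Ic, Matrix.diagonal_apply,
      he, hx, Option.some.injEq, Prod.mk.injEq]
    by_cases h : a = b
    · simp [h]
    · rw [if_neg h, if_neg]
      rintro ⟨-, rfl, rfl⟩
      exact h rfl
  have h1 : IM (hd 0 q' (xi g j)) = 0 := by
    rw [hIM, hd_rT, hE]
    ext a b
    by_cases h : a = b <;> simp [hd_apply, h]
  have h2 : IM (-hd 1 q (xi g j * xi g j) + hd 1 q (xi g j) * hd 1 q (xi g j)) = 0 := by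
    have hP : (g.toSAlg.tens S2).P.mapMatrix (hd 1 q (xi g j)) = - hd 1 q (xi g j) := by
      rw [← hd_neg, ← P_xi]
      exact hd_map _ _ _ _ _
    have hE' : hd 1 q (Matrix.diagonal e) = Matrix.diagonal fun a => e a ⊗ₜ 1 := by
      ext a b
      by_cases h : a = b <;> simp [hd_apply, h]
    rw [map_add, map_neg, hl, hP, hIM, hd_rT, hd_rT, (g.Imul x).mat, hE, P_xi, hE']
    ext a b
    simp [hd_apply, TensorProduct.add_tmul, TensorProduct.neg_tmul]
  rw [bb, map_trace', ← hIM, hl, h1, hl.pow_closed h2]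
  simp

theorem transgression (j : J) (k : ℕ) : ∃ β γ : Λ, (∀ j' c, g.I (some (j', c, c)) β = 0) ∧
    intg ((X 0 * X 0 - X 0) ^ k) • om g j k =
      (1 / ((k : ℂ) + 1)) • (∑ a, zz g j a * (-kap g j a) ^ k) + β + del g γ := by
  set D₁ : Λ ⊗[ℂ] S2 →ₗ[ℂ] Λ ⊗[ℂ] S2 := (pderiv 0 : Derivation ℂ S2 S2).toLinearMap.lTensor Λ
    with hD₁
  set D₂ : Λ ⊗[ℂ] S2 →ₗ[ℂ] Λ ⊗[ℂ] S2 := (pderiv 1 : Derivation ℂ S2 S2).toLinearMap.lTensor Λ
    with hD₂
  have hP : (g.toSAlg.tens S2).P.mapMatrix (hd (X 0 : S2) (X 0 * X 1) (xi g j)) =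
      - hd (X 0) (X 0 * X 1) (xi g j) := by
    rw [← hd_neg, ← P_xi]
    exact hd_map _ _ _ _ _
  obtain ⟨e, he⟩ := (g.toSAlg.tens S2).green (d := (del g).rTensor S2) (D₁ := D₁) (D₂ := D₂)
    ((del_lb g).rT g.toSAlg) (par_rT _ (del_par g)) (lb_lT _) (lb_lT _) (lT_rT _ _) (lT_rT _ _)
    (par_lT _ _) (par_lT _ _) hP
    (by rw [hd_rT, hd_rT, del_xi, map_neg, del_xi_sq, neg_zero, hd_zero])
    (by simp only [hD₁, hD₂, hd_lT]; simp) k
  rw [hd_rT, del_xi, hd_neg] at he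
  simp only [hD₁, hD₂, hd_lT] at he
  have h2 := congrArg (fn intg) he
  rw [map_sub, fn_lT, fn_lT, green0, green1, fn_sub_comp, fn_sub_comp, fn_rT] at h2
  simp only [← bb.eq_1, bb_map] at h2
  simp only [sb0, sb1, Derivation.coeFn_coe, Derivation.leibniz, pderiv_X, map_mul, aeval_X] at h2
  simp only [Pi.single_eq_same, Fin.isValue, ne_eq, zero_ne_one, not_false_eq_true, one_ne_zero,
    Pi.single_eq_of_ne, Matrix.cons_val_zero, Matrix.cons_val_one, map_one, map_zero, one_mul,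
    mul_one, mul_zero, zero_mul, smul_eq_mul, add_zero, zero_add, aeval_X] at h2
  refine ⟨fn intg (bb g j k 1 (X 1) 0 1), - fn intg e, fun j' c => ?_, ?_⟩
  · rw [← fn_rT, bb_free, map_zero]
  · rw [bb_one, bb_diag, fn_tmul, fn_tmul, intg_X0] at h2
    have h3 : bb g j k 0 0 0 0 = 0 := by simp [bb, hd_zero']
    rw [h3, map_zero] at h2
    rw [map_neg, ← h2]
    abel

end gl

end Vale.Agent.P174
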