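import Vale.Agent.P174.Calc
import Vale.Agent.P174.Phase

/-! Invariant derivations on products of unitary groups. -/

namespace Vale.Agent.P174

open scoped TensorProduct ContDiff
open MeasureTheory Complex

set_option linter.unusedSectionVars false
set_option linter.unusedSimpArgs false

instance unitCompact (n : Type) [Fintype n] [DecidableEq n] :
    CompactSpace (unitary (Matrix n n ℂ)) := by
  refine isCompact_iff_compactSpace.1 (IsCompact.of_isClosed_subset
    (isCompact_univ_pi fun _ : n => isCompact_univ_pi fun _ : n =>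
      isCompact_closedBall (0 : ℂ) 1) isClosed_unitary ?_)
  intro U hU i _ j _
  simpa using entry_norm_bound_of_unitary hU i j

variable (J n : Type) [Fintype J] [DecidableEq J] [Fintype n] [DecidableEq n]

abbrev UX := J → unitary (Matrix n n ℂ)

noncomputable instance : MeasurableSpace (UX J n) := borel _
instance : BorelSpace (UX J n) := ⟨rfl⟩

def gens : Set (UX J n × ℝ → ℂ) :=
  {f | (∃ j a b, f = fun z => (z.1 j : Matrix n n ℂ) a b) ∨
    (∃ j a b, f = fun z => star (z.1 j : Matrix n n ℂ) a b) ∨ f = fun z => (z.2 : ℂ)}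

abbrev SS := SmA (gens J n)

variable {J n}

def Mm (j : J) : Matrix n n (SS J n) :=
  Matrix.of fun a b => ⟨fun z => (z.1 j : Matrix n n ℂ) a b, Sm.gen (Or.inl ⟨j, a, b, rfl⟩)⟩
def Mp (j : J) : Matrix n n (SS J n) :=
  Matrix.of fun a b => ⟨fun z => star (z.1 j : Matrix n n ℂ) a b,
    Sm.gen (Or.inr (Or.inl ⟨j, a, b, rfl⟩))⟩
def sv : SS J n := ⟨fun z => (z.2 : ℂ), Sm.gen (Or.inr (Or.inr rfl))⟩

def evz (z : UX J n × ℝ) : SS J n →ₐ[ℂ] ℂ := (Pi.evalAlgHom ℂ _ z).comp (Subalgebra.val _)

lemma evz_apply (z : UX J n × ℝ) (f : SS J n) : evz z f = f.1 z := rfl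

lemma evz_Mm (z : UX J n × ℝ) (j : J) : (evz z).mapMatrix (Mm j) = z.1 j := rfl
lemma evz_Mp (z : UX J n × ℝ) (j : J) : (evz z).mapMatrix (Mp j) = star (z.1 j : Matrix n n ℂ) := rfl
lemma evz_sv (z : UX J n × ℝ) : evz z sv = z.2 := rfl

lemma SS_ext {f g : SS J n} (h : ∀ z, evz z f = evz z g) : f = g := Subtype.ext (funext h)

lemma SS_mat_ext {Y : Type*} [Fintype Y] [DecidableEq Y] {A B : Matrix Y Y (SS J n)}
    (h : ∀ z, (evz z).mapMatrix A = (evz z).mapMatrix B) : A = B := by
  ext a b : 1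
  exact SS_ext fun z => congrFun (congrFun (h z) a) b

lemma Mp_Mm (j : J) : Mp j * Mm j = (1 : Matrix n n (SS J n)) :=
  SS_mat_ext fun z => by rw [map_mul, map_one, evz_Mm, evz_Mp]; exact (z.1 j).2.1

lemma Mm_Mp (j : J) : Mm j * Mp j = (1 : Matrix n n (SS J n)) :=
  SS_mat_ext fun z => by rw [map_mul, map_one, evz_Mm, evz_Mp]; exact (z.1 j).2.2

lemma SS_cont (f : SS J n) : Continuous f.1 := by
  refine Sm.continuous ?_ f.2
  have h : ∀ j, Continuous fun z : UX J n × ℝ => (z.1 j : Matrix n n ℂ) := fun j =>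
    continuous_subtype_val.comp ((continuous_apply j).comp continuous_fst)
  rintro f (⟨j, a, b, rfl⟩ | ⟨j, a, b, rfl⟩ | rfl)
  · exact (h j).matrix_elem a b
  · exact (h j).star.matrix_elem a b
  · exact Complex.continuous_ofReal.comp continuous_snd

/-- Constant matrices. -/
noncomputable def cM {Y : Type*} [Fintype Y] [DecidableEq Y] :
    Matrix Y Y ℂ →ₐ[ℂ] Matrix Y Y (SS J n) := (Algebra.ofId ℂ (SS J n)).mapMatrix

lemma evz_cM {Y : Type*} [Fintype Y] [DecidableEq Y] (z : UX J n × ℝ) (A : Matrix Y Y ℂ) :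
    (evz z).mapMatrix (cM A) = A := by
  ext a b
  exact (evz z).commutes _

/-- The properties of the invariant derivation attached to `Y`. -/
structure GoodD (Y : J → Matrix n n ℂ) (D : Derivation ℂ (SS J n) (SS J n)) : Prop where
  chain : Chain D
  mp : ∀ j a b, D (Mp j a b) = (Mp j * cM (Y j) : Matrix n n (SS J n)) a b
  mm : ∀ j a b, D (Mm j a b) = -(cM (Y j) * Mm j : Matrix n n (SS J n)) a b
  sv : D sv = 0
  int : ∀ f (s : ℝ), ∫ x, (D f).1 (x, s) ∂Measure.haar = 0

lemma SS_int (f : SS J n) (s : ℝ) : Integrable (fun x => f.1 (x, s)) Measure.haar :=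
  ((SS_cont f).comp (Continuous.prodMk_left s)).integrable_of_hasCompactSupport
    (HasCompactSupport.of_compactSpace _)

lemma GoodD.add {Y Y' : J → Matrix n n ℂ} {D D'} (h : GoodD Y D) (h' : GoodD Y' D') :
    GoodD (Y + Y') (D + D') where
  chain := h.chain.add h'.chain
  mp j a b := by simp [h.mp, h'.mp, mul_add]
  mm j a b := by simp [h.mm, h'.mm, add_mul, add_comm]
  sv := by simp [h.sv, h'.sv]
  int f s := by
    have := integral_add (SS_int (D f) s) (SS_int (D' f) s)
    rw [h.int, h'.int, add_zero] at this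
    exact this

lemma GoodD.smul {Y : J → Matrix n n ℂ} {D} (h : GoodD Y D) (c : ℂ) : GoodD (c • Y) (c • D) where
  chain := h.chain.smul c
  mp j a b := by simp [h.mp]
  mm j a b := by simp [h.mm]
  sv := by simp [h.sv]
  int f s := by
    have := integral_const_mul (μ := Measure.haar) c fun x => (D f).1 (x, s)
    rw [h.int, mul_zero] at this
    exact this

lemma GoodD.zero : GoodD (0 : J → Matrix n n ℂ) 0 where
  chain := Chain.zero
  mp j a b := by simp
  mm j a b := by simp
  sv := by simp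
  int f s := by simp

lemma pth_one_add {A : Type*} [Ring A] [Algebra ℂ A] {p : A} (hp : p * p = p) (s t : ℝ) :
    pth 1 p (s + t) = pth 1 p s * pth 1 p t := by
  simp only [pth, one_mul, add_mul, mul_add, mul_one, smul_mul_assoc, mul_smul_comm, hp,
    ofReal_add, exp_add]
  module

lemma exists_good_proj (p : J → Matrix n n ℂ) (hp : ∀ j, p j * p j = p j)
    (hs : ∀ j, star (p j) = p j) : ∃ D, GoodD p D := by
  let E : ℝ → UX J n := fun t j => ⟨pth 1 (p j) (-t), pth_unitary (one_mem _) (hp j) (hs j) _⟩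
  let φ : ℝ → UX J n × ℝ → UX J n × ℝ := fun t z => (E t * z.1, z.2)
  have hE0 : E 0 = 1 := by
    funext j; apply Subtype.ext; simp [E, pth]
  have hEa : ∀ s t, E (s + t) = E s * E t := by
    intro s t
    funext j; apply Subtype.ext
    simp only [E, neg_add, pth_one_add (hp j)]
    rfl
  have hEc : Continuous E := by
    refine continuous_pi fun j => Continuous.subtype_mk ?_ _
    simp only [pth]
    fun_prop
  have hex : HasDerivAt (fun t : ℝ => exp (((-t : ℝ) : ℂ) * I) - 1) (-I) 0 := by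
    have h1 := (hasDerivAt_expI (-0)).scomp (0 : ℝ) (hasDerivAt_neg (0 : ℝ))
    refine HasDerivAt.congr_deriv (h1.sub_const 1) ?_
    simp
  have d1 : ∀ j a b z, HasDerivAt (fun t => (Mm j a b).1 (φ t z))
      (((-I) • (cM (p j) * Mm j : Matrix n n (SS J n)) a b : SS J n).1 z) 0 := by
    intro j a b z
    have e : (fun t => (Mm j a b).1 (φ t z)) = fun t : ℝ => (z.1 j : Matrix n n ℂ) a b +
        (exp (((-t : ℝ) : ℂ) * I) - 1) * (p j * z.1 j : Matrix n n ℂ) a b := by
      funext t
      change (pth 1 (p j) (-t) * z.1 j : Matrix n n ℂ) a b = _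
      simp only [pth, one_mul, add_mul, smul_mul_assoc, Matrix.add_apply, Matrix.smul_apply,
        smul_eq_mul]
    rw [e]
    refine HasDerivAt.congr_deriv ((hex.mul_const _).const_add _) ?_
    rw [← evz_apply, map_smul, smul_eq_mul]
    congr 1
    have := (evz z).mapMatrix.map_mul (cM (p j)) (Mm j)
    simp only [AlgHom.toRingHom_eq_coe, RingHom.coe_coe, evz_cM, evz_Mm] at this
    exact (congrFun (congrFun this a) b).symm
  have d2 : ∀ j a b z, HasDerivAt (fun t => (Mp j a b).1 (φ t z))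
      ((I • (Mp j * cM (p j) : Matrix n n (SS J n)) a b : SS J n).1 z) 0 := by
    intro j a b z
    have e : (fun t => (Mp j a b).1 (φ t z)) = fun t : ℝ => star (z.1 j : Matrix n n ℂ) a b +
        star (exp (((-t : ℝ) : ℂ) * I) - 1) * (star (z.1 j : Matrix n n ℂ) * p j) a b := by
      funext t
      change star (pth 1 (p j) (-t) * z.1 j : Matrix n n ℂ) a b = _
      simp only [pth, one_mul, add_mul, smul_mul_assoc, star_add, star_smul, star_mul, hs,
        Matrix.add_apply, Matrix.smul_apply, smul_eq_mul]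
    rw [e]
    refine HasDerivAt.congr_deriv ((hex.star.mul_const _).const_add _) ?_
    rw [← evz_apply, map_smul, smul_eq_mul]
    congr 1
    · simp
    have := (evz z).mapMatrix.map_mul (Mp j) (cM (p j))
    simp only [AlgHom.toRingHom_eq_coe, RingHom.coe_coe, evz_cM, evz_Mp] at this
    exact (congrFun (congrFun this a) b).symm
  have d3 : ∀ z, HasDerivAt (fun t => (sv : SS J n).1 (φ t z)) ((0 : SS J n).1 z) 0 :=
    fun z => hasDerivAt_const (0 : ℝ) (z.2 : ℂ)
  have hF : Flow (gens J n) φ := by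
    refine ⟨fun z => by simp [φ, hE0], ?_⟩
    rintro f (⟨j, a, b, rfl⟩ | ⟨j, a, b, rfl⟩ | rfl)
    · exact ⟨_, Subtype.property _, d1 j a b⟩
    · exact ⟨_, Subtype.property _, d2 j a b⟩
    · exact ⟨_, Subtype.property _, d3⟩
  refine ⟨(-I) • hF.der, hF.chain.smul _, fun j a b => ?_, fun j a b => ?_, ?_, fun f s => ?_⟩
  · rw [Derivation.smul_apply, hF.der_eq (d2 j a b), smul_smul]; simp
  · rw [Derivation.smul_apply, hF.der_eq (d1 j a b), smul_smul]; simp
  · rw [Derivation.smul_apply, hF.der_eq d3, smul_zero]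
  · have hφ : ∀ s t z, φ (s + t) z = φ s (φ t z) := by
      intro s t z; simp [φ, hEa, mul_assoc]
    have h1 := integral_sub_eq (Measure.haar : Measure (UX J n))
      (f := fun t x => f.1 (φ t (x, s))) (f' := fun t x => (hF.der f).1 (φ t (x, s)))
      (fun t => (SS_cont f).comp (by simp only [φ]; fun_prop))
      ((SS_cont _).comp (by simp only [φ]; fun_prop)) (fun t x => hF.der_at hφ f (x, s) t)
    have h2 : ∀ (f : SS J n) t, ∫ x, f.1 (φ t (x, s)) ∂Measure.haar =
        ∫ x, f.1 (x, s) ∂Measure.haar := fun f t =>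
      integral_mul_left_eq_self (fun x => f.1 (x, s)) (E t)
    simp only [h2, sub_self, intervalIntegral.integral_const, sub_zero, one_smul] at h1
    have := integral_const_mul (μ := Measure.haar) (-I) fun x => (hF.der f).1 (x, s)
    rw [← h1, mul_zero] at this
    exact this

lemma exists_good_single (j : J) (a b : n) : ∃ D, GoodD (Pi.single j (Matrix.single a b 1)) D := by
  have key : ∀ p : Matrix n n ℂ, p * p = p → star p = p → ∃ D, GoodD (Pi.single j p) D := by
    intro p h1 h2
    refine exists_good_proj _ (fun j' => ?_) fun j' => ?_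
    · by_cases h : j' = j
      · subst h; simpa using h1
      · simp [h]
    · by_cases h : j' = j
      · subst h; simpa using h2
      · simp [h]
  have hd : ∀ c : n, ∃ D, GoodD (Pi.single j (Matrix.single c c (1 : ℂ))) D := fun c =>
    key _ (by simp) (by simp [Matrix.star_eq_conjTranspose])
  by_cases hab : a = b
  · subst hab; exact hd a
  have hl : ∀ l : ℂ, star l * l = 1 → ∃ D, GoodD (Pi.single j ((1 / 2 : ℂ) •
      (Matrix.single a a 1 + star l • Matrix.single a b 1 + l • Matrix.single b a 1 +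
        Matrix.single b b 1))) D := by
    intro l h
    refine key _ ?_ ?_
    · simp only [smul_mul_assoc, mul_smul_comm, add_mul, mul_add, Matrix.single_mul_single_same,
        Matrix.single_mul_single_of_ne, hab, Ne.symm hab, ne_eq, not_false_eq_true, mul_one,
        smul_zero, add_zero, zero_add, smul_add, smul_smul]
      match_scalars
      · linear_combination (1 / 4 : ℂ) * h
      · ring
      · ring
      · linear_combination (1 / 4 : ℂ) * h
    · simp only [star_smul, star_add, Matrix.star_eq_conjTranspose, Matrix.conjTranspose_single,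
        star_one, star_star]
      simp
      abel
  obtain ⟨D1, h1⟩ := hl 1 (by simp)
  obtain ⟨D2, h2⟩ := hl I (by simp)
  obtain ⟨D3, h3⟩ := hd a
  obtain ⟨D4, h4⟩ := hd b
  refine ⟨_, cast (congrArg (fun Y => GoodD Y _) ?_)
    ((h1.add (h2.smul I)).add ((h3.add h4).smul (-(1 + I) / 2)))⟩
  simp only [← Pi.single_smul, ← Pi.single_add]
  congr 1
  simp only [RCLike.star_def, conj_I, map_one]
  match_scalars
  · ring
  · linear_combination (-1 / 2 : ℂ) * I_mul_I
  · linear_combination (1 / 2 : ℂ) * I_mul_I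
  · ring

lemma exists_time : ∃ D : Derivation ℂ (SS J n) (SS J n), Chain D ∧ (∀ j a b, D (Mp j a b) = 0) ∧
    (∀ j a b, D (Mm j a b) = 0) ∧ D sv = 1 ∧
    ∀ (f : SS J n) x (s : ℝ), HasDerivAt (fun s => f.1 (x, s)) ((D f).1 (x, s)) s := by
  let φ : ℝ → UX J n × ℝ → UX J n × ℝ := fun t z => (z.1, t + z.2)
  have d1 : ∀ j a b z, HasDerivAt (fun t => (Mm j a b).1 (φ t z)) ((0 : SS J n).1 z) 0 :=
    fun j a b z => hasDerivAt_const (0 : ℝ) ((Mm j a b).1 z)
  have d2 : ∀ j a b z, HasDerivAt (fun t => (Mp j a b).1 (φ t z)) ((0 : SS J n).1 z) 0 :=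
    fun j a b z => hasDerivAt_const (0 : ℝ) ((Mp j a b).1 z)
  have d3 : ∀ z, HasDerivAt (fun t => (sv : SS J n).1 (φ t z)) ((1 : SS J n).1 z) 0 :=
    fun z => ((hasDerivAt_id (0 : ℝ)).add_const z.2).ofReal_comp
  have hF : Flow (gens J n) φ := by
    refine ⟨fun z => by simp [φ], ?_⟩
    rintro f (⟨j, a, b, rfl⟩ | ⟨j, a, b, rfl⟩ | rfl)
    · exact ⟨_, Subtype.property _, d1 j a b⟩
    · exact ⟨_, Subtype.property _, d2 j a b⟩
    · exact ⟨_, Subtype.property _, d3⟩
  refine ⟨hF.der, hF.chain, fun j a b => hF.der_eq (d2 j a b), fun j a b => hF.der_eq (d1 j a b),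
    hF.der_eq d3, fun f x s => ?_⟩
  simpa [φ] using hF.der_at (fun s t z => by simp [φ, add_assoc]) f (x, 0) s

end Vale.Agent.P174
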