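import Vale.Agent.P174.Trans

/-! Determinant identities used for the nonvanishing of the top form. -/

namespace Vale.Agent.P174

open Finset

set_option linter.unusedSectionVars false
set_option linter.unusedSimpArgs false

section comm
variable {C : Type*} [CommRing C]

lemma add_pow_sq_zero {y S : C} (hy : y * y = 0) (k : ℕ) :
    (y + S) ^ (k + 1) = S ^ (k + 1) + (k + 1) * y * S ^ k := by
  induction k with
  | zero => simp [add_comm]
  | succ k ih =>
    rw [pow_succ, ih]
    push_cast
    linear_combination ((k + 1) * S ^ k) * hy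

lemma sum_pow_card {ι : Type*} [DecidableEq ι] (y : ι → C) (hy : ∀ i, y i * y i = 0) (s : Finset ι) :
    (∑ i ∈ s, y i) ^ s.card = s.card.factorial * ∏ i ∈ s, y i := by
  induction s using Finset.induction_on with
  | empty => simp
  | insert a s ha ih =>
    have h0 : (∑ i ∈ s, y i) ^ (s.card + 1) = 0 := by
      rw [pow_succ, ih, mul_assoc, Finset.mul_sum, Finset.sum_eq_zero, mul_zero]
      intro i hi
      rw [← Finset.mul_prod_erase s y hi, mul_right_comm, hy, zero_mul]
    rw [Finset.sum_insert ha, Finset.card_insert_of_notMem ha, add_pow_sq_zero (hy a), h0, ih,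
      Finset.prod_insert ha, Nat.factorial_succ]
    push_cast
    ring

lemma pow_mul_congr {a b T : C} (h : a * T = b * T) (k : ℕ) : a ^ k * T = b ^ k * T := by
  induction k with
  | zero => simp
  | succ k ih => rw [pow_succ, mul_assoc, h, mul_left_comm, ih]; ring

lemma prod_mul_congr {ι : Type*} (s : Finset ι) {f g : ι → C} {T : C}
    (h : ∀ i, f i * T = g i * T) : (∏ i ∈ s, f i) * T = (∏ i ∈ s, g i) * T := by
  classical
  induction s using Finset.induction_on with
  | empty => simp
  | insert a s ha ih =>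
    rw [Finset.prod_insert ha, Finset.prod_insert ha, mul_assoc, ih, mul_left_comm, h]; ring

lemma tri (N : ℕ) : ∀ x : Fin N → Fin N → C, (∀ a b, x a b = - x b a) → (∀ a b, x a b * x a b = 0) →
    (∀ a, x a a = 0) → ∏ r : Fin N, (∑ b, x r b) ^ (r : ℕ) =
      (∏ r : Fin N, ((r : ℕ).factorial : C)) * ∏ a, ∏ b ∈ Iio a, x a b := by
  induction N with
  | zero => intro x _ _ _; simp
  | succ N ih =>
    intro x h1 h2 h3
    have e1 := sum_pow_card (fun b : Fin N => x (Fin.last N) b.castSucc) (fun b => h2 _ _) univ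
    rw [Finset.card_univ, Fintype.card_fin] at e1
    rw [Fin.prod_univ_castSucc, Fin.prod_univ_castSucc, Fin.prod_univ_castSucc]
    simp only [Fin.sum_univ_castSucc, h3, add_zero, Fin.val_last, Fin.val_castSucc, e1]
    set T := ∏ b : Fin N, x (Fin.last N) b.castSucc with hT
    have e2 : ∏ b ∈ Iio (Fin.last N), x (Fin.last N) b = T := by
      rw [Fin.Iio_last_eq_map, Finset.prod_map]; rfl
    have e3 : ∀ a : Fin N, ∏ b ∈ Iio a.castSucc, x a.castSucc b =
        ∏ b ∈ Iio a, x a.castSucc b.castSucc := by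
      intro a
      rw [← Fin.map_castSuccEmb_Iio, Finset.prod_map]; rfl
    have e4 : (∏ r : Fin N, (∑ b : Fin N, x r.castSucc b.castSucc + x r.castSucc (Fin.last N)) ^
        (r : ℕ)) * T = (∏ r : Fin N, (∑ b : Fin N, x r.castSucc b.castSucc) ^ (r : ℕ)) * T := by
      refine prod_mul_congr _ fun r => pow_mul_congr ?_ _
      rw [add_mul, h1 r.castSucc (Fin.last N), hT, ← Finset.mul_prod_erase univ _ (mem_univ r)]
      simp only [neg_mul, ← mul_assoc, h2, zero_mul, neg_zero, add_zero]
    rw [ih (fun a b => x a.castSucc b.castSucc) (fun _ _ => h1 _ _) (fun _ _ => h2 _ _)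
      (fun _ => h3 _)] at e4
    simp only [e2, e3]
    linear_combination (N.factorial : C) * e4

lemma vander (N : ℕ) (x : Fin N → Fin N → C) (h1 : ∀ a b, x a b = - x b a)
    (h2 : ∀ a b, x a b * x a b = 0) (h3 : ∀ a, x a a = 0) :
    (Matrix.of fun (r : Fin N) (a : Fin N) => (∑ b, x a b) ^ (r : ℕ)).det =
      ((N.factorial * ∏ r : Fin N, (r : ℕ).factorial : ℕ) : C) * ∏ a, ∏ b ∈ Iio a, x a b := by
  rw [← Matrix.det_transpose, Matrix.det_apply']
  have : ∀ σ : Equiv.Perm (Fin N), ((Equiv.Perm.sign σ : ℤ) : C) *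
      ∏ i, (Matrix.of fun (r : Fin N) (a : Fin N) => (∑ b, x a b) ^ (r : ℕ)).transpose (σ i) i =
      (∏ r : Fin N, ((r : ℕ).factorial : C)) * ∏ a, ∏ b ∈ Iio a, x a b := by
    intro σ
    have e := tri N (fun a b => x (σ a) (σ b)) (fun _ _ => h1 _ _) (fun _ _ => h2 _ _)
      (fun _ => h3 _)
    have e2 := σ.prod_Iio_comp_eq_sign_mul_prod (f := fun i j => x j i) (fun _ _ => h1 _ _)
    simp only [Equiv.sum_comp σ (x _)] at e
    simp only [Matrix.transpose_apply, Matrix.of_apply, e, e2]
    have : ((Equiv.Perm.sign σ : ℤ) : C) * ((Equiv.Perm.sign σ : ℤ) : C) = 1 := by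
      rw [← Int.cast_mul, ← Units.val_mul, Int.units_mul_self]; simp
    linear_combination ((∏ r : Fin N, ((r : ℕ).factorial : C)) * ∏ a, ∏ b ∈ Iio a, x a b) * this
  simp only [this, Finset.sum_const, Finset.card_univ, Fintype.card_perm, Fintype.card_fin,
    nsmul_eq_mul]
  push_cast
  ring

lemma prod_eq_det_smul {Λ : Type*} [Ring Λ] [Algebra C Λ] {q : ℕ} (z : Fin q → Λ)
    (hz : ∀ v : Fin q → C, (∑ k, v k • z k) * (∑ k, v k • z k) = 0) (M : Matrix (Fin q) (Fin q) C) :
    (List.ofFn fun i => ∑ k, M i k • z k).prod = M.det • (List.ofFn z).prod := by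
  let lin : (Fin q → C) →ₗ[C] Λ := Fintype.linearCombination C z
  have hl : ∀ v, lin v = ∑ k, v k • z k := fun v => Fintype.linearCombination_apply _ _ _
  let Φ : ExteriorAlgebra C (Fin q → C) →ₐ[C] Λ :=
    ExteriorAlgebra.lift C ⟨lin, fun v => by rw [hl]; exact hz v⟩
  let f : (Fin q → C) [⋀^Fin q]→ₗ[C] Λ :=
    Φ.toLinearMap.compAlternatingMap (ExteriorAlgebra.ιMulti C q)
  have hf : ∀ v : Fin q → Fin q → C, f v = (List.ofFn fun i => ∑ k, v i k • z k).prod := by
    intro v
    simp only [f, LinearMap.compAlternatingMap_apply, ExteriorAlgebra.ιMulti_apply,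
      AlgHom.toLinearMap_apply, map_list_prod, List.map_ofFn, ← hl]
    congr 2
    funext i
    simp [Φ]
  have key : f = (Pi.basisFun C (Fin q)).det.smulRight (f (Pi.basisFun C (Fin q))) := by
    refine Module.Basis.ext_alternating (Pi.basisFun C (Fin q)) fun i h => ?_
    let σ : Equiv.Perm (Fin q) := Equiv.ofBijective i (Finite.injective_iff_bijective.1 h)
    change f (Pi.basisFun C (Fin q) ∘ σ) = ((Pi.basisFun C (Fin q)).det.smulRight
      (f (Pi.basisFun C (Fin q)))) (Pi.basisFun C (Fin q) ∘ σ)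
    rw [AlternatingMap.map_perm, AlternatingMap.map_perm, AlternatingMap.smulRight_apply,
      Module.Basis.det_self, one_smul]
  have h1 := hf fun i k => M i k
  rw [key, AlternatingMap.smulRight_apply, Pi.basisFun_det_apply, hf] at h1
  rw [← h1]
  congr 3
  funext i
  simp [Pi.single_apply]

end comm

end Vale.Agent.P174
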