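import Vale.Agent.P174.GAlg

/-! Choice of the window and the final phase estimate. -/

namespace Vale.Agent.P174

open Complex Finset

set_option linter.unusedSectionVars false
set_option linter.unusedSimpArgs false

lemma hasDerivAt_phaseC {n : ℕ} (b : Fin n → ℂ) (hb : ∑ i, (starRingEnd ℂ) (b i) * b i = 1)
    (s : ℝ) : HasDerivAt (fun s : ℝ => phase trC b (exp (s * I)))
      (1 - normSq (qq b (exp (s * I)))) s := by
  have := hasDerivAt_phase trC b hb (u := 1) (p := 1) (one_mem _) (by simp) (by simp) s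
  simp only [pth, smul_eq_mul, mul_one, one_mul, add_sub_cancel] at this
  refine this.congr_deriv ?_
  simp only [trC, LinearMap.id_apply, one_re, RCLike.star_def]
  rw [mul_comm, Complex.mul_conj]
  simp

lemma cos_le_of_mem {a x : ℝ} (ha : 0 ≤ a) (h1 : a ≤ x) (h2 : x ≤ 2 * Real.pi - a) :
    Real.cos x ≤ Real.cos a := by
  rcases le_total x Real.pi with h | h
  · exact Real.cos_le_cos_of_nonneg_of_le_pi ha h h1
  · rw [← Real.cos_two_pi_sub x]
    exact Real.cos_le_cos_of_nonneg_of_le_pi ha (by linarith) (by linarith)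

lemma exists_window {β η : ℝ} (hβ : 0 < β) (hβ1 : β ≤ 1) (hη : 0 < η) :
    ∃ (n : ℕ) (b : Fin n → ℂ), ∑ i, (starRingEnd ℂ) (b i) * b i = 1 ∧
      (∀ s : ℝ, 0 ≤ s → s ≤ 2 * Real.pi - β → (1 - η) * s ≤ phase trC b (exp (s * I))) ∧
      (∀ s : ℝ, 2 * Real.pi - β ≤ s → s ≤ 2 * Real.pi → -β ≤ phase trC b (exp (s * I))) := by
  have hpi := Real.pi_gt_three
  set c : ℝ := 2 - 2 * Real.cos (β / 2) with hc
  have hc0 : 0 < c := by
    have : Real.cos (β / 2) < Real.cos 0 :=
      Real.cos_lt_cos_of_nonneg_of_le_pi le_rfl (by linarith) (by linarith)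
    rw [Real.cos_zero] at this
    linarith
  obtain ⟨n, hn⟩ := exists_nat_gt (4 / (c * η))
  have hn0 : (0 : ℝ) < n := lt_trans (by positivity) hn
  set ζ : ℂ := exp ((β / 2 : ℝ) * I) with hζ
  have hζn : normSq ζ = 1 := by rw [Complex.normSq_eq_norm_sq, hζ, norm_exp_ofReal_mul_I]; simp
  set b : Fin n → ℂ := fun i => ζ ^ (i : ℕ) / (Real.sqrt n : ℝ) with hb
  have hb1 : ∑ i, (starRingEnd ℂ) (b i) * b i = 1 := by
    have : ∀ i, (starRingEnd ℂ) (b i) * b i = ((1 / n : ℝ) : ℂ) := by
      intro i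
      rw [mul_comm, Complex.mul_conj]
      congr 1
      simp only [hb, map_div₀, map_pow, hζn, one_pow, normSq_ofReal]
      rw [Real.mul_self_sqrt hn0.le]
    simp only [this, Finset.sum_const, Finset.card_univ, Fintype.card_fin, nsmul_eq_mul]
    have : (n : ℂ) ≠ 0 := by exact_mod_cast hn0.ne'
    push_cast
    field_simp
  have h0 : phase trC b (exp ((0 : ℝ) * I)) = 0 := by simp [phase]
  have h2 : phase trC b (exp ((2 * Real.pi : ℝ) * I)) = 0 := by
    have : exp ((2 * Real.pi : ℝ) * I) = 1 := by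
      push_cast; exact exp_two_pi_mul_I
    rw [this]; simp [phase]
  refine ⟨n, b, hb1, ?_, ?_⟩
  · have hq : ∀ s : ℝ, 0 ≤ s → s ≤ 2 * Real.pi - β → normSq (qq b (exp (s * I))) ≤ η := by
      intro s hs0 hs1
      set w : ℂ := exp ((s + β / 2 : ℝ) * I) with hw
      have hw1 : ζ * exp (s * I) = w := by
        rw [hζ, hw, ← exp_add]; congr 1; push_cast; ring
      have hwn : ‖w‖ = 1 := by rw [hw, norm_exp_ofReal_mul_I]
      have e : qq b (exp (s * I)) = (∑ i ∈ range n, w ^ i) / (Real.sqrt n : ℝ) := by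
        simp only [qq, hb, smul_eq_mul]
        rw [Finset.sum_div, ← Fin.sum_univ_eq_sum_range (fun i => w ^ i / (Real.sqrt n : ℝ))]
        refine Finset.sum_congr rfl fun i _ => ?_
        rw [← hw1, mul_pow]; ring
      have h1 : c ≤ normSq (w - 1) := by
        have : normSq (w - 1) = 2 - 2 * Real.cos (s + β / 2) := by
          rw [normSq_sub, Complex.normSq_eq_norm_sq, hwn, hw]
          simp only [map_one, mul_one, exp_ofReal_mul_I_re]
          ring
        rw [this, hc]
        have := cos_le_of_mem (a := β / 2) (x := s + β / 2) (by linarith) (by linarith)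
          (by linarith)
        linarith
      have h3 : normSq (∑ i ∈ range n, w ^ i) * normSq (w - 1) ≤ 4 := by
        rw [← map_mul, geom_sum_mul, Complex.normSq_eq_norm_sq]
        have : ‖w ^ n - 1‖ ≤ 2 := by
          refine (norm_sub_le _ _).trans ?_
          rw [norm_pow, hwn]; norm_num
        nlinarith [norm_nonneg (w ^ n - 1)]
      rw [e, map_div₀, normSq_ofReal, Real.mul_self_sqrt hn0.le, div_le_iff₀ hn0]
      have h4 : normSq (∑ i ∈ range n, w ^ i) * c ≤ 4 :=
        le_trans (mul_le_mul_of_nonneg_left h1 (normSq_nonneg _)) h3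
      rw [div_lt_iff₀ (by positivity)] at hn
      by_contra hcon
      push Not at hcon
      nlinarith
    have hd : ∀ s : ℝ, HasDerivAt (fun s : ℝ => phase trC b (exp (s * I)) - (1 - η) * s)
        (1 - normSq (qq b (exp (s * I))) - (1 - η)) s := by
      intro s
      have := (hasDerivAt_phaseC b hb1 s).sub ((hasDerivAt_id s).const_mul (1 - η))
      exact this.congr_deriv (by ring)
    have hm : MonotoneOn (fun s : ℝ => phase trC b (exp (s * I)) - (1 - η) * s)
        (Set.Icc 0 (2 * Real.pi - β)) := by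
      refine monotoneOn_of_deriv_nonneg (convex_Icc _ _)
        (fun s _ => (hd s).continuousAt.continuousWithinAt)
        (fun s _ => (hd s).differentiableAt.differentiableWithinAt) fun s hs => ?_
      rw [(hd s).deriv]
      have hs' := interior_subset hs
      have := hq s hs'.1 hs'.2
      linarith
    intro s hs0 hs1
    have := hm ⟨le_rfl, by linarith⟩ ⟨hs0, hs1⟩ hs0
    simp only [h0] at this
    linarith
  · have hd : ∀ s : ℝ, HasDerivAt (fun s : ℝ => phase trC b (exp (s * I)) - s)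
        (- normSq (qq b (exp (s * I)))) s := by
      intro s
      have := (hasDerivAt_phaseC b hb1 s).sub (hasDerivAt_id s)
      exact this.congr_deriv (by ring)
    have hm : Antitone (fun s : ℝ => phase trC b (exp (s * I)) - s) :=
      antitone_of_deriv_nonpos (fun s => (hd s).differentiableAt) fun s => by
        rw [(hd s).deriv, neg_nonpos]; exact normSq_nonneg _
    intro s hs0 hs1
    have := hm hs1
    simp only [h2] at this
    linarith

lemma window_lower {β η : ℝ} (hβ : 0 < β) (hη0 : 0 < η) (hη : η ≤ 1) {n : ℕ} {b : Fin n → ℂ}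
    (h1 : ∀ s : ℝ, 0 ≤ s → s ≤ 2 * Real.pi - β → (1 - η) * s ≤ phase trC b (exp (s * I)))
    (h2 : ∀ s : ℝ, 2 * Real.pi - β ≤ s → s ≤ 2 * Real.pi → -β ≤ phase trC b (exp (s * I)))
    {z : ℂ} (hz : ‖z‖ = 1) : (1 - η) * (1 - z.re) - β - β ^ 2 ≤ phase trC b z := by
  obtain ⟨s, hs0, hs1, rfl⟩ : ∃ s : ℝ, 0 ≤ s ∧ s ≤ 2 * Real.pi ∧ z = exp (s * I) := by
    have e := norm_mul_exp_arg_mul_I z
    rw [hz, ofReal_one, one_mul] at e
    have ha := neg_pi_lt_arg z
    have hb := arg_le_pi z
    have := Real.pi_pos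
    rcases le_total 0 (arg z) with h | h
    · exact ⟨arg z, h, by linarith, e.symm⟩
    · refine ⟨arg z + 2 * Real.pi, by linarith, by linarith, ?_⟩
      push_cast
      rw [add_mul, exp_add, exp_two_pi_mul_I, mul_one, e]
  rw [exp_ofReal_mul_I_re]
  rcases le_total s (2 * Real.pi - β) with h | h
  · have h3 := h1 s hs0 h
    have h4 : 1 - Real.cos s ≤ s := by
      rcases le_total s 2 with h5 | h5
      · have := Real.one_sub_sq_div_two_le_cos (x := s)
        nlinarith
      · have := Real.neg_one_le_cos s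
        linarith
    have := mul_le_mul_of_nonneg_left h4 (sub_nonneg.2 hη)
    nlinarith
  · have h3 := h2 s h hs1
    have h4 : 1 - Real.cos s ≤ β ^ 2 := by
      have := Real.one_sub_sq_div_two_le_cos (x := 2 * Real.pi - s)
      rw [Real.cos_two_pi_sub] at this
      nlinarith
    have h5 : 0 ≤ 1 - Real.cos s := sub_nonneg.2 (Real.cos_le_one s)
    nlinarith

theorem eq_one_of_prd {G : Type*} [Group G] {Y : Type*} [Fintype Y] [DecidableEq Y] (pt : Y)
    (g : G) (L : ℕ) (hL : Fintype.card Y = L + 1)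
    (H : ∀ e : Circle, Prd ((trG G).mat Y) (2 * L)
      (Matrix.diagonal fun y => if y = pt then lam (e ^ L, g) else lam (e⁻¹, 1))) : g = 1 := by
  by_contra hg
  have hpi := Real.pi_lt_d2
  have hpi3 := Real.pi_gt_three
  set ε : ℝ := 1 / (10 * (L + 1)) with hε
  have hL0 : (0 : ℝ) ≤ L := Nat.cast_nonneg L
  have hε0 : 0 < ε := by positivity
  have hε1 : ε * (L + 1) = 1 / 10 := by rw [hε]; field_simp
  have hε2 : ε ≤ 1 / 10 := by nlinarith
  obtain ⟨n, b, hb, h1, h2⟩ := exists_window hε0 (by linarith) hε0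
  have h3 := (H (Circle.exp ε)).phase_le b hb
  rw [phase_diagonal, ← Finset.add_sum_erase _ _ (Finset.mem_univ pt), if_pos rfl,
    Finset.sum_congr rfl (g := fun _ => phase trC b ((Circle.exp ε)⁻¹ : Circle))
      (fun y hy => by rw [if_neg (Finset.ne_of_mem_erase hy), phase_lam_one]),
    Finset.sum_const, Finset.card_erase_of_mem (Finset.mem_univ _), Finset.card_univ, hL,
    Nat.add_sub_cancel, nsmul_eq_mul] at h3
  have h4 : (1 - ε) * (2 * Real.pi - ε) ≤ phase trC b ((Circle.exp ε)⁻¹ : Circle) := by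
    have := h1 (2 * Real.pi - ε) (by linarith) le_rfl
    convert this using 2
    rw [← Circle.exp_neg, Circle.coe_exp]
    push_cast
    rw [sub_mul, exp_sub, exp_two_pi_mul_I, neg_mul, exp_neg, one_div]
  obtain ⟨r, hr2, hr⟩ := phase_lam_avg b (Circle.exp ε ^ L) hg
  have hr0 : r ≠ 0 := by omega
  have hrR : (0 : ℝ) < r := by positivity
  have hprim := Complex.isPrimitiveRoot_exp r hr0
  have h5 : (1 - ε) - ε - ε ^ 2 ≤ phase (trG G) b (lam (Circle.exp ε ^ L, g)) := by
    rw [hr, le_div_iff₀ hrR]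
    have h6 : ∀ k ∈ range r, (1 - ε) * (1 - (((Circle.exp ε ^ L : Circle) : ℂ) *
        exp (2 * Real.pi * I / r) ^ k).re) - ε - ε ^ 2 ≤
        phase trC b (((Circle.exp ε ^ L : Circle) : ℂ) * exp (2 * Real.pi * I / r) ^ k) := by
      intro k _
      refine window_lower hε0 hε0 (by linarith) h1 h2 ?_
      rw [norm_mul, norm_pow, hprim.norm'_eq_one hr0]
      simp
    refine le_trans (le_of_eq ?_) (Finset.sum_le_sum h6)
    rw [Finset.sum_sub_distrib, Finset.sum_sub_distrib, ← Finset.mul_sum, Finset.sum_sub_distrib,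
      ← Complex.re_sum, ← Finset.mul_sum, hprim.geom_sum_eq_zero (by omega)]
    simp
    ring
  have h7 := mul_le_mul_of_nonneg_left h4 hL0
  have h8 : (1 - ε) - ε - ε ^ 2 + L * ((1 - ε) * (2 * Real.pi - ε)) ≤ Real.pi * (2 * L) := by
    linarith
  have h9 : ε * L ≤ 1 / 10 := by nlinarith
  have h10 : 0 ≤ ε * L := by positivity
  nlinarith

end Vale.Agent.P174
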