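import Vale.Agent.P174.Mon

/-! Words in the free product and their cancellation structure. -/

namespace Vale.Agent.P174

open Monoid

set_option linter.unusedSectionVars false
set_option linter.unusedSimpArgs false

abbrev Ltr (n : ℕ) := Fin n × Bool

def linv {n : ℕ} (l : Ltr n) : Ltr n := (l.1, !l.2)

@[simp] lemma linv_linv {n : ℕ} (l : Ltr n) : linv (linv l) = l := by simp [linv]

variable {G : Type*} [Group G] {n : ℕ} {Y : Type*}

def lev (G : Type*) [Group G] (l : Ltr n) : Coprod G (FreeGroup (Fin n)) :=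
  if l.2 then Coprod.inr (FreeGroup.of l.1) else (Coprod.inr (FreeGroup.of l.1))⁻¹

lemma lev_linv (l : Ltr n) : lev G (linv l) = (lev G l)⁻¹ := by
  obtain ⟨j, b⟩ := l
  cases b <;> simp [lev, linv]

def ev (lab : Y → Ltr n) : G ⊕ Y → Coprod G (FreeGroup (Fin n))
  | Sum.inl γ => Coprod.inl γ
  | Sum.inr y => lev G (lab y)

inductive Val (lab : Y → Ltr n) : List (G ⊕ Y) → G → Prop
  | nil : Val lab [] 1
  | cons {W g} (γ : G) : Val lab W g → Val lab (Sum.inl γ :: W) (γ * g)
  | wrap {B A g} (y y' : Y) : Val lab B 1 → Val lab A g → lab y' = linv (lab y) →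
      Val lab (Sum.inr y :: (B ++ Sum.inr y' :: A)) g

open Classical in
noncomputable def stepL (y : Ltr n) : G × List (Ltr n × G) → G × List (Ltr n × G)
  | (c, []) => (1, [(y, c)])
  | (c, p :: st) => if c = 1 ∧ p.1 = linv y then (p.2, st) else (1, (y, c) :: p :: st)

def Red (s : G × List (Ltr n × G)) : Prop :=
  List.IsChain (fun p q : Ltr n × G => ¬ (p.2 = 1 ∧ q.1 = linv p.1)) s.2

lemma Red.step (y : Ltr n) {s : G × List (Ltr n × G)} (h : Red s) : Red (stepL y s) := by
  obtain ⟨c, st⟩ := s
  cases st with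
  | nil => simp [stepL, Red]
  | cons p st =>
    simp only [stepL]
    split_ifs with h1
    · exact List.IsChain.tail h
    · exact List.IsChain.cons_cons h1 h

lemma stepL_stepL (y : Ltr n) {s : G × List (Ltr n × G)} (h : Red s) :
    stepL (linv y) (stepL y s) = s := by
  obtain ⟨c, st⟩ := s
  cases st with
  | nil => simp [stepL]
  | cons p st =>
    by_cases h1 : c = 1 ∧ p.1 = linv y
    · have e : stepL y (c, p :: st) = (p.2, st) := by simp only [stepL]; rw [if_pos h1]
      rw [e]
      obtain ⟨rfl, h2⟩ := h1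
      cases st with
      | nil => simp [stepL, ← h2]
      | cons q st =>
        have h3 := (List.isChain_cons_cons.1 h).1
        simp only [stepL]
        rw [if_neg (by rwa [← h2]), ← h2]
    · have e : stepL y (c, p :: st) = (1, (y, c) :: p :: st) := by
        simp only [stepL]; rw [if_neg h1]
      rw [e]
      simp [stepL]

noncomputable def permL (y : Ltr n) : Equiv.Perm {s : G × List (Ltr n × G) // Red s} where
  toFun s := ⟨stepL y s.1, s.2.step y⟩
  invFun s := ⟨stepL (linv y) s.1, s.2.step _⟩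
  left_inv s := Subtype.ext (stepL_stepL y s.2)
  right_inv s := Subtype.ext (by simpa using stepL_stepL (linv y) s.2)

def permG : G →* Equiv.Perm {s : G × List (Ltr n × G) // Red s} where
  toFun γ :=
    { toFun := fun s => ⟨(γ * s.1.1, s.1.2), s.2⟩
      invFun := fun s => ⟨(γ⁻¹ * s.1.1, s.1.2), s.2⟩
      left_inv := fun s => by simp
      right_inv := fun s => by simp }
  map_one' := by ext s <;> simp
  map_mul' a b := by ext s <;> simp [mul_assoc]

noncomputable def act : Coprod G (FreeGroup (Fin n)) →* Equiv.Perm {s : G × List (Ltr n × G) // Red s} :=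
  Coprod.lift permG (FreeGroup.lift fun j => permL (j, true))

lemma act_lev (l : Ltr n) : act (lev G l) = permL l := by
  obtain ⟨j, b⟩ := l
  cases b
  · simp only [lev, Bool.false_eq_true, if_false, map_inv, act, Coprod.lift_apply_inr,
      FreeGroup.lift_apply_of]
    rfl
  · simp [lev, act]

inductive Dec (lab : Y → Ltr n) : List (G ⊕ Y) → G → List (Ltr n × G) → Prop
  | base {W c} : Val lab W c → Dec lab W c []
  | push {B c W γ st} (y : Y) : Val lab B c → Dec lab W γ st →
      Dec lab (B ++ Sum.inr y :: W) c ((lab y, γ) :: st)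

lemma Dec.consG {lab : Y → Ltr n} {W c st} (γ : G) (h : Dec lab W c st) :
    Dec lab (Sum.inl γ :: W) (γ * c) st := by
  cases h with
  | base h => exact Dec.base (h.cons γ)
  | push y h1 h2 => exact Dec.push y (h1.cons γ) h2

lemma Dec.pre {lab : Y → Ltr n} {B W : List (G ⊕ Y)} {c st} (y y' : Y) (hB : Val lab B 1)
    (hy : lab y' = linv (lab y)) (h : Dec lab W c st) :
    Dec lab (Sum.inr y :: (B ++ Sum.inr y' :: W)) c st := by
  cases h with
  | base h => exact Dec.base (Val.wrap y y' hB h hy)
  | push z h1 h2 =>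
    have := Dec.push z (Val.wrap y y' hB h1 hy) h2
    simpa using this

lemma Dec.consY {lab : Y → Ltr n} {W : List (G ⊕ Y)} {c st} (y : Y) (h : Dec lab W c st) :
    Dec lab (Sum.inr y :: W) (stepL (lab y) (c, st)).1 (stepL (lab y) (c, st)).2 := by
  have hp : Dec lab (Sum.inr y :: W) 1 ((lab y, c) :: st) := Dec.push (B := []) y Val.nil h
  cases h with
  | base h => exact hp
  | push z h1 h2 =>
    simp only [stepL]
    split_ifs with h3
    · obtain ⟨rfl, h4⟩ := h3
      exact Dec.pre y z h1 h4 h2
    · exact hp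

lemma dec_act (lab : Y → Ltr n) (W : List (G ⊕ Y)) :
    Dec lab W (act (W.map (ev lab)).prod ⟨(1, []), List.IsChain.nil⟩).1.1
      (act (W.map (ev lab)).prod ⟨(1, []), List.IsChain.nil⟩).1.2 := by
  induction W with
  | nil => exact Dec.base (by simpa using Val.nil)
  | cons a W ih =>
    rw [List.map_cons, List.prod_cons, map_mul, Equiv.Perm.mul_apply]
    cases a with
    | inl γ =>
      have := ih.consG γ
      simpa [ev, act, permG] using this
    | inr y =>
      have := ih.consY y
      simpa [ev, act_lev, permL] using this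

lemma val_of_ev (lab : Y → Ltr n) (W : List (G ⊕ Y)) (g : G)
    (h : (W.map (ev lab)).prod = Coprod.inl g) : Val lab W g := by
  have := dec_act lab W
  rw [h] at this
  simp only [act, Coprod.lift_apply_inl, permG, MonoidHom.coe_mk, OneHom.coe_mk, Equiv.coe_fn_mk,
    mul_one] at this
  cases this with
  | base h => exact h

variable [DecidableEq Y]

noncomputable def cl (pt : Y) : G ⊕ Y → Mon Y (Circle × G)
  | Sum.inl γ => dpt pt (1, γ)
  | Sum.inr y => tr pt y 1

noncomputable def CW (pt : Y) (W : List (G ⊕ Y)) : Mon Y (Circle × G) := (W.map (cl pt)).prod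

def nm (W : List (G ⊕ Y)) : List Y := W.filterMap Sum.getRight?

@[simp] lemma nm_nil : nm ([] : List (G ⊕ Y)) = [] := rfl
@[simp] lemma nm_inl (γ : G) (W : List (G ⊕ Y)) : nm (Sum.inl γ :: W) = nm W := rfl
@[simp] lemma nm_inr (y : Y) (W : List (G ⊕ Y)) : nm (Sum.inr y :: W) = y :: nm W := by simp [nm]
@[simp] lemma nm_append (V W : List (G ⊕ Y)) : nm (V ++ W) = nm V ++ nm W := by simp [nm]
@[simp] lemma CW_nil (pt : Y) : CW pt ([] : List (G ⊕ Y)) = 1 := rfl
@[simp] lemma CW_cons (pt : Y) (a : G ⊕ Y) (W : List (G ⊕ Y)) :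
    CW pt (a :: W) = cl pt a * CW pt W := by simp [CW]
@[simp] lemma CW_append (pt : Y) (V W : List (G ⊕ Y)) : CW pt (V ++ W) = CW pt V * CW pt W := by
  simp [CW]

lemma CW_supp (pt : Y) (W : List (G ⊕ Y)) : Supp (CW pt W) {j | j = pt ∨ j ∈ nm W} := by
  induction W with
  | nil => exact Supp.one _
  | cons a W ih =>
    rw [CW_cons]
    cases a with
    | inl γ =>
      exact Supp.mul ((dpt_supp _ _).mono (by intro j hj; left; exact hj)) (by simpa using ih)
    | inr y =>
      refine Supp.mul ((tr_supp _ _ _).mono ?_) (ih.mono ?_)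
      · rintro j (hj | hj)
        · left; exact hj
        · right; simp only [Set.mem_singleton_iff] at hj; simp [hj]
      · rintro j (hj | hj)
        · left; exact hj
        · right; simp [hj]

/-- The target diagonal operator. -/
noncomputable def Dl (pt : Y) (e : Circle) (S : List Y) (g : G) : Mon Y (Circle × G) :=
  dg fun j => if j = pt then (e ^ S.length, g) else if j ∈ S then (e⁻¹, 1) else 1

variable [Fintype Y]

theorem comb1 {lab : Y → Ltr n} (pt : Y) (e : Circle) {W : List (G ⊕ Y)} {g : G}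
    (h : Val lab W g) (hN : (nm W).Nodup) (hp : pt ∉ nm W) :
    ∃ P : Mon Y (Circle × G), Supp P {j | j ∈ nm W} ∧ P * P = 1 ∧ (∀ j, (P.a j).2 = 1) ∧
      (∀ j ∈ nm W, lab (P.σ j) = linv (lab j)) ∧
      Rl ((nm W).length / 2) (P * CW pt W) (Dl pt e (nm W) g) := by
  induction h with
  | nil =>
    refine ⟨1, Supp.one _, by simp, by simp, by simp, ?_⟩
    simp only [nm_nil, List.length_nil, Nat.cast_zero, zero_div, CW_nil, mul_one]
    refine Rl.of_eq (Mon.ext' fun j => ?_)
    simp only [Dl, List.length_nil, pow_zero, List.not_mem_nil, if_false, dg_a, dg_σ]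
    refine ⟨rfl, ?_⟩
    split_ifs <;> rfl
  | @cons W g γ _ ih =>
    simp only [nm_inl] at hN hp ⊢
    obtain ⟨P, h1, h2, h3, h4, h5⟩ := ih hN hp
    refine ⟨P, h1, h2, h3, h4, ?_⟩
    have hc : P * dpt pt (1, γ) = dpt pt (1, γ) * P :=
      h1.comm (dpt_supp _ _) fun j hj h => hp (by rw [Set.mem_singleton_iff.1 h] at hj; exact hj)
    rw [CW_cons, cl, ← mul_assoc, hc, mul_assoc]
    convert h5.left (dpt pt (1, γ)) using 1
    refine Mon.ext' fun j => ?_
    by_cases hj : j = pt <;> simp [Dl, dpt_a, hj]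
  | @wrap B A g y y' _ _ hl ihB ihA =>
    simp only [nm_inr, nm_append, List.nodup_cons, List.mem_append, List.mem_cons, not_or,
      List.nodup_append, forall_eq_or_imp, ne_eq] at hN hp
    obtain ⟨⟨hyB, hyy', hyA⟩, hNB, ⟨hy'A, hNA⟩, hBA⟩ := hN
    obtain ⟨hpy, hpB, hpy', hpA⟩ := hp
    have hy'B : y' ∉ nm B := fun h => (hBA _ h).1 rfl
    have hBA' : ∀ j, j ∈ nm B → j ∉ nm A := fun j hj hj' => (hBA j hj).2 j hj' rfl
    obtain ⟨PB, b1, b2, b3, b4, b5⟩ := ihB hNB hpB
    obtain ⟨PA, a1, a2, a3, a4, a5⟩ := ihA hNA hpA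
    set ρ : Circle × G := (e ^ (nm B).length, 1) with hρ
    set ζ : Circle × G := (e⁻¹, 1) * ρ⁻¹ with hζ
    set κ : Circle × G := (e, 1) * ζ⁻¹ with hκ
    set π0 := tr y y' ζ with hπ
    have hπs : Supp π0 {y, y'} := tr_supp _ _ _
    have cπB : PB * π0 = π0 * PB := b1.comm hπs (by
      rintro j hj (rfl | rfl)
      exacts [hyB hj, hy'B hj])
    have cπA : PA * π0 = π0 * PA := a1.comm hπs (by
      rintro j hj (rfl | rfl)
      exacts [hyA hj, hy'A hj])
    have cBA : PB * PA = PA * PB := b1.comm a1 hBA'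
    refine ⟨π0 * PB * PA, ?_, ?_, ?_, ?_, ?_⟩
    · refine Supp.mul (Supp.mul (hπs.mono ?_) (b1.mono ?_)) (a1.mono ?_)
      · rintro j (rfl | rfl) <;> simp
      · intro j hj; simp only [Set.mem_ofPred_eq] at hj; simp [hj]
      · intro j hj; simp only [Set.mem_ofPred_eq] at hj; simp [hj]
    · calc π0 * PB * PA * (π0 * PB * PA) = π0 * PB * (PA * π0) * PB * PA := by group
        _ = π0 * (PB * π0) * (PA * PB) * PA := by rw [cπA]; group
        _ = (π0 * π0) * (PB * PB) * (PA * PA) := by rw [cπB, ← cBA]; group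
        _ = 1 := by rw [tr_mul_self hyy', b2, a2]; simp
    · intro j
      simp only [Mon.mul_a, Prod.snd_mul, a3, b3, mul_one, hπ, tr_a]
      split_ifs <;> simp [hζ, hρ]
    · intro j hj
      simp only [nm_inr, nm_append, List.mem_append, List.mem_cons] at hj
      simp only [Mon.mul_σ, Equiv.Perm.mul_apply, hπ, tr_σ]
      rcases hj with rfl | hj | rfl | hj
      · rw [(a1 j hyA).1, (b1 j hyB).1, Equiv.swap_apply_left, hl]
      · have := b1.mem hj
        rw [(a1 j (hBA' j hj)).1, Equiv.swap_apply_of_ne_of_ne, b4 j hj]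
        · rintro h; rw [h] at this; exact hyB this
        · rintro h; rw [h] at this; exact hy'B this
      · rw [(a1 j hy'A).1, (b1 j hy'B).1, Equiv.swap_apply_right, hl, linv_linv]
      · have := a1.mem hj
        rw [(b1 _ fun h => hBA' _ h this).1, Equiv.swap_apply_of_ne_of_ne, a4 j hj]
        · rintro h; rw [h] at this; exact hyA this
        · rintro h; rw [h] at this; exact hy'A this
    · have c1 : PB * tr pt y 1 = tr pt y 1 * PB := b1.comm (tr_supp _ _ _) (by
        rintro j hj (rfl | rfl)
        exacts [hpB hj, hyB hj])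
      have c2 : PA * (tr pt y 1 * CW pt B * tr pt y' 1) = (tr pt y 1 * CW pt B * tr pt y' 1) * PA := by
        refine a1.comm (T := {j | j = pt ∨ j = y ∨ j = y' ∨ j ∈ nm B}) ?_ ?_
        · refine Supp.mul (Supp.mul ((tr_supp _ _ _).mono ?_) ((CW_supp _ _).mono ?_))
            ((tr_supp _ _ _).mono ?_)
          · rintro j (rfl | rfl) <;> simp
          · rintro j (rfl | hj)
            · simp
            · simp [hj]
          · rintro j (rfl | rfl) <;> simp
        · rintro j hj (rfl | rfl | rfl | h)
          exacts [hpA hj, hyA hj, hy'A hj, hBA' j h hj]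
      have e1 : π0 * PB * PA * CW pt (Sum.inr y :: (B ++ Sum.inr y' :: A)) =
          (π0 * tr pt y 1 * (PB * CW pt B) * tr pt y' 1) * (PA * CW pt A) := by
        simp only [CW_cons, CW_append, cl]
        calc π0 * PB * PA * (tr pt y 1 * (CW pt B * (tr pt y' 1 * CW pt A)))
            = π0 * PB * (PA * (tr pt y 1 * CW pt B * tr pt y' 1)) * CW pt A := by group
          _ = π0 * (PB * tr pt y 1) * CW pt B * tr pt y' 1 * PA * CW pt A := by rw [c2]; group
          _ = _ := by rw [c1]; group
      rw [e1]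
      set EB : Mon Y (Circle × G) := dg fun j => if j ∈ nm B then (e⁻¹, 1) else 1 with hEB
      have sEB : Supp EB {j | j ∈ nm B} := by
        intro j hj
        simp only [Set.mem_ofPred_eq] at hj
        simp [hEB, hj]
      have e2 : Dl pt e (nm B) 1 = dpt pt ρ * EB := by
        refine Mon.ext' fun j => ?_
        by_cases hj : j = pt
        · subst hj; simp [Dl, dpt_a, hEB, hpB, hρ]
        · simp [Dl, dpt_a, hEB, hj]
      have c3 : EB * tr pt y' 1 = tr pt y' 1 * EB := sEB.comm (tr_supp _ _ _) (by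
        rintro j hj (rfl | rfl)
        exacts [hpB hj, hy'B hj])
      have r1 := (b5.both (π0 * tr pt y 1) (tr pt y' 1)).mul a5
      have e3 : π0 * tr pt y 1 * Dl pt e (nm B) 1 * tr pt y' 1 * Dl pt e (nm A) g =
          (π0 * tr pt y 1 * dpt pt ρ * tr pt y' 1) * (EB * Dl pt e (nm A) g) := by
        rw [e2]
        calc π0 * tr pt y 1 * (dpt pt ρ * EB) * tr pt y' 1 * Dl pt e (nm A) g
            = π0 * tr pt y 1 * dpt pt ρ * (EB * tr pt y' 1) * Dl pt e (nm A) g := by group
          _ = _ := by rw [c3]; group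
      rw [e3] at r1
      have r2 := (Rl.tr hpy κ (π0 * tr pt y 1 * dpt pt ρ * tr pt y' 1)).right (EB * Dl pt e (nm A) g)
      rw [core_three hpy hpy' hyy'] at r2
      have r3 := r1.trans r2
      convert r3 using 1
      · simp only [nm_inr, nm_append, List.length_cons, List.length_append]
        push_cast; ring
      · refine Mon.ext' fun j => ⟨rfl, ?_⟩
        simp only [Dl, hEB, Mon.mul_a, dg_a, dg_σ, Mon.mul_σ, mul_one, Equiv.Perm.one_apply, nm_inr,
          nm_append, List.length_cons, List.length_append, List.mem_cons, List.mem_append]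
        by_cases j1 : j = pt
        · subst j1
          simp only [if_true, hpB, if_false, hκ, hζ, hρ]
          refine Prod.ext ?_ ?_
          · simp only [Prod.fst_mul, Prod.fst_inv, mul_inv_rev, inv_inv, Prod.fst_one, one_mul]
            rw [pow_succ, pow_add, pow_succ]
            simp only [mul_comm, mul_left_comm, mul_assoc]
          · simp
        · by_cases j2 : j = y
          · subst j2
            simp [j1, hyB, hyA, hκ]
          · by_cases j3 : j = y'
            · subst j3
              simp [j1, j2, hy'B, hy'A, hζ]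
            · by_cases j4 : j ∈ nm B
              · simp [j1, j2, j3, j4, hBA' j j4]
              · simp [j1, j2, j3, j4]

end Vale.Agent.P174
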